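import Claimed.Agent.R285.Defs

/-!
# ROW 285, leaf L-BES (#12185, helper90): the Bessel weight `bes b k = e^{-b} I_k(b)`.  ALL PROVED, no `sorry`.

The API of `Base/Height.lean`, section 4 (statements verbatim): `bes_pos`, `bes_neg`, `bes_summable_exp`, `bes_mgf`, `bes_char`, `bes_fourier`, `bes_conv`.
Stronger forms (ALL REAL `b`, `HasSum`):
* `bes_hasSum_cexp b w : HasSum (fun k => bes b k * cexp (k w)) (cexp (b (cosh w - 1)))`  (complex `w`: THE generating function)
* `bes_hasSum_exp`, `bes_hasSum_cos`, `bes_summable_abs`, `bes_nonneg`, `bes_inner_summable`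
* `bes_integral_mul` (termwise integration of the Fourier series against a continuous function), `bes_orth`, `bes_fourier_c`, `bes_conv_hasSum`.
Route: Cauchy product of two exponential series, reindexed by the charge (`besEqv : ℤ × ℕ ≃ ℕ × ℕ`); Fourier coefficients by dominated convergence.
-/

set_option autoImplicit false

namespace Claimed.Agent.R285

open MeasureTheory Filter Topology

noncomputable section

/-- reindexing of the double exponential series by the charge `k = q - p`. -/
def besEqv : ℤ × ℕ ≃ ℕ × ℕ where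
  toFun x := (x.2 + (-x.1).toNat, x.2 + x.1.toNat)
  invFun y := ((y.2 : ℤ) - y.1, min y.1 y.2)
  left_inv := by
    rintro ⟨k, m⟩
    simp only [Prod.mk.injEq]
    constructor <;> omega
  right_inv := by
    rintro ⟨p, q⟩
    simp only [Prod.mk.injEq]
    constructor <;> omega

/-- the double series. -/
def besD (a w : ℂ) (y : ℕ × ℕ) : ℂ :=
  (a * Complex.exp (-w)) ^ y.1 / (y.1.factorial : ℂ) * ((a * Complex.exp w) ^ y.2 / (y.2.factorial : ℂ))

theorem bes_D_summable_norm (a w : ℂ) : Summable fun y => ‖besD a w y‖ := by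
  have h1 := NormedSpace.norm_expSeries_div_summable (a * Complex.exp (-w))
  have h2 := NormedSpace.norm_expSeries_div_summable (a * Complex.exp w)
  have := h1.mul_of_nonneg h2 (fun _ => norm_nonneg _) (fun _ => norm_nonneg _)
  refine this.congr ?_
  intro y
  simp only [besD, norm_mul]

theorem bes_D_hasSum (a w : ℂ) : HasSum (besD a w) (Complex.exp (a * (Complex.exp w + Complex.exp (-w)))) := by
  have h1 := NormedSpace.expSeries_div_hasSum_exp (a * Complex.exp (-w))
  have h2 := NormedSpace.expSeries_div_hasSum_exp (a * Complex.exp w)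
  rw [← Complex.exp_eq_exp_ℂ] at h1 h2
  have h3 := h1.mul h2 (bes_D_summable_norm a w).of_norm
  have e : Complex.exp (a * (Complex.exp w + Complex.exp (-w)))
      = Complex.exp (a * Complex.exp (-w)) * Complex.exp (a * Complex.exp w) := by
    rw [← Complex.exp_add]
    congr 1
    ring
  rw [e]
  exact h3

theorem bes_D_eqv (a w : ℂ) (k : ℤ) (m : ℕ) :
    besD a w (besEqv (k, m)) =
      a ^ (2 * m + k.natAbs) / ((m.factorial : ℂ) * ((m + k.natAbs).factorial : ℂ)) * Complex.exp (k * w) := by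
  obtain ⟨n, rfl | rfl⟩ := k.eq_nat_or_neg
  · have e1 : besEqv ((n : ℤ), m) = (m, m + n) := by
      simp [besEqv]
    rw [e1]
    simp only [besD, Int.natAbs_natCast, mul_pow, ← Complex.exp_nat_mul]
    have e2 : Complex.exp ((m : ℂ) * -w) * Complex.exp (((m + n : ℕ) : ℂ) * w) = Complex.exp (((n : ℤ) : ℂ) * w) := by
      rw [← Complex.exp_add]
      congr 1
      push_cast
      ring
    have e3 : a ^ (2 * m + n) = a ^ m * a ^ (m + n) := by
      rw [← pow_add]
      congr 1
      ring
    rw [← e2, e3]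
    field_simp
  · have e1 : besEqv (-(n : ℤ), m) = (m + n, m) := by
      simp [besEqv]
    rw [e1]
    simp only [besD, Int.natAbs_neg, Int.natAbs_natCast, mul_pow, ← Complex.exp_nat_mul]
    have e2 : Complex.exp (((m + n : ℕ) : ℂ) * -w) * Complex.exp ((m : ℂ) * w) = Complex.exp (((-(n : ℤ) : ℤ) : ℂ) * w) := by
      rw [← Complex.exp_add]
      congr 1
      push_cast
      ring
    have e3 : a ^ (2 * m + n) = a ^ (m + n) * a ^ m := by
      rw [← pow_add]
      congr 1
      ring
    rw [← e2, e3]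
    field_simp

/-- the power series of `I_n`, complex argument. -/
theorem bes_inner_summable_c (a : ℂ) (k : ℤ) :
    Summable fun m : ℕ => a ^ (2 * m + k.natAbs) / ((m.factorial : ℂ) * ((m + k.natAbs).factorial : ℂ)) := by
  have h1 : Summable (besD a 0 ∘ besEqv) := (besEqv.summable_iff).2 (bes_D_summable_norm a 0).of_norm
  have h2 := h1.prod_factor k
  refine h2.congr ?_
  intro m
  simp only [Function.comp]
  rw [bes_D_eqv]
  simp

theorem bes_inner_summable (b : ℝ) (k : ℤ) :
    Summable fun m : ℕ => (b / 2) ^ (2 * m + k.natAbs) / ((m.factorial : ℝ) * ((m + k.natAbs).factorial : ℝ)) := by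
  have h := bes_inner_summable_c ((b / 2 : ℝ) : ℂ) k
  rw [← Complex.summable_ofReal]
  refine h.congr ?_
  intro m
  push_cast
  rfl

theorem bes_ofReal (b : ℝ) (k : ℤ) :
    (bes b k : ℂ) = Complex.exp (-(b : ℂ)) *
      ∑' m : ℕ, ((b / 2 : ℝ) : ℂ) ^ (2 * m + k.natAbs) / ((m.factorial : ℂ) * ((m + k.natAbs).factorial : ℂ)) := by
  unfold bes
  rw [Complex.ofReal_mul, Complex.ofReal_exp, Complex.ofReal_tsum]
  congr 2
  · push_cast; rfl
  · funext m
    push_cast
    rfl

/-- **the generating function**: `∑_k p_b(k) e^{k w} = exp (b (cosh w - 1))`, all real `b`, all complex `w`. -/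
theorem bes_hasSum_cexp (b : ℝ) (w : ℂ) :
    HasSum (fun k : ℤ => (bes b k : ℂ) * Complex.exp (k * w)) (Complex.exp (b * (Complex.cosh w - 1))) := by
  set a : ℂ := ((b / 2 : ℝ) : ℂ) with ha
  have H : HasSum (besD a w ∘ besEqv) (Complex.exp (a * (Complex.exp w + Complex.exp (-w)))) :=
    (besEqv.hasSum_iff).2 (bes_D_hasSum a w)
  have hk : ∀ k : ℤ, HasSum (fun m : ℕ => (besD a w ∘ besEqv) (k, m))
      ((∑' m : ℕ, a ^ (2 * m + k.natAbs) / ((m.factorial : ℂ) * ((m + k.natAbs).factorial : ℂ)))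
        * Complex.exp (k * w)) := by
    intro k
    have h1 := ((bes_inner_summable_c a k).hasSum).mul_right (Complex.exp (k * w))
    have e : (fun m : ℕ => (besD a w ∘ besEqv) (k, m)) = fun m : ℕ =>
        a ^ (2 * m + k.natAbs) / ((m.factorial : ℂ) * ((m + k.natAbs).factorial : ℂ)) * Complex.exp (k * w) := by
      funext m
      exact bes_D_eqv a w k m
    rw [e]
    exact h1
  have H2 := (H.prod_fiberwise hk).mul_left (Complex.exp (-(b : ℂ)))
  have e1 : Complex.exp (-(b : ℂ)) * Complex.exp (a * (Complex.exp w + Complex.exp (-w)))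
      = Complex.exp (b * (Complex.cosh w - 1)) := by
    rw [← Complex.exp_add, Complex.cosh, ha]
    congr 1
    push_cast
    ring
  rw [e1] at H2
  have e2 : (fun k : ℤ => (bes b k : ℂ) * Complex.exp (k * w)) = fun k : ℤ => Complex.exp (-(b : ℂ)) *
      ((∑' m : ℕ, a ^ (2 * m + k.natAbs) / ((m.factorial : ℂ) * ((m + k.natAbs).factorial : ℂ)))
        * Complex.exp (k * w)) := by
    funext k
    rw [bes_ofReal, mul_assoc]
  rw [e2]
  exact H2

/-! ### the statements of `Base/Height.lean`, section 4 -/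

theorem bes_neg (b : ℝ) (k : ℤ) : bes b (-k) = bes b k := by
  unfold bes
  rw [Int.natAbs_neg]

theorem bes_pos (b : ℝ) (hb : 0 < b) (k : ℤ) : 0 < bes b k := by
  unfold bes
  refine mul_pos (Real.exp_pos _) ?_
  refine (bes_inner_summable b k).tsum_pos (fun m => by positivity) 0 (by positivity)

theorem bes_nonneg (b : ℝ) (hb : 0 ≤ b) (k : ℤ) : 0 ≤ bes b k := by
  unfold bes
  exact mul_nonneg (Real.exp_pos _).le (tsum_nonneg fun m => by positivity)

/-- real form of the generating function (all real `b`). -/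
theorem bes_hasSum_exp (b t : ℝ) :
    HasSum (fun k : ℤ => bes b k * Real.exp (t * k)) (Real.exp (b * (Real.cosh t - 1))) := by
  have h := bes_hasSum_cexp b (t : ℂ)
  rw [← Complex.hasSum_ofReal]
  convert h using 1
  · funext k
    push_cast
    rw [mul_comm (t : ℂ)]
  · push_cast
    rfl

theorem bes_summable_exp (b : ℝ) (_hb : 0 ≤ b) (t : ℝ) : Summable fun k : ℤ => bes b k * Real.exp (t * k) :=
  (bes_hasSum_exp b t).summable

/-- `∑ p_b(k) e^{tk} = exp(b (cosh t - 1))` -/
theorem bes_mgf (b : ℝ) (_hb : 0 ≤ b) (t : ℝ) :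
    ∑' k : ℤ, bes b k * Real.exp (t * k) = Real.exp (b * (Real.cosh t - 1)) :=
  (bes_hasSum_exp b t).tsum_eq

theorem bes_hasSum_cos (b θ : ℝ) :
    HasSum (fun k : ℤ => bes b k * Real.cos (θ * k)) (Real.exp (b * (Real.cos θ - 1))) := by
  have h := Complex.hasSum_re (bes_hasSum_cexp b ((θ : ℂ) * Complex.I))
  convert h using 1
  · funext k
    have e : ((k : ℂ) * ((θ : ℂ) * Complex.I)) = ((θ * k : ℝ) : ℂ) * Complex.I := by
      push_cast
      ring
    rw [e, Complex.re_ofReal_mul, Complex.exp_ofReal_mul_I_re]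
  · rw [Complex.cosh_mul_I, ← Complex.ofReal_cos, ← Complex.ofReal_one, ← Complex.ofReal_sub, ← Complex.ofReal_mul,
      ← Complex.ofReal_exp, Complex.ofReal_re]

/-- `∑ p_b(k) cos(kθ) = exp(b (cos θ - 1))` -/
theorem bes_char (b : ℝ) (_hb : 0 ≤ b) (θ : ℝ) :
    ∑' k : ℤ, bes b k * Real.cos (θ * k) = Real.exp (b * (Real.cos θ - 1)) :=
  (bes_hasSum_cos b θ).tsum_eq

/-- absolute summability, all real `b`. -/
theorem bes_summable_abs (b : ℝ) : Summable fun k : ℤ => |bes b k| := by
  have h := (bes_hasSum_exp b 0).summable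
  have h2 : Summable fun k : ℤ => bes b k := by
    refine h.congr ?_
    intro k
    simp
  exact h2.abs

/-! ### Fourier coefficients -/

theorem bes_orth (n : ℤ) :
    ∫ θ in (0 : ℝ)..(2 * Real.pi), Complex.exp (n * ((θ : ℂ) * Complex.I)) = if n = 0 then 2 * (Real.pi : ℂ) else 0 := by
  split_ifs with h
  · subst h
    simp
  · have hc : (n : ℂ) * Complex.I ≠ 0 := mul_ne_zero (by exact_mod_cast h) Complex.I_ne_zero
    have e : (fun θ : ℝ => Complex.exp (n * ((θ : ℂ) * Complex.I))) = fun θ : ℝ => Complex.exp ((n : ℂ) * Complex.I * θ) := by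
      funext θ
      congr 1
      ring
    rw [e, integral_exp_mul_complex hc]
    have e2 : Complex.exp ((n : ℂ) * Complex.I * ((2 * Real.pi : ℝ) : ℂ)) = 1 := by
      have := Complex.exp_int_mul_two_pi_mul_I n
      rw [← this]
      congr 1
      push_cast
      ring
    rw [e2]
    simp

/-- termwise integration of the Fourier series of `exp (b (cos θ - 1))` against a continuous function. -/
theorem bes_integral_mul (b : ℝ) (G : ℝ → ℂ) (hG : Continuous G) :
    HasSum (fun j : ℤ => (bes b j : ℂ) * ∫ θ in (0 : ℝ)..(2 * Real.pi), Complex.exp (j * ((θ : ℂ) * Complex.I)) * G θ)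
      (∫ θ in (0 : ℝ)..(2 * Real.pi), Complex.exp (b * (Complex.cos θ - 1)) * G θ) := by
  have key := intervalIntegral.hasSum_integral_of_dominated_convergence (μ := volume) (a := 0) (b := 2 * Real.pi)
    (F := fun (j : ℤ) (θ : ℝ) => (bes b j : ℂ) * (Complex.exp (j * ((θ : ℂ) * Complex.I)) * G θ))
    (f := fun θ : ℝ => Complex.exp (b * (Complex.cos θ - 1)) * G θ)
    (fun (j : ℤ) (θ : ℝ) => |bes b j| * ‖G θ‖) ?_ ?_ ?_ ?_ ?_
  · have e : (fun j : ℤ => (bes b j : ℂ) * ∫ θ in (0 : ℝ)..(2 * Real.pi), Complex.exp (j * ((θ : ℂ) * Complex.I)) * G θ)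
        = fun j : ℤ => ∫ θ in (0 : ℝ)..(2 * Real.pi), (bes b j : ℂ) * (Complex.exp (j * ((θ : ℂ) * Complex.I)) * G θ) := by
      funext j
      rw [intervalIntegral.integral_const_mul]
    rw [e]
    exact key
  · intro j
    refine Continuous.aestronglyMeasurable ?_
    fun_prop
  · intro j
    refine Filter.Eventually.of_forall fun θ _ => ?_
    have e : (j : ℂ) * ((θ : ℂ) * Complex.I) = ((j * θ : ℝ) : ℂ) * Complex.I := by
      push_cast
      ring
    rw [norm_mul, norm_mul, e, Complex.norm_exp_ofReal_mul_I, one_mul, Complex.norm_real, Real.norm_eq_abs]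
  · refine Filter.Eventually.of_forall fun θ _ => ?_
    exact (bes_summable_abs b).mul_right _
  · have e : (fun θ : ℝ => ∑' j : ℤ, |bes b j| * ‖G θ‖) = fun θ : ℝ => (∑' j : ℤ, |bes b j|) * ‖G θ‖ := by
      funext θ
      rw [tsum_mul_right]
    rw [e]
    refine Continuous.intervalIntegrable ?_ _ _
    fun_prop
  · refine Filter.Eventually.of_forall fun θ _ => ?_
    have h := (bes_hasSum_cexp b ((θ : ℂ) * Complex.I)).mul_right (G θ)
    rw [Complex.cosh_mul_I] at h
    have e : (fun j : ℤ => (bes b j : ℂ) * (Complex.exp (j * ((θ : ℂ) * Complex.I)) * G θ))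
        = fun j : ℤ => (bes b j : ℂ) * Complex.exp (j * ((θ : ℂ) * Complex.I)) * G θ := by
      funext j
      rw [mul_assoc]
    rw [e]
    exact h

/-- complex Fourier coefficients, all real `b`. -/
theorem bes_fourier_c (b : ℝ) (k : ℤ) :
    ∫ θ in (0 : ℝ)..(2 * Real.pi), Complex.exp (b * (Complex.cos θ - 1)) * Complex.exp (-(k * ((θ : ℂ) * Complex.I)))
      = 2 * (Real.pi : ℂ) * (bes b k : ℂ) := by
  have h := bes_integral_mul b (fun θ : ℝ => Complex.exp (-(k * ((θ : ℂ) * Complex.I)))) (by fun_prop)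
  have e : (fun j : ℤ => (bes b j : ℂ) * ∫ θ in (0 : ℝ)..(2 * Real.pi),
      Complex.exp (j * ((θ : ℂ) * Complex.I)) * Complex.exp (-(k * ((θ : ℂ) * Complex.I))))
      = fun j : ℤ => if j = k then 2 * (Real.pi : ℂ) * (bes b k : ℂ) else 0 := by
    funext j
    have e1 : (fun θ : ℝ => Complex.exp (j * ((θ : ℂ) * Complex.I)) * Complex.exp (-(k * ((θ : ℂ) * Complex.I))))
        = fun θ : ℝ => Complex.exp (((j - k : ℤ) : ℂ) * ((θ : ℂ) * Complex.I)) := by
      funext θ
      rw [← Complex.exp_add]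
      congr 1
      push_cast
      ring
    rw [e1, bes_orth]
    by_cases hjk : j = k
    · subst hjk
      simp [mul_comm]
    · have : j - k ≠ 0 := sub_ne_zero.2 hjk
      simp [hjk, this]
  rw [e] at h
  exact h.unique (hasSum_ite_eq k _)

/-- Fourier coefficient of the spin interaction -/
theorem bes_fourier (b : ℝ) (k : ℤ) :
    bes b k = (2 * Real.pi)⁻¹ * ∫ θ in (0 : ℝ)..(2 * Real.pi), Real.exp (b * (Real.cos θ - 1)) * Real.cos (k * θ) := by
  have h1 := bes_fourier_c b k
  have h2 := bes_fourier_c b (-k)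
  rw [bes_neg] at h2
  have hint : ∀ n : ℤ, IntervalIntegrable (fun θ : ℝ => Complex.exp (b * (Complex.cos θ - 1)) *
      Complex.exp (-(n * ((θ : ℂ) * Complex.I)))) volume 0 (2 * Real.pi) := by
    intro n
    refine Continuous.intervalIntegrable ?_ _ _
    fun_prop
  have h3 := intervalIntegral.integral_add (hint k) (hint (-k))
  rw [h1, h2] at h3
  have e : (fun θ : ℝ => Complex.exp (b * (Complex.cos θ - 1)) * Complex.exp (-(k * ((θ : ℂ) * Complex.I)))
      + Complex.exp (b * (Complex.cos θ - 1)) * Complex.exp (-(((-k : ℤ) : ℂ) * ((θ : ℂ) * Complex.I))))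
      = fun θ : ℝ => (((2 * (Real.exp (b * (Real.cos θ - 1)) * Real.cos (k * θ)) : ℝ)) : ℂ) := by
    funext θ
    push_cast
    rw [Complex.cos.eq_1 ((k : ℂ) * θ)]
    have a1 : -((k : ℂ) * ((θ : ℂ) * Complex.I)) = -((k : ℂ) * θ) * Complex.I := by ring
    have a2 : -(-(k : ℂ) * ((θ : ℂ) * Complex.I)) = (k : ℂ) * θ * Complex.I := by ring
    rw [a1, a2]
    ring
  rw [e, intervalIntegral.integral_ofReal, intervalIntegral.integral_const_mul] at h3
  have h4 : 2 * ∫ θ in (0 : ℝ)..(2 * Real.pi), Real.exp (b * (Real.cos θ - 1)) * Real.cos (k * θ)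
      = 2 * Real.pi * bes b k + 2 * Real.pi * bes b k := by
    exact_mod_cast h3
  have hpi := Real.pi_pos
  field_simp
  linarith

/-- convolution semigroup, as a `HasSum`, all real `b`, `b'`. -/
theorem bes_conv_hasSum (b b' : ℝ) (k : ℤ) : HasSum (fun j : ℤ => bes b j * bes b' (k - j)) (bes (b + b') k) := by
  have h := bes_integral_mul b (fun θ : ℝ => Complex.exp (b' * (Complex.cos θ - 1)) *
    Complex.exp (-(k * ((θ : ℂ) * Complex.I)))) (by fun_prop)
  have e1 : (fun θ : ℝ => Complex.exp (b * (Complex.cos θ - 1)) * (Complex.exp (b' * (Complex.cos θ - 1)) *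
      Complex.exp (-(k * ((θ : ℂ) * Complex.I)))))
      = fun θ : ℝ => Complex.exp (((b + b' : ℝ) : ℂ) * (Complex.cos θ - 1)) * Complex.exp (-(k * ((θ : ℂ) * Complex.I))) := by
    funext θ
    rw [← mul_assoc, ← Complex.exp_add]
    congr 2
    push_cast
    ring
  rw [e1, bes_fourier_c] at h
  have e2 : (fun j : ℤ => (bes b j : ℂ) * ∫ θ in (0 : ℝ)..(2 * Real.pi), Complex.exp (j * ((θ : ℂ) * Complex.I)) *
      (Complex.exp (b' * (Complex.cos θ - 1)) * Complex.exp (-(k * ((θ : ℂ) * Complex.I)))))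
      = fun j : ℤ => 2 * (Real.pi : ℂ) * ((bes b j * bes b' (k - j) : ℝ) : ℂ) := by
    funext j
    have e3 : (fun θ : ℝ => Complex.exp (j * ((θ : ℂ) * Complex.I)) *
        (Complex.exp (b' * (Complex.cos θ - 1)) * Complex.exp (-(k * ((θ : ℂ) * Complex.I)))))
        = fun θ : ℝ => Complex.exp (b' * (Complex.cos θ - 1)) * Complex.exp (-(((k - j : ℤ) : ℂ) * ((θ : ℂ) * Complex.I))) := by
      funext θ
      rw [mul_left_comm, ← Complex.exp_add]
      congr 2
      push_cast
      ring
    rw [e3, bes_fourier_c]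
    push_cast
    ring
  rw [e2] at h
  have hpi : (2 * (Real.pi : ℂ)) ≠ 0 := by
    have := Real.pi_pos.ne'
    simp [this]
  have h5 := h.mul_left (2 * (Real.pi : ℂ))⁻¹
  simp only [← mul_assoc, inv_mul_cancel₀ hpi, one_mul] at h5
  exact Complex.hasSum_ofReal.1 h5

/-- convolution semigroup -/
theorem bes_conv (b b' : ℝ) (_hb : 0 ≤ b) (_hb' : 0 ≤ b') (k : ℤ) :
    bes (b + b') k = ∑' j : ℤ, bes b j * bes b' (k - j) :=
  (bes_conv_hasSum b b' k).tsum_eq.symm

/-- Stores the on-demand equation lemmas of the definitions above in THIS module (rule 6 hygiene). -/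
theorem bes_forced : True := by
  have := @besEqv.eq_1
  have := @besD.eq_1
  trivial

end

end Claimed.Agent.R285
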