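import Claimed.Agent.R285.Rsd.CosetRef

/-!
# ROW 285, package BP-RSD-C, file 5: subgroups and events (owner helper170)

`subRef`, `lsys_sub_ratio` (subgroup monotonicity of tilted ratios), `lsys_event_mono` (verbatim from `Base/Height.lean`).
Extra upstream: `lsys_ok_sub`, `lsys_gauge`.
-/

set_option autoImplicit false
set_option linter.unusedSectionVars false

namespace Claimed.Agent.R285.Rsd

open MeasureTheory ENNReal

noncomputable section

/-- the subsystem as a refinement -/
def subRef (S : LSys) (M : AddSubgroup S.Amb) : LSys.Ref S (S.sub M) where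
  iE := Function.Embedding.refl _
  iO := Function.Embedding.refl _
  hb := fun _ => rfl
  map_mem := fun _ hz => hz.1

theorem subRef_res (S : LSys) (M : AddSubgroup S.Amb) (y : S.Amb) : (subRef S M).res y = y := rfl

/-- **subgroup monotonicity of tilted ratios** -/
theorem lsys_sub_ratio (S : LSys) (hS : S.Ok) (M : AddSubgroup S.Amb) (α : S.Amb) (Y : S.L →+ ℝ) :
    (S.sub M).wT α (Y.comp (subRef S M).psi) / (S.sub M).w 0 ≤ S.wT α Y / S.w 0 :=
  lsys_ratio_mono (subRef S M) hS (lsys_ok_sub S hS M) α Y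

theorem lsys_sub_ratio0 (S : LSys) (hS : S.Ok) (M : AddSubgroup S.Amb) (α : S.Amb) :
    (S.sub M).w α / (S.sub M).w 0 ≤ S.w α / S.w 0 := by
  have h := lsys_sub_ratio S hS M α 0
  rwa [AddMonoidHom.zero_comp, cs_wT_zero S α, cs_wT_zero (S.sub M) α] at h

open Classical in
/-- a sum over `L ⊓ M` as a sum over `L` with an indicator -/
theorem cs_tsum_inf {G β : Type*} [AddGroup G] [AddCommMonoid β] [TopologicalSpace β] (L M : AddSubgroup G)
    (f : G → β) : ∑' u : ↥(L ⊓ M), f u = ∑' ℓ : L, (if (ℓ : G) ∈ M then f ℓ else 0) := by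
  let s : Set L := {ℓ | (ℓ : G) ∈ M}
  let e : ↥(L ⊓ M) ≃ s :=
    { toFun := fun u => ⟨⟨u.1, u.2.1⟩, u.2.2⟩
      invFun := fun ℓ => ⟨ℓ.1.1, ℓ.1.2, ℓ.2⟩
      left_inv := fun _ => rfl
      right_inv := fun _ => rfl }
  have h1 : ∑' u : ↥(L ⊓ M), f u = ∑' x : s, f (x.1 : G) := (e.tsum_eq fun x : s => f (x.1 : G)).symm ▸ rfl
  rw [h1, tsum_subtype s fun ℓ : L => f (ℓ : G)]
  refine tsum_congr fun ℓ => ?_
  simp [Set.indicator_apply, s]

/-! ### partition sums of subsystems in the coordinates of the big system -/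

/-- the partition sum of the subsystem `S.sub N` -/
def wsub (S : LSys) (N : AddSubgroup S.Amb) (y : S.Amb) : ℝ := ∑' u : ↥(S.L ⊓ N), S.W ((u : S.Amb) + y)

theorem wsub_eq (S : LSys) (N : AddSubgroup S.Amb) (y : S.Amb) : (S.sub N).w y = wsub S N y :=
  cs_w_eq (S.sub N) y

theorem wsub_summable {S : LSys} (hS : S.Ok) (N : AddSubgroup S.Amb) (y : S.Amb) :
    Summable fun u : ↥(S.L ⊓ N) => S.W ((u : S.Amb) + y) :=
  cs_summable_W (lsys_ok_sub S hS N) y

theorem wsub_pos {S : LSys} (hS : S.Ok) (N : AddSubgroup S.Amb) (y : S.Amb) : 0 < wsub S N y :=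
  lt_of_lt_of_eq (cs_w_pos (lsys_ok_sub S hS N) y) (wsub_eq S N y)

theorem wsub_gauge (S : LSys) (N : AddSubgroup S.Amb) (y : S.Amb) (g : ↥(S.L ⊓ N)) :
    wsub S N (y + (g : S.Amb)) = wsub S N y :=
  ((wsub_eq S N _).symm.trans (lsys_gauge (S.sub N) y g)).trans (wsub_eq S N y)

theorem wsub_countable {S : LSys} (hS : S.Ok) (N : AddSubgroup S.Amb) : Countable ↥(S.L ⊓ N) :=
  cs_countable (lsys_ok_sub S hS N)

theorem wsub_ratio {S : LSys} (hS : S.Ok) (N : AddSubgroup S.Amb) (y : S.Amb) :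
    wsub S N y / wsub S N 0 ≤ S.w y / S.w 0 := by
  have h := lsys_sub_ratio0 S hS N y
  have e1 := wsub_eq S N y
  have e2 := wsub_eq S N 0
  exact (e1 ▸ e2 ▸ h : _)

theorem wsub_ofReal {S : LSys} (hS : S.Ok) (N : AddSubgroup S.Amb) (y : S.Amb) :
    ENNReal.ofReal (wsub S N y) = ∑' u : ↥(S.L ⊓ N), ENNReal.ofReal (S.W ((u : S.Amb) + y)) :=
  ENNReal.ofReal_tsum_of_nonneg (fun _ => (cs_W_pos S hS.1 _).le) (wsub_summable hS N y)

variable {S S' : LSys} (r : LSys.Ref S S')

theorem ext_sub (x x' : Om r) : ext r (x - x') = ext r x - ext r x' := by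
  rw [sub_eq_add_neg, ext_add, ext_neg, ← sub_eq_add_neg]

/-- measurability of the partition sum of a subsystem -/
theorem measC_wsub (hS' : S'.Ok) (N : AddSubgroup S'.Amb) :
    MeasC fun x : Om r => ENNReal.ofReal (wsub S' N (ext r x)) := by
  have := wsub_countable hS' N
  have e : (fun x : Om r => ENNReal.ofReal (wsub S' N (ext r x)))
      = fun x : Om r => ∑' u : ↥(S'.L ⊓ N),
          ENNReal.ofReal ((fun _ : S.L => (1 : ℝ)) x.1.1 * S'.W (ext r x + (u : S'.Amb))) := by
    funext x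
    rw [wsub_ofReal hS']
    refine tsum_congr fun u => ?_
    rw [one_mul, add_comm]
  rw [e]
  exact MeasC.tsum fun u => measC_weight r (fun _ => 1) (u : S'.Amb)

open Classical in
/-- the probability of centred lattice equalities increases with precision -/
theorem lsys_event_mono {S S' : LSys} (r : LSys.Ref S S') (hS : S.Ok) (hS' : S'.Ok) (M : AddSubgroup S.Amb) :
    (S.sub M).w 0 / S.w 0 ≤ (S'.sub (M.comap r.res)).w 0 / S'.w 0 := by
  have := cs_countable hS'
  have e1 : (S.sub M).w 0 = wsub S M 0 := wsub_eq S M 0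
  have e2 : (S'.sub (M.comap r.res)).w 0 = wsub S' (M.comap r.res) 0 := wsub_eq S' _ 0
  rw [e1, e2]
  set N := M.comap r.res with hN
  set ind : S.L → ℝ := fun ℓ => if (ℓ : S.Amb) ∈ M then 1 else 0 with hind
  have hind0 : ∀ ℓ, 0 ≤ ind ℓ := fun ℓ => by simp only [hind]; split_ifs <;> norm_num
  set num : Om r → ℝ≥0∞ := fun x => ENNReal.ofReal (ind x.1.1 * S'.W (ext r x + 0)) with hnum
  set den : Om r → ℝ≥0∞ := fun x => ENNReal.ofReal (wsub S' N (ext r x)) with hden
  have hnumM : MeasC num := measC_weight r ind 0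
  have hdenM : MeasC den := measC_wsub r hS' N
  have hσM : MeasC fun x => num x / den x := hnumM.div hdenM
  -- the sub-partition of unity
  have hle : ∀ x : Om r, ∑' z : S'.L, (num (x - iota r z) / den (x - iota r z)) ≤ 1 := by
    intro x
    by_cases hx : ∃ z₀ : S'.L, ((x - iota r z₀).1.1 : S.Amb) ∈ M
    · obtain ⟨z₀, hz₀⟩ := hx
      set x₀ := x - iota r z₀ with hx₀
      set y₀ := ext r x₀ with hy₀
      have hD0 : ENNReal.ofReal (wsub S' N y₀) ≠ 0 := by simpa using wsub_pos hS' N y₀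
      have hterm : ∀ u : S'.L, num (x - iota r (z₀ + u)) / den (x - iota r (z₀ + u))
          = if (u : S'.Amb) ∈ N then
              (fun v : S'.Amb => ENNReal.ofReal (S'.W (-v + y₀)) / ENNReal.ofReal (wsub S' N y₀)) u else 0 := by
        intro u
        have e1 : x - iota r (z₀ + u) = x₀ - iota r u := by rw [map_add, hx₀, sub_sub]
        have e2 : ((x₀ - iota r u).1.1 : S.Amb) = (x₀.1.1 : S.Amb) - r.res u := rfl
        rw [e1]
        simp only [hnum, hden, hind, e2, ext_sub, ext_iota]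
        by_cases hu : (u : S'.Amb) ∈ N
        · have hu' : r.res u ∈ M := hu
          rw [if_pos hu, if_pos (M.sub_mem hz₀ hu'), one_mul, add_zero]
          have hg := wsub_gauge S' N y₀ (-⟨(u : S'.Amb), u.2, hu⟩ : ↥(S'.L ⊓ N))
          have hg' : wsub S' N (y₀ - (u : S'.Amb)) = wsub S' N y₀ := by
            rw [sub_eq_add_neg]; exact hg
          rw [hg', sub_eq_neg_add]
        · have hu' : ¬ ((x₀.1.1 : S.Amb) - r.res u ∈ M) := by
            intro hc
            apply hu
            have : r.res u = (x₀.1.1 : S.Amb) - ((x₀.1.1 : S.Amb) - r.res u) := by abel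
            show r.res u ∈ M
            rw [this]
            exact M.sub_mem hz₀ hc
          rw [if_neg hu, if_neg hu']
          simp
      rw [← (Equiv.addLeft z₀).tsum_eq]
      simp only [Equiv.coe_addLeft]
      rw [tsum_congr hterm, ← cs_tsum_inf S'.L N
        fun v : S'.Amb => ENNReal.ofReal (S'.W (-v + y₀)) / ENNReal.ofReal (wsub S' N y₀)]
      simp only [div_eq_mul_inv]
      rw [ENNReal.tsum_mul_right]
      have hsum : ∑' u : ↥(S'.L ⊓ N), ENNReal.ofReal (S'.W (-(u : S'.Amb) + y₀))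
          = ENNReal.ofReal (wsub S' N y₀) := by
        rw [wsub_ofReal hS']
        exact (Equiv.neg ↥(S'.L ⊓ N)).tsum_eq
          fun u : ↥(S'.L ⊓ N) => ENNReal.ofReal (S'.W ((u : S'.Amb) + y₀))
      rw [hsum, ENNReal.mul_inv_cancel hD0 ENNReal.ofReal_ne_top]
    · push Not at hx
      have : ∀ z : S'.L, num (x - iota r z) / den (x - iota r z) = 0 := by
        intro z
        simp only [hnum, hind, if_neg (hx z)]
        simp
      rw [tsum_congr this]
      simp
  have step1 := unf_sub_partition (iota r) hσM (measC_aW r) hle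
  -- lower bound of the integrand
  have hT0 := wsub_pos hS' N 0
  have hc0 : 0 < S'.w 0 / wsub S' N 0 := div_pos (cs_w_pos hS' 0) hT0
  have step2 : ∀ x : Om r, ENNReal.ofReal (S'.w 0 / wsub S' N 0) * num x
      ≤ num x / den x * bar (iota r) (aW r) x := by
    intro x
    rw [bar_aW r hS']
    have hpos := wsub_pos hS' N (ext r x)
    have e : num x / den x * ENNReal.ofReal (S'.w (ext r x))
        = ENNReal.ofReal (S'.w (ext r x) / wsub S' N (ext r x)) * num x := by
      rw [ENNReal.ofReal_div_of_pos hpos, div_eq_mul_inv, div_eq_mul_inv]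
      ring
    rw [e]
    refine mul_le_mul_left (ENNReal.ofReal_le_ofReal ?_) _
    have h := wsub_ratio hS' N (ext r x)
    rw [div_le_div_iff₀ hT0 (cs_w_pos hS' 0)] at h
    rw [div_le_div_iff₀ hT0 hpos]
    linarith
  have step3 : unf num = ENNReal.ofReal (wsub S M 0) * Gam r := by
    have e : ∀ ℓ : S.L, ind ℓ * S.W ((ℓ : S.Amb) + r.res 0)
        = if (ℓ : S.Amb) ∈ M then (fun v : S.Amb => S.W (v + 0)) ℓ else 0 := by
      intro ℓ
      simp only [hind, map_zero]
      split_ifs <;> simp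
    have hs : Summable fun ℓ : S.L => ind ℓ * S.W ((ℓ : S.Amb) + r.res 0) := by
      refine Summable.of_nonneg_of_le (fun ℓ => mul_nonneg (hind0 ℓ) (cs_W_pos S hS.1 _).le) (fun ℓ => ?_)
        (cs_summable_W hS (r.res 0))
      have : ind ℓ ≤ 1 := by simp only [hind]; split_ifs <;> norm_num
      exact mul_le_of_le_one_left (cs_W_pos S hS.1 _).le this
    rw [hnum, unf_weight r hS.1 ind hind0 0 hs, tsum_congr e, ← cs_tsum_inf S.L M fun v : S.Amb => S.W (v + 0)]
    rfl
  have key : ENNReal.ofReal (S'.w 0 / wsub S' N 0) * unf num ≤ unf (aW r) := by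
    rw [← unf_const_mul _ hnumM]
    exact (unf_mono step2).trans step1
  rw [step3, unf_aW r hS, ← mul_assoc,
    ENNReal.mul_le_mul_iff_left (Gam_ne_zero r hS'.1) (Gam_ne_top r hS'.1),
    ← ENNReal.ofReal_mul hc0.le, ENNReal.ofReal_le_ofReal_iff (cs_w_pos hS 0).le] at key
  rw [div_le_div_iff₀ (cs_w_pos hS 0) (cs_w_pos hS' 0)]
  rw [div_mul_eq_mul_div, div_le_iff₀ hT0] at key
  linarith

end

end Claimed.Agent.R285.Rsd
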