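import Claimed.Agent.R285.Rsd.CosetRef

/-!
# ROW 285, package BP-RSD-C, file 6: the free system and the reference cost (owner helper170)

`freeSys S` = independent bonds `ℤ^E`; every system refines its free system; `lsys_reference` (verbatim from `Base/Height.lean`).
Extra upstream: `bes_mgf`.
-/

set_option autoImplicit false
set_option linter.unusedSectionVars false

namespace Claimed.Agent.R285.Rsd

open MeasureTheory ENNReal

noncomputable section

theorem cs_tsum_eq_toReal {κ : Type*} (g : κ → ℝ) (hg : ∀ x, 0 ≤ g x) :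
    ∑' x, g x = (∑' x, ENNReal.ofReal (g x)).toReal := by
  rw [ENNReal.tsum_toReal_eq fun _ => ENNReal.ofReal_ne_top]
  exact tsum_congr fun x => (ENNReal.toReal_ofReal (hg x)).symm

/-- sums of products over a finite product, real nonnegative version (no summability needed) -/
theorem cs_real_tsum_pi {ι κ : Type*} [Fintype ι] (f : ι → κ → ℝ) (h0 : ∀ i k, 0 ≤ f i k) :
    ∑' j : ι → κ, ∏ i, f i (j i) = ∏ i, ∑' k, f i k := by
  rw [cs_tsum_eq_toReal _ fun j => Finset.prod_nonneg fun i _ => h0 i (j i)]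
  simp_rw [ENNReal.ofReal_prod_of_nonneg fun i _ => h0 i _]
  rw [cs_ennreal_tsum_pi fun i k => ENNReal.ofReal (f i k), ENNReal.toReal_prod]
  exact Finset.prod_congr rfl fun i _ => (cs_tsum_eq_toReal _ (h0 i)).symm

/-- independent bonds -/
abbrev freeSys (S : LSys) : LSys := { E := S.E, O := Empty, b := S.b, L := ⊤ }

theorem freeSys_ok (S : LSys) (hb : ∀ e, 0 < S.b e) : (freeSys S).Ok := by
  classical
  refine ⟨hb, Fintype.card S.E,
    fun i => ((Pi.single ((Fintype.equivFin S.E).symm i) 1 : S.E → ℤ), (0 : Empty → ℝ)), ?_, ?_⟩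
  · have h1 : LinearIndependent ℝ (fun i : Fin (Fintype.card S.E) =>
        (Pi.single ((Fintype.equivFin S.E).symm i) (1 : ℝ) : S.E → ℝ)) := by
      have := (Pi.basisFun ℝ S.E).linearIndependent.comp _ (Fintype.equivFin S.E).symm.injective
      simpa [Function.comp_def] using this
    have h2 := h1.map' (LinearMap.inl ℝ (S.E → ℝ) (Empty → ℝ)) (LinearMap.ker_eq_bot.2 LinearMap.inl_injective)
    have e : (fun i : Fin (Fintype.card S.E) => (freeSys S).real
        ((Pi.single ((Fintype.equivFin S.E).symm i) 1 : S.E → ℤ), (0 : Empty → ℝ)))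
        = (LinearMap.inl ℝ (S.E → ℝ) (Empty → ℝ)) ∘ fun i : Fin (Fintype.card S.E) =>
          (Pi.single ((Fintype.equivFin S.E).symm i) (1 : ℝ) : S.E → ℝ) := by
      funext i
      refine Prod.ext (funext fun e => ?_) (funext fun o => o.elim)
      simp only [LSys.real, Function.comp_apply, LinearMap.inl_apply, Pi.single_apply]
      split_ifs <;> simp
    rw [e]
    exact h2
  · symm
    rw [eq_top_iff]
    intro z _
    have hz : z = ∑ e : S.E, z.1 e • (((Pi.single e 1 : S.E → ℤ), (0 : Empty → ℝ)) : (S.E → ℤ) × (Empty → ℝ)) := by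
      refine Prod.ext (funext fun e' => ?_) (funext fun o => o.elim)
      rw [Prod.fst_sum, Finset.sum_apply]
      simp [Pi.single_apply]
    rw [hz]
    refine AddSubgroup.sum_mem _ fun e _ => AddSubgroup.zsmul_mem _ (AddSubgroup.subset_closure ?_) _
    exact ⟨Fintype.equivFin S.E e, by simp⟩

/-- every system refines its free system -/
def freeRef (S : LSys) : LSys.Ref (freeSys S) S where
  iE := Function.Embedding.refl _
  iO := ⟨fun o => o.elim, fun o => o.elim⟩
  hb := fun _ => rfl
  map_mem := fun _ _ => AddSubgroup.mem_top _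

/-- the flow statistic `∑ t_e z_e` -/
def flowStat (S : LSys) (t : S.E → ℝ) : (freeSys S).L →+ ℝ where
  toFun z := ∑ e : S.E, t e * (((z : (freeSys S).Amb).1 e : ℤ) : ℝ)
  map_zero' := by simp
  map_add' z z' := by
    simp only [AddSubgroup.coe_add, Prod.fst_add, Pi.add_apply, Int.cast_add, mul_add, Finset.sum_add_distrib]

/-- the lattice of the free system -/
def freeEquiv (S : LSys) : (S.E → ℤ) ≃ (freeSys S).L where
  toFun k := ⟨(k, fun o => o.elim), AddSubgroup.mem_top _⟩
  invFun z := (z : (freeSys S).Amb).1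
  left_inv _ := rfl
  right_inv _ := Subtype.ext (Prod.ext rfl (funext fun o => o.elim))

theorem free_wT (S : LSys) (hb : ∀ e, 0 < S.b e) (t : S.E → ℝ) :
    (freeSys S).wT 0 (flowStat S t) = Real.exp (∑ e, S.b e * (Real.cosh (t e) - 1)) := by
  rw [cs_wT_eq, ← (freeEquiv S).tsum_eq, Real.exp_sum]
  have e : ∀ k : S.E → ℤ, Real.exp (flowStat S t (freeEquiv S k))
      * (freeSys S).W (((freeEquiv S k : (freeSys S).L) : (freeSys S).Amb) + 0)
      = ∏ e : S.E, (fun (e : S.E) (m : ℤ) => bes (S.b e) m * Real.exp (t e * m)) e (k e) := by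
    intro k
    have h1 : flowStat S t (freeEquiv S k) = ∑ e : S.E, t e * ((k e : ℤ) : ℝ) := rfl
    have h2 : (freeSys S).W (((freeEquiv S k : (freeSys S).L) : (freeSys S).Amb) + 0)
        = ∏ e : S.E, bes (S.b e) (k e) := by
      rw [add_zero]
      unfold LSys.W
      have : (∑ o : (freeSys S).O, ((freeEquiv S k : (freeSys S).L) : (freeSys S).Amb).2 o ^ 2) = 0 :=
        Finset.sum_eq_zero fun o _ => o.elim
      rw [this]
      simp
      rfl
    rw [h1, h2, Real.exp_sum, ← Finset.prod_mul_distrib]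
    exact Finset.prod_congr rfl fun e _ => mul_comm _ _
  rw [tsum_congr e, cs_real_tsum_pi (fun (e : S.E) (m : ℤ) => bes (S.b e) m * Real.exp (t e * m))
    fun e m => mul_nonneg (bes_pos _ (hb e) _).le (Real.exp_pos _).le]
  exact Finset.prod_congr rfl fun e _ => bes_mgf _ (hb e).le _

theorem free_w (S : LSys) (hb : ∀ e, 0 < S.b e) : (freeSys S).w 0 = 1 := by
  have h := free_wT S hb 0
  have e : flowStat S 0 = 0 := by
    ext z
    simp [flowStat]
  rw [e, cs_wT_zero] at h
  simpa using h

/-- **reference cost** -/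
theorem lsys_reference (S : LSys) (hS : S.Ok) (t : S.E → ℝ) :
    S.E0 (fun z => Real.exp (∑ e, t e * ((z : S.Amb).1 e : ℝ))) ≤ Real.exp (∑ e, S.b e * (Real.cosh (t e) - 1)) := by
  have h := lsys_mgf_mono (freeRef S) (freeSys_ok S hS.1) hS (flowStat S t)
  rw [cs_E0_exp, free_wT S hS.1, free_w S hS.1, div_one] at h
  exact h

end

end Claimed.Agent.R285.Rsd
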