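import Claimed.Agent.R285.Rsd.KitSum

/-!
# ROW 285, package BP-RSD-K (helper148), file 3: THE GRAPH LAYER.   Paper-free.

`hlaw_Z_eq_w`, `hgraph_Zs_eq` (statements of `Base/Height.lean` verbatim) + the general form `hlaw_Z_eq_Zf` (arbitrary integrand factoring through the image lattice).
-/

set_option autoImplicit false

namespace Claimed.Agent.R285.Rsd

noncomputable section

variable {G : HGraph} (H : HLaw G)

/-- `coord` as a map onto the image lattice -/
def coordL (b : ℝ) : H.Λ →+ (H.sys b).L where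
  toFun h := ⟨H.coord (h : G.V → ℤ), ⟨h, h.2, rfl⟩⟩
  map_zero' := Subtype.ext (map_zero H.coord)
  map_add' _ _ := Subtype.ext (map_add H.coord _ _)

@[simp] theorem coordL_coe (b : ℝ) (h : H.Λ) : ((coordL H b h : (H.sys b).L) : (H.sys b).Amb) = H.coordA b (h : G.V → ℤ) := rfl

theorem coordL_surjective (b : ℝ) : Function.Surjective (coordL H b) := by
  rintro ⟨z, h, hh, rfl⟩
  exact ⟨⟨h, hh⟩, rfl⟩

theorem coordL_injective (hP : H.Proper) (b : ℝ) : Function.Injective (coordL H b) := by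
  rw [injective_iff_map_eq_zero]
  intro h hh
  exact Subtype.ext (hP h h.2 (congrArg Subtype.val hh))

theorem coordL_bijective (hP : H.Proper) (b : ℝ) : Function.Bijective (coordL H b) :=
  ⟨coordL_injective H hP b, coordL_surjective H b⟩

/-- general bridge: an integrand which is a function of the image point -/
theorem hlaw_Z_eq_Zf (hP : H.Proper) (b : ℝ) (a : H.Aff) (F : (G.V → ℝ) → ℝ) (F' : (H.sys b).L → ℝ)
    (hF : ∀ h : H.Λ, F (fun v => 2 * Real.pi * (((h : G.V → ℤ) v + a.x v : ℤ) : ℝ)) = F' (coordL H b h)) :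
    H.Z b a F = (H.sys b).Zf (a.amb b) F' := by
  unfold HLaw.Z LSys.Zf
  rw [← (Equiv.ofBijective _ (coordL_bijective H hP b)).tsum_eq]
  refine tsum_congr fun h => ?_
  rw [hF h]
  rfl

/-- bridge between the two forms -/
theorem hlaw_Z_eq_w (hP : H.Proper) (b : ℝ) (a : H.Aff) : H.Z b a (fun _ => 1) = (H.sys b).w (a.amb b) :=
  hlaw_Z_eq_Zf H hP b a (fun _ => 1) (fun _ => 1) fun _ => rfl

/-- bridge to `Top.lean`: `HGraph.Zs` with zero penalty is `HLaw.Z` of the plain law -/
theorem hgraph_Zs_eq (G : HGraph) (b : ℝ) (P : Set G.V) (τ : G.E → ℤ) (F : (G.V → ℝ) → ℝ) :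
    G.Zs b P τ 0 F = (HLaw.plain G P).Z b ⟨0, τ, fun o => o.elim⟩ F := by
  unfold HGraph.Zs HLaw.Z
  refine tsum_congr fun h => ?_
  have e1 : (fun v => 2 * Real.pi * (((h.1 v + (0 : G.V → ℤ) v : ℤ)) : ℝ)) = fun v => 2 * Real.pi * (h.1 v : ℝ) := by
    funext v
    simp
  have e2 : ((HLaw.plain G P).sys b).W ((HLaw.plain G P).coordA b h.1 +
      HLaw.Aff.amb (H := HLaw.plain G P) ⟨0, τ, fun o => o.elim⟩ b) = G.wt b τ h.1 := by
    unfold LSys.W HGraph.wt
    have e3 : (∑ o : ((HLaw.plain G P).sys b).O, ((HLaw.plain G P).coordA b h.1 +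
      HLaw.Aff.amb (H := HLaw.plain G P) ⟨0, τ, fun o => o.elim⟩ b).2 o ^ 2) = 0 :=
      Finset.sum_eq_zero fun o _ => (o : Empty).elim
    rw [e3, neg_zero, zero_div, Real.exp_zero, mul_one]
    refine Finset.prod_congr rfl fun e _ => ?_
    show bes b ((h.1 (G.tgt e) - h.1 (G.src e)) + (((0 : G.V → ℤ) (G.tgt e) - (0 : G.V → ℤ) (G.src e)) + τ e)) = _
    simp
  show F (fun v => 2 * Real.pi * (h.1 v : ℝ)) * Real.exp (-(0 : ℝ) / 2) * G.wt b τ h.1
    = F (fun v => 2 * Real.pi * (((h.1 v + (0 : G.V → ℤ) v : ℤ)) : ℝ)) * _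
  rw [e1, neg_zero, zero_div, Real.exp_zero, mul_one]
  exact congrArg _ e2.symm

/-- Stores the on-demand equation lemmas of the definitions above in THIS module (rule 6 hygiene). -/
theorem kit_graph_forced : True := by
  have := @coordL.eq_1
  trivial

end

end Claimed.Agent.R285.Rsd
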