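import Claimed.Agent.R285.Rsd.CosetExt

/-!
# ROW 285, package BP-RSD-C, file 4: the refinement theorems by unfolding (owner helper170)

`lsys_ratio_mono`, `lsys_mgf_mono`, `lsys_le_centred`, `lsys_phi_mono` (statements verbatim from `Base/Height.lean`).
-/

set_option autoImplicit false
set_option linter.unusedSectionVars false

namespace Claimed.Agent.R285.Rsd

open MeasureTheory ENNReal

noncomputable section

theorem cs_ofReal_ineq_aux {p u q A B : ℝ} (hp : 0 ≤ p) (hq : 0 ≤ q) (hA : 0 ≤ A)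
    (hB : 0 ≤ B) (h : 2 * (p * u) ≤ q * (A + B)) :
    2 * (ENNReal.ofReal p * ENNReal.ofReal u) ≤ ENNReal.ofReal q * (ENNReal.ofReal A + ENNReal.ofReal B) := by
  have h2 : (2 : ℝ≥0∞) = ENNReal.ofReal 2 := by simp
  rw [h2, ← ENNReal.ofReal_mul hp, ← ENNReal.ofReal_mul (by norm_num), ← ENNReal.ofReal_add hA hB,
    ← ENNReal.ofReal_mul hq]
  exact ENNReal.ofReal_le_ofReal h

variable {S S' : LSys} (r : LSys.Ref S S')

/-- the centred weight on the unfolding space -/
def aW : Om r → ℝ≥0∞ := fun x => ENNReal.ofReal ((fun _ : S.L => (1 : ℝ)) x.1.1 * S'.W (ext r x + 0))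

theorem measC_aW : MeasC (aW r) := measC_weight r (fun _ => 1) 0

theorem aW_even (x : Om r) : aW r (-x) = aW r x := by
  unfold aW
  rw [ext_neg, add_zero, add_zero, cs_W_neg]

theorem bar_aW (hS' : S'.Ok) (x : Om r) : bar (iota r) (aW r) x = ENNReal.ofReal (S'.w (ext r x)) := by
  unfold aW
  rw [bar_weight r hS'.1 (fun _ => 1) (fun _ => zero_le_one) 0 x
    (by simpa using cs_summable_W hS' (ext r x)), cs_w_eq]
  simp

theorem bar_aW_ne_zero (hS' : S'.Ok) (x : Om r) : bar (iota r) (aW r) x ≠ 0 := by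
  rw [bar_aW r hS']
  simpa using cs_w_pos hS' (ext r x)

theorem bar_aW_ne_top (hS' : S'.Ok) (x : Om r) : bar (iota r) (aW r) x ≠ ∞ := by
  rw [bar_aW r hS']
  exact ENNReal.ofReal_ne_top

theorem unf_aW (hS : S.Ok) : unf (aW r) = ENNReal.ofReal (S.w 0) * Gam r := by
  unfold aW
  rw [unf_weight r hS.1 (fun _ => 1) (fun _ => zero_le_one) 0
    (by simpa using cs_summable_W hS 0), cs_w_eq]
  simp

/-- **ratio monotonicity** -/
theorem lsys_ratio_mono {S S' : LSys} (r : LSys.Ref S S') (hS : S.Ok) (hS' : S'.Ok) (α' : S'.Amb) (Y : S.L →+ ℝ) :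
    S'.wT α' (Y.comp r.psi) / S'.w 0 ≤ S.wT (r.res α') Y / S.w 0 := by
  have := cs_countable hS'
  set h : Om r → ℝ≥0∞ := fun x => ENNReal.ofReal ((fun ℓ : S.L => Real.exp (Y ℓ)) x.1.1 * S'.W (ext r x + α'))
    with hh_def
  have hh : MeasC h := measC_weight r (fun ℓ => Real.exp (Y ℓ)) α'
  have bar_h : ∀ x : Om r, bar (iota r) h x
      = ENNReal.ofReal (Real.exp (Y x.1.1) * S'.wT (α' + ext r x) (Y.comp r.psi)) := by
    intro x
    have e : ∀ z : S'.L, Real.exp (Y (x.1.1 + r.psi z)) * S'.W ((z : S'.Amb) + (ext r x + α'))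
        = Real.exp (Y x.1.1) * (Real.exp ((Y.comp r.psi) z) * S'.W ((z : S'.Amb) + (α' + ext r x))) := by
      intro z
      rw [map_add, Real.exp_add, add_comm (ext r x) α', mul_assoc]
      rfl
    rw [hh_def, bar_weight r hS'.1 (fun ℓ => Real.exp (Y ℓ)) (fun _ => (Real.exp_pos _).le) α' x
      (by simp only [e]; exact (lsys_summable S' hS' (α' + ext r x) (Y.comp r.psi)).mul_left _)]
    simp only [e]
    rw [tsum_mul_left, cs_wT_eq]
  have key := unf_ratio (iota r) (measC_aW r) hh (bar_aW_ne_zero r hS') (bar_aW_ne_top r hS') (aW_even r)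
    (ENNReal.ofReal (S'.wT α' (Y.comp r.psi))) (ENNReal.ofReal (S'.w 0)) (by
      intro x
      rw [bar_aW r hS', bar_h, bar_h]
      refine cs_ofReal_ineq_aux (lsys_pos S' hS' _ _).le (cs_w_pos hS' 0).le
        (mul_pos (Real.exp_pos _) (lsys_pos S' hS' _ _)).le
        (mul_pos (Real.exp_pos _) (lsys_pos S' hS' _ _)).le ?_
      have := cs_master_amgm hS' α' (ext r x) (Y.comp r.psi) (Y x.1.1)
      rw [ext_neg, ← sub_eq_add_neg]
      simpa using this)
  have uh : unf h = ENNReal.ofReal (S.wT (r.res α') Y) * Gam r := by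
    rw [hh_def, unf_weight r hS.1 (fun ℓ => Real.exp (Y ℓ)) (fun _ => (Real.exp_pos _).le) α'
      (lsys_summable S hS (r.res α') Y), cs_wT_eq]
  rw [unf_aW r hS, uh, ← mul_assoc, ← mul_assoc,
    ENNReal.mul_le_mul_iff_left (Gam_ne_zero r hS'.1) (Gam_ne_top r hS'.1),
    ← ENNReal.ofReal_mul (lsys_pos S' hS' _ _).le, ← ENNReal.ofReal_mul (cs_w_pos hS' 0).le,
    ENNReal.ofReal_le_ofReal_iff (mul_pos (cs_w_pos hS' 0) (lsys_pos S hS _ _)).le] at key
  rw [div_le_div_iff₀ (cs_w_pos hS' 0) (cs_w_pos hS 0)]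
  linarith

/-- centred real moment generating functions decrease with precision -/
theorem lsys_mgf_mono {S S' : LSys} (r : LSys.Ref S S') (hS : S.Ok) (hS' : S'.Ok) (X : S.L →+ ℝ) :
    S'.E0 (fun z => Real.exp (X (r.psi z))) ≤ S.E0 fun z => Real.exp (X z) := by
  have h := lsys_ratio_mono r hS hS' 0 X
  rw [map_zero] at h
  rw [cs_E0_exp]
  exact (cs_E0_exp (X.comp r.psi)).le.trans h

/-! ### the trivial system and `w(α) ≤ w(0)` -/

/-- the system without coordinates -/
def trivSys : LSys := { E := Empty, O := Empty, b := fun e => e.elim, L := ⊥ }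

theorem trivSys_ok : trivSys.Ok :=
  ⟨fun e => e.elim, 0, fun i => i.elim0, linearIndependent_empty_type, by
    simp only [trivSys, Set.range_eq_empty]
    exact AddSubgroup.closure_empty.symm⟩

instance : Subsingleton trivSys.Amb := by
  unfold LSys.Amb trivSys
  infer_instance

/-- every system refines the trivial one -/
def trivRef (S : LSys) : LSys.Ref trivSys S where
  iE := ⟨fun e => e.elim, fun e => e.elim⟩
  iO := ⟨fun e => e.elim, fun e => e.elim⟩
  hb := fun e => e.elim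
  map_mem := fun z _ => by
    have : ((fun e : trivSys.E => z.1 (e.elim), fun o : trivSys.O => z.2 (o.elim)) : trivSys.Amb) = 0 :=
      Subsingleton.elim _ _
    exact this ▸ zero_mem _

/-- a shifted-to-centred ratio is at most one -/
theorem lsys_le_centred (S : LSys) (hS : S.Ok) (α : S.Amb) : S.w α ≤ S.w 0 := by
  have h := lsys_ratio_mono (trivRef S) trivSys_ok hS α 0
  rw [AddMonoidHom.zero_comp, cs_wT_zero, cs_wT_zero, Subsingleton.elim ((trivRef S).res α) 0] at h
  exact (div_le_one (cs_w_pos hS 0)).1 (h.trans (div_self_le_one _))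

/-! ### characteristic coefficients -/

/-- characteristic coefficients increase with precision -/
theorem lsys_phi_mono {S S' : LSys} (r : LSys.Ref S S') (hS : S.Ok) (hS' : S'.Ok) (X : S.L →+ ℝ) :
    S.phi X ≤ S'.phi (X.comp r.psi) := by
  have := cs_countable hS'
  have hg : ∀ ℓ : S.L, 0 ≤ 1 + Real.cos (X ℓ) := fun ℓ => by linarith [Real.neg_one_le_cos (X ℓ)]
  set h : Om r → ℝ≥0∞ := fun x =>
    ENNReal.ofReal ((fun ℓ : S.L => 1 + Real.cos (X ℓ)) x.1.1 * S'.W (ext r x + 0)) with hh_def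
  have hh : MeasC h := measC_weight r (fun ℓ => 1 + Real.cos (X ℓ)) 0
  have hφ' := cs_phi_nonneg hS' (X.comp r.psi)
  have key := unf_le_of_bar_le (iota r) (measC_aW r) hh (bar_aW_ne_zero r hS') (bar_aW_ne_top r hS')
    (ENNReal.ofReal (1 + S'.phi (X.comp r.psi))) (by
      intro x
      have e : ∀ z : S'.L, (1 + Real.cos (X (x.1.1 + r.psi z))) * S'.W ((z : S'.Amb) + (ext r x + 0))
          = S'.W ((z : S'.Amb) + ext r x)
            + Real.cos (X x.1.1 + (X.comp r.psi) z) * S'.W ((z : S'.Amb) + ext r x) := by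
        intro z
        rw [map_add, add_zero, add_mul, one_mul]
        rfl
      have s1 := cs_summable_W hS' (ext r x)
      have s2 := cs_summable_cos hS' (ext r x) (X.comp r.psi) (X x.1.1)
      rw [bar_aW r hS', hh_def, bar_weight r hS'.1 (fun ℓ => 1 + Real.cos (X ℓ)) hg 0 x
        (by simp only [e]; exact s1.add s2), ← ENNReal.ofReal_mul (by linarith)]
      refine ENNReal.ofReal_le_ofReal ?_
      simp only [e]
      rw [s1.tsum_add s2, ← cs_w_eq]
      have := cs_cos_shift_le hS' (ext r x) (X.comp r.psi) (X x.1.1)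
      linarith)
  have uh : unf h = ENNReal.ofReal (S.w 0 * (1 + S.phi X)) * Gam r := by
    have e : ∀ ℓ : S.L, (1 + Real.cos (X ℓ)) * S.W ((ℓ : S.Amb) + r.res 0)
        = S.W ((ℓ : S.Amb) + 0) + Real.cos (0 + X ℓ) * S.W ((ℓ : S.Amb) + 0) := by
      intro ℓ
      rw [map_zero, add_mul, one_mul, zero_add]
    have s1 := cs_summable_W hS 0
    have s2 := cs_summable_cos hS 0 X 0
    rw [hh_def, unf_weight r hS.1 (fun ℓ => 1 + Real.cos (X ℓ)) hg 0 (by simp only [e]; exact s1.add s2)]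
    simp only [e]
    rw [s1.tsum_add s2, ← cs_w_eq, mul_add, mul_one, cs_w_mul_phi hS]
    simp
  rw [unf_aW r hS, uh, ← mul_assoc,
    ENNReal.mul_le_mul_iff_left (Gam_ne_zero r hS'.1) (Gam_ne_top r hS'.1),
    ← ENNReal.ofReal_mul (by linarith),
    ENNReal.ofReal_le_ofReal_iff (mul_nonneg (by linarith) (cs_w_pos hS 0).le)] at key
  have h0 := cs_w_pos hS 0
  nlinarith

end

end Claimed.Agent.R285.Rsd
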