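import Claimed.Agent.R285.Rsd.CalcKit
import Claimed.Agent.R285.Rsd.CosetRef

/-!
# ROW 285, package BP-RSD-D (architect helper23), file 2: THE CALCULUS RULES.   Paper-free.

`rd_var_affine`, `rd_laplace_lower`, `rd_cumulant`, `rd_phi_lower`, `rd_phi_le_one`, `rd_phase_transfer` = the contracts `lsys_var_affine`, `lsys_laplace_lower`, `lsys_cumulant`, `lsys_phi_lower`, `lsys_phi_le_one`,
`lsys_phase_transfer` of `Base/Height.lean`, VERBATIM.  Inputs: `lsys_summable`, `lsys_pos`, `lsys_master`, `lsys_phi_four` + `Rsd/CalcKit.lean`.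
-/

set_option autoImplicit false

namespace Claimed.Agent.R285

open MeasureTheory Filter Topology
open Rsd (lsys_summable lsys_pos lsys_master lsys_phi_four lsys_mgf_mono)

noncomputable section

variable {S : LSys}

/-! ### consequences of the master inequality without characters -/

/-- L-RSD-D-F1.  `lsys_master S hS α β Y Y' 0 0`; `rd_wC_zero`, `Complex.norm_real`, `Real.norm_eq_abs`, `sq_abs`; `add_zero, sub_zero, rd_phi_zero, mul_one`. -/
theorem rd_master_real (hS : S.Ok) (α β : S.Amb) (Y Y' : S.L →+ ℝ) :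
    S.wT α Y ^ 2 * S.wT β Y' ^ 2 ≤ S.wT (α + β) (Y + Y') * S.wT (α - β) (Y - Y') * S.w 0 ^ 2 := by
  have hm := lsys_master S hS α β Y Y' 0 0
  simp only [rd_wC_zero, add_zero, sub_zero, rd_phi_zero hS, mul_one, Complex.norm_real,
    Real.norm_eq_abs, sq_abs] at hm
  calc S.wT α Y ^ 2 * S.wT β Y' ^ 2 ≤ _ := hm
    _ = _ := by ring

/-- `m(Y)⁴ ≤ m(2Y)` for `m(Y) = E0 e^Y`. -/
theorem rd_mgf_four (hS : S.Ok) (Y : S.L →+ ℝ) :
    (S.E0 fun z => Real.exp (Y z)) ^ 4 ≤ S.E0 fun z => Real.exp (((2 : ℝ) • Y) z) := by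
  have h := rd_master_real hS 0 0 Y Y
  have hw := rd_w_pos hS 0
  rw [add_zero, sub_zero, sub_self, rd_wT_zero, ← two_smul ℝ Y] at h
  rw [rd_E0_exp, rd_E0_exp, div_pow, div_le_div_iff₀ (by positivity) hw]
  nlinarith [h, hw]

/-- `φ(Y)⁴ ≤ φ(2Y)`. -/
theorem rd_phi_four' (hS : S.Ok) (Y : S.L →+ ℝ) : S.phi Y ^ 4 ≤ S.phi ((2 : ℝ) • Y) := by
  have h := lsys_phi_four S hS Y Y
  rw [sub_self, rd_phi_zero hS, mul_one, ← two_smul ℝ Y] at h
  calc S.phi Y ^ 4 = S.phi Y ^ 2 * S.phi Y ^ 2 := by ring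
    _ ≤ _ := h

/-! ### the rules -/

/-- **`log E e^X ≥ ½ Var X`.** -/
theorem rd_laplace_lower (hS : S.Ok) (X : S.L →+ ℝ) :
    S.V0 X / 2 ≤ Real.log (S.E0 fun z => Real.exp (X z)) := by
  have h := rd_doubling (fun Y : S.L →+ ℝ => S.E0 fun z => Real.exp (Y z)) (rd_mgf_four hS) X (S.V0 X / 2)
    (rd_mgf_lower hS X)
  rw [Real.le_log_iff_exp_le (lt_of_lt_of_le (Real.exp_pos _) h)]
  exact h

/-- **`φ(X) ≥ exp(-Var X / 2)`.** -/
theorem rd_phi_lower (hS : S.Ok) (X : S.L →+ ℝ) : Real.exp (-S.V0 X / 2) ≤ S.phi X :=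
  rd_doubling S.phi (rd_phi_four' hS) X (-S.V0 X / 2) (rd_phi_quad_lower hS X)

theorem rd_phi_pos (hS : S.Ok) (X : S.L →+ ℝ) : 0 < S.phi X := lt_of_lt_of_le (Real.exp_pos _) (rd_phi_lower hS X)

theorem rd_phi_le_one (hS : S.Ok) (X : S.L →+ ℝ) : S.phi X ≤ 1 := by
  have h := rd_E0_mono hS (rd_dom_cos fun z => X z) (rd_dom_const 1) fun z => Real.cos_le_one (X z)
  rwa [rd_E0_const hS] at h

/-- **phase transfer.** -/
theorem rd_phase_transfer (hS : S.Ok) (X Y : S.L →+ ℝ) :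
    Real.sqrt (-Real.log (S.phi (X + Y))) ≤ Real.sqrt (-Real.log (S.phi X)) + Real.sqrt (S.V0 Y / 2) := by
  refine rd_phase_abs (fun A : S.L →+ ℝ => -Real.log (S.phi A)) (fun B => S.V0 B / 2) ?_ ?_ ?_ ?_ X Y
  · intro A
    have := Real.log_nonpos (rd_phi_pos hS A).le (rd_phi_le_one hS A)
    linarith
  · intro A B
    have h := Real.log_le_log (by have := rd_phi_pos hS A; have := rd_phi_pos hS B; positivity)
      (lsys_phi_four S hS A B)
    rw [Real.log_mul (pow_ne_zero _ (rd_phi_pos hS A).ne') (pow_ne_zero _ (rd_phi_pos hS B).ne'),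
      Real.log_mul (rd_phi_pos hS _).ne' (rd_phi_pos hS _).ne', Real.log_pow, Real.log_pow] at h
    push_cast at h
    linarith
  · intro B
    have h := Real.log_le_log (Real.exp_pos _) (rd_phi_lower hS B)
    rw [Real.log_exp] at h
    linarith
  · intro t B
    rw [rd_V0_smul]
    ring

/-- L-RSD-D-F2.  `P = exp ∘ Y` in `rd_taylor2` (`rd_dom_exp`); `wT α (Y + s • X) = Zf α (e^{Y z} e^{s X z})` (`Real.exp_add`, `AddMonoidHom.add_apply, smul_apply, smul_eq_mul`); divide by `N = wT α Y > 0` (`lsys_pos`);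
`Ev α Y F = Zf α (F e^Y) / N` (commute the products by `rd_Zf_congr`); `K' = K / N`. -/
theorem rd_tilt_expand (hS : S.Ok) (α : S.Amb) (Y X : S.L →+ ℝ) :
    ∃ K : ℝ, ∀ s : ℝ, |s| ≤ 1 →
      |S.wT α (Y + s • X) / S.wT α Y -
        (1 + s * S.Ev α Y (fun z => X z) + s ^ 2 / 2 * S.Ev α Y fun z => X z * X z)| ≤ K * |s| ^ 3 := by
  obtain ⟨K, hK⟩ := rd_taylor2 hS α (rd_dom_exp Y) X
  have hN := lsys_pos S hS α Y
  refine ⟨K / S.wT α Y, fun s hs => ?_⟩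
  have h := hK s hs
  have e1 : S.wT α (Y + s • X) = S.Zf α fun z => Real.exp (Y z) * Real.exp (s * X z) :=
    rd_Zf_congr α fun z => by simp [Real.exp_add]
  have e0 : S.Zf α (fun z => Real.exp (Y z)) = S.wT α Y := rfl
  have e2 : S.Ev α Y (fun z => X z) = S.Zf α (fun z => Real.exp (Y z) * X z) / S.wT α Y := by
    unfold LSys.Ev
    congr 1
    exact rd_Zf_congr α fun z => by ring
  have e3 : S.Ev α Y (fun z => X z * X z) = S.Zf α (fun z => Real.exp (Y z) * X z ^ 2) / S.wT α Y := by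
    unfold LSys.Ev
    congr 1
    exact rd_Zf_congr α fun z => by ring
  rw [e0] at h
  rw [e1, e2, e3]
  have e4 : S.Zf α (fun z => Real.exp (Y z) * Real.exp (s * X z)) / S.wT α Y -
      (1 + s * (S.Zf α (fun z => Real.exp (Y z) * X z) / S.wT α Y) +
        s ^ 2 / 2 * (S.Zf α (fun z => Real.exp (Y z) * X z ^ 2) / S.wT α Y)) =
      (S.Zf α (fun z => Real.exp (Y z) * Real.exp (s * X z)) -
        (S.wT α Y + s * S.Zf α (fun z => Real.exp (Y z) * X z) +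
          s ^ 2 / 2 * S.Zf α fun z => Real.exp (Y z) * X z ^ 2)) / S.wT α Y := by
    field_simp
  rw [e4, abs_div, abs_of_pos hN]
  calc _ ≤ K * |s| ^ 3 / S.wT α Y := div_le_div_of_nonneg_right h hN.le
    _ = _ := by ring

/-- **the variance in an affine tilted law dominates the centred variance.** -/
theorem rd_var_affine (hS : S.Ok) (α : S.Amb) (Y X : S.L →+ ℝ) : S.V0 X ≤ S.Cv α Y X X := by
  obtain ⟨K, hK⟩ := rd_tilt_expand hS α Y X
  obtain ⟨K', hK'⟩ := rd_prod_expand (p := fun s => S.wT α (Y + s • X) / S.wT α Y) hK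
  have hN := lsys_pos S hS α Y
  have hw := rd_w_pos hS 0
  refine rd_le_of_cubic (K := K') fun s hs0 hs1 => ?_
  have h1 := hK' s hs0 hs1
  have h2 := rd_master_real hS α 0 Y (s • X)
  rw [add_zero, sub_zero] at h2
  have h3 := rd_mgf_lower hS X s
  rw [rd_E0_exp] at h3
  have hV := rd_V0_nonneg hS X
  -- `(wT 0 (sX) / w 0)² ≤ p(s) p(-s)`
  have h4 : (S.wT 0 (s • X) / S.w 0) ^ 2 ≤
      S.wT α (Y + s • X) / S.wT α Y * (S.wT α (Y + (-s) • X) / S.wT α Y) := by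
    rw [neg_smul, ← sub_eq_add_neg, div_pow, div_mul_div_comm, div_le_div_iff₀ (by positivity) (by positivity)]
    nlinarith [h2]
  have h5 : 1 + s ^ 2 * S.V0 X ≤ (S.wT 0 (s • X) / S.w 0) ^ 2 := by
    have h6 : 0 ≤ s ^ 2 * (S.V0 X / 2) := by positivity
    nlinarith [h3, h6]
  have h7 : S.Cv α Y X X = S.Ev α Y (fun z => X z * X z) - S.Ev α Y (fun z => X z) ^ 2 := by
    rw [LSys.Cv, sq]
  rw [h7]
  nlinarith [h1, h4, h5]

theorem rd_taylor2_E0 (hS : S.Ok) {P : S.L → ℝ} (hP : S.Dom P) (Y : S.L →+ ℝ) :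
    ∃ K : ℝ, 0 ≤ K ∧ ∀ s : ℝ, |s| ≤ 1 →
      |S.Zf 0 (fun z => P z * Real.exp (s * Y z)) / S.w 0 -
        (S.E0 P + s * S.E0 (fun z => P z * Y z) + s ^ 2 / 2 * S.E0 fun z => P z * Y z ^ 2)| ≤ K * |s| ^ 3 := by
  obtain ⟨K, hK⟩ := rd_taylor2 hS 0 hP Y
  have hw := rd_w_pos hS 0
  have hK0 : 0 ≤ K := by
    have := hK 1 (by simp)
    simp only [abs_one, one_pow, mul_one] at this
    exact (abs_nonneg _).trans this
  refine ⟨K / S.w 0, div_nonneg hK0 hw.le, fun s hs => ?_⟩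
  have h := hK s hs
  simp only [rd_E0_eq]
  have e4 : S.Zf 0 (fun z => P z * Real.exp (s * Y z)) / S.w 0 -
      (S.Zf 0 P / S.w 0 + s * (S.Zf 0 (fun z => P z * Y z) / S.w 0) +
        s ^ 2 / 2 * (S.Zf 0 (fun z => P z * Y z ^ 2) / S.w 0)) =
      (S.Zf 0 (fun z => P z * Real.exp (s * Y z)) -
        (S.Zf 0 P + s * S.Zf 0 (fun z => P z * Y z) + s ^ 2 / 2 * S.Zf 0 fun z => P z * Y z ^ 2)) / S.w 0 := by
    field_simp
  rw [e4, abs_div, abs_of_pos hw]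
  calc _ ≤ K * |s| ^ 3 / S.w 0 := div_le_div_of_nonneg_right h hw.le
    _ = _ := by ring

/-- L-RSD-D-F3.  `rd_taylor2` at `α = 0` with `P = X²`, `X`, `1` and the test `Y`, divided by `w 0`; take the maximum of the three constants.  Odd moments vanish (`rd_E0_odd`): `E0 (X² Y) = 0`, `E0 X = 0`, `E0 Y = 0`. -/
theorem rd_cumulant_expand (hS : S.Ok) (X Y : S.L →+ ℝ) :
    ∃ K : ℝ,
      (∀ s : ℝ, |s| ≤ 1 → |S.Zf 0 (fun z => X z ^ 2 * Real.exp (s * Y z)) / S.w 0 -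
        (S.V0 X + s * 0 + s ^ 2 / 2 * S.E0 fun z => X z ^ 2 * Y z ^ 2)| ≤ K * |s| ^ 3) ∧
      (∀ s : ℝ, |s| ≤ 1 → |S.Zf 0 (fun z => X z * Real.exp (s * Y z)) / S.w 0 -
        (0 + s * S.Cv 0 0 X Y + s ^ 2 / 2 * S.E0 fun z => X z * Y z ^ 2)| ≤ K * |s| ^ 3) ∧
      (∀ s : ℝ, |s| ≤ 1 → |S.Zf 0 (fun z => 1 * Real.exp (s * Y z)) / S.w 0 -
        (1 + s * 0 + s ^ 2 / 2 * S.V0 Y)| ≤ K * |s| ^ 3) := by
  obtain ⟨K1, h10, h1⟩ := rd_taylor2_E0 hS (rd_dom_pow (rd_dom_test X) 2) Y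
  obtain ⟨K2, h20, h2⟩ := rd_taylor2_E0 hS (rd_dom_test X) Y
  obtain ⟨K3, h30, h3⟩ := rd_taylor2_E0 hS (rd_dom_const (S := S) 1) Y
  have o1 : S.E0 (fun z => X z ^ 2 * Y z) = 0 := rd_E0_odd _ fun z => by simp
  have o2 : S.E0 (fun z => X z) = 0 := rd_E0_test X
  have o3 : S.E0 (fun z => (1 : ℝ) * Y z) = 0 := rd_E0_odd _ fun z => by simp
  have o4 : S.E0 (fun z => (1 : ℝ) * Y z ^ 2) = S.V0 Y := by rw [rd_V0_eq]; simp
  refine ⟨max K1 (max K2 K3), fun s hs => ?_, fun s hs => ?_, fun s hs => ?_⟩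
  · have h := h1 s hs
    rw [o1, ← rd_V0_eq] at h
    exact h.trans (mul_le_mul_of_nonneg_right (le_max_left _ _) (by positivity))
  · have h := h2 s hs
    rw [o2, ← rd_Cv0_eq] at h
    exact h.trans (mul_le_mul_of_nonneg_right ((le_max_left _ _).trans (le_max_right _ _)) (by positivity))
  · have h := h3 s hs
    rw [o3, o4, rd_E0_const hS] at h
    exact h.trans (mul_le_mul_of_nonneg_right ((le_max_right _ _).trans (le_max_right _ _)) (by positivity))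

/-- L-RSD-D-F3.  `rd_var_affine hS 0 (s • Y) X`; unfold `Cv`, `Ev`; with `M = wT 0 (sY) / w 0 > 0`, `A`, `B` as below: `Cv = A/M - (B/M)²`; multiply by `M²`. -/
theorem rd_cumulant_ineq (hS : S.Ok) (X Y : S.L →+ ℝ) (s : ℝ) :
    S.V0 X * (S.Zf 0 (fun z => 1 * Real.exp (s * Y z)) / S.w 0) ^ 2 ≤
      S.Zf 0 (fun z => X z ^ 2 * Real.exp (s * Y z)) / S.w 0 * (S.Zf 0 (fun z => 1 * Real.exp (s * Y z)) / S.w 0) -
        (S.Zf 0 (fun z => X z * Real.exp (s * Y z)) / S.w 0) ^ 2 := by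
  have h := rd_var_affine hS 0 (s • Y) X
  have hM := lsys_pos S hS 0 (s • Y)
  have hw := rd_w_pos hS 0
  have eM : S.Zf 0 (fun z => 1 * Real.exp (s * Y z)) = S.wT 0 (s • Y) := rd_Zf_congr 0 fun z => by simp
  have eA : S.Ev 0 (s • Y) (fun z => X z * X z) = S.Zf 0 (fun z => X z ^ 2 * Real.exp (s * Y z)) / S.wT 0 (s • Y) := by
    unfold LSys.Ev
    congr 1
    exact rd_Zf_congr 0 fun z => by simp [sq]
  have eB : S.Ev 0 (s • Y) (fun z => X z) = S.Zf 0 (fun z => X z * Real.exp (s * Y z)) / S.wT 0 (s • Y) := by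
    unfold LSys.Ev
    congr 1
  unfold LSys.Cv at h
  rw [eA, eB] at h
  rw [eM]
  set M := S.wT 0 (s • Y)
  set A := S.Zf 0 fun z => X z ^ 2 * Real.exp (s * Y z)
  set B := S.Zf 0 fun z => X z * Real.exp (s * Y z)
  set w := S.w 0
  have h1 : S.V0 X * (M / w) ^ 2 ≤ (A / M - B / M * (B / M)) * (M / w) ^ 2 :=
    mul_le_mul_of_nonneg_right h (by positivity)
  have h2 : (A / M - B / M * (B / M)) * (M / w) ^ 2 = A / w * (M / w) - (B / w) ^ 2 := by
    field_simp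
  linarith

/-- **paired cumulant.** -/
theorem rd_cumulant (hS : S.Ok) (X Y : S.L →+ ℝ) :
    0 ≤ S.E0 (fun z => X z ^ 2 * Y z ^ 2) - S.V0 X * S.V0 Y - 2 * S.Cv 0 0 X Y ^ 2 := by
  obtain ⟨K, hA, hB, hM⟩ := rd_cumulant_expand hS X Y
  exact rd_cumulant_abs hA hB hM fun s _ _ => rd_cumulant_ineq hS X Y s

/-- L-RSD-D-F4.  **From moment generating functions to variances** (used for `lsys_var_mono`, `lsys_var_mono_b`): `1 + s² V'/2 ≤ E0' e^{sX'}` (`rd_mgf_lower`), `E0 e^{sX} ≤ 1 + s² V/2 + K s³`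
(`rd_taylor2` with `P = 1`, `rd_E0_test`, `rd_V0_eq`), `rd_le_of_cubic`. -/
theorem rd_var_of_mgf {S S' : LSys} (hS : S.Ok) (hS' : S'.Ok) (X : S.L →+ ℝ) (X' : S'.L →+ ℝ)
    (h : ∀ s : ℝ, S'.E0 (fun z => Real.exp ((s • X') z)) ≤ S.E0 fun z => Real.exp ((s • X) z)) :
    S'.V0 X' ≤ S.V0 X := by
  obtain ⟨K, hK0, hK⟩ := rd_taylor2_E0 hS (rd_dom_const (S := S) 1) X
  have o3 : S.E0 (fun z => (1 : ℝ) * X z) = 0 := rd_E0_odd _ fun z => by simp
  have o4 : S.E0 (fun z => (1 : ℝ) * X z ^ 2) = S.V0 X := by rw [rd_V0_eq]; simp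
  have key : S'.V0 X' / 2 ≤ S.V0 X / 2 := by
    refine rd_le_of_cubic (K := K) fun s hs0 hs1 => ?_
    have h1 := hK s (by rw [abs_of_pos hs0]; exact hs1)
    rw [o3, o4, rd_E0_const hS, abs_of_pos hs0] at h1
    have h2 := rd_mgf_lower hS' X' s
    have h3 := h s
    have e : S.E0 (fun z => Real.exp ((s • X) z)) = S.Zf 0 (fun z => 1 * Real.exp (s * X z)) / S.w 0 := by
      rw [rd_E0_eq]
      congr 1
      exact rd_Zf_congr 0 fun z => by simp
    rw [e] at h3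
    have h4 := (abs_le.1 h1).2
    nlinarith [h2, h3, h4]
  linarith

/-- **centred variances decrease with precision** (from `lsys_mgf_mono`, package BP-RSD-C). -/
theorem rd_var_mono {S S' : LSys} (r : LSys.Ref S S') (hS : S.Ok) (hS' : S'.Ok) (X : S.L →+ ℝ) :
    S'.V0 (X.comp r.psi) ≤ S.V0 X :=
  rd_var_of_mgf hS hS' X (X.comp r.psi) fun s => lsys_mgf_mono r hS hS' (s • X)

/-! ### the contracts of `Base/Height.lean`, verbatim, in the namespace `Rsd` (wiring rule of helper170 / helper115) -/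

namespace Rsd

theorem lsys_var_mono {S S' : LSys} (r : LSys.Ref S S') (hS : S.Ok) (hS' : S'.Ok) (X : S.L →+ ℝ) :
    S'.V0 (X.comp r.psi) ≤ S.V0 X := rd_var_mono r hS hS' X

theorem lsys_var_affine (S : LSys) (hS : S.Ok) (α : S.Amb) (Y X : S.L →+ ℝ) : S.V0 X ≤ S.Cv α Y X X :=
  rd_var_affine hS α Y X

theorem lsys_laplace_lower (S : LSys) (hS : S.Ok) (X : S.L →+ ℝ) :
    S.V0 X / 2 ≤ Real.log (S.E0 fun z => Real.exp (X z)) := rd_laplace_lower hS X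

theorem lsys_cumulant (S : LSys) (hS : S.Ok) (X Y : S.L →+ ℝ) :
    0 ≤ S.E0 (fun z => X z ^ 2 * Y z ^ 2) - S.V0 X * S.V0 Y - 2 * S.Cv 0 0 X Y ^ 2 := rd_cumulant hS X Y

theorem lsys_phi_lower (S : LSys) (hS : S.Ok) (X : S.L →+ ℝ) : Real.exp (-S.V0 X / 2) ≤ S.phi X := rd_phi_lower hS X

theorem lsys_phi_le_one (S : LSys) (hS : S.Ok) (X : S.L →+ ℝ) : S.phi X ≤ 1 := rd_phi_le_one hS X

theorem lsys_phase_transfer (S : LSys) (hS : S.Ok) (X Y : S.L →+ ℝ) :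
    Real.sqrt (-Real.log (S.phi (X + Y))) ≤ Real.sqrt (-Real.log (S.phi X)) + Real.sqrt (S.V0 Y / 2) :=
  rd_phase_transfer hS X Y

end Rsd

end

end Claimed.Agent.R285
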