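import Claimed.Agent.R285.Rsd.CosetEvent
import Claimed.Agent.R285.Rsd.CosetFree
import Claimed.Agent.R285.Rsd.Calc

/-!
# ROW 285, package BP-RSD-B: monotonicity in the temperature (owner helper5)

`p_{b'} = p_b * p_{b'-b}` (`bes_conv_hasSum`): a bond at `b'` is two bonds in series.
* `tpE S b'` = the bonds with `b e < b' e`;
* the SERIES SYSTEM `tpSys S b'`: bonds `S.E ⊕ tpE`, temperatures `b` and `b' - b`, lattice = preimage of `S.L` under
  `tpPi : (u, j, o) ↦ (u + j, o)`;  `tpSys_ok`;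
* `tp_Zf_ser`: the law of `tpPi y` in the series system is the law of `S.atb b'`
  (`(tpSys).L ≃ S.L × ℤ^{tpE}`, Fubini, `cs_real_tsum_pi`);
* `tp_Zf_pin`: the subsystem `{j = 0}` is `S`, up to the constant `∏ p_{b'-b}(0)`;
* the subsystem is a `Ref` (`subRef`): `lsys_mgf_mono`, `lsys_phi_mono`; variances by `rd_var_of_mgf`.

Exports (verbatim from `Base/Height.lean`, namespace `Rsd`): `lsys_mgf_mono_b`, `lsys_var_mono_b`, `lsys_phi_mono_b`.
-/

set_option autoImplicit false
set_option linter.unusedSectionVars false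

namespace Claimed.Agent.R285.Rsd

noncomputable section

open Classical

variable (S : LSys) (b' : S.E → ℝ)

/-- the bonds whose temperature increases -/
abbrev tpE : Type := {e : S.E // S.b e < b' e}

/-- extension by zero -/
def tpExt : (tpE S b' → ℤ) →+ (S.E → ℤ) where
  toFun j e := if h : S.b e < b' e then j ⟨e, h⟩ else 0
  map_zero' := by
    funext e
    by_cases h : S.b e < b' e <;> simp [h]
  map_add' j j' := by
    funext e
    by_cases h : S.b e < b' e <;> simp [h]

theorem tpExt_pos (j : tpE S b' → ℤ) (e : tpE S b') : tpExt S b' j e.1 = j e := by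
  show (if h : S.b e.1 < b' e.1 then j ⟨e.1, h⟩ else 0) = j e
  rw [dif_pos e.2]

theorem tpExt_neg (j : tpE S b' → ℤ) {e : S.E} (h : ¬ S.b e < b' e) : tpExt S b' j e = 0 := by
  show (if h : S.b e < b' e then j ⟨e, h⟩ else 0) = 0
  rw [dif_neg h]

/-- `(u, j, o) ↦ (u + j, o)` -/
def tpPi : ((S.E ⊕ tpE S b' → ℤ) × (S.O → ℝ)) →+ S.Amb where
  toFun y := (fun e => y.1 (Sum.inl e) + tpExt S b' (fun e' => y.1 (Sum.inr e')) e, y.2)
  map_zero' := by
    refine Prod.ext (funext fun e => ?_) rfl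
    have : (fun e' : tpE S b' => ((0 : (S.E ⊕ tpE S b' → ℤ) × (S.O → ℝ)).1 (Sum.inr e'))) = 0 := rfl
    simp only [this, map_zero]
    rfl
  map_add' y y' := by
    refine Prod.ext (funext fun e => ?_) rfl
    have : (fun e' : tpE S b' => (y + y').1 (Sum.inr e'))
        = (fun e' => y.1 (Sum.inr e')) + fun e' => y'.1 (Sum.inr e') := rfl
    simp only [this, map_add]
    show y.1 (Sum.inl e) + y'.1 (Sum.inl e) + (_ + _) = (_ + _) + (_ + _)
    ring

/-- the series system -/
abbrev tpSys : LSys where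
  E := S.E ⊕ tpE S b'
  O := S.O
  b := Sum.elim S.b (fun e => b' e.1 - S.b e.1)
  L := S.L.comap (tpPi S b')

/-- `tpPi` on the ambient group of the series system -/
def tpP : (tpSys S b').Amb →+ S.Amb := tpPi S b'

/-- the second increments -/
def tpJ : (tpSys S b').Amb →+ (tpE S b' → ℤ) where
  toFun y e := y.1 (Sum.inr e)
  map_zero' := rfl
  map_add' _ _ := rfl

/-- `(u, o) ↦ (u, 0, o)` -/
def tpLift : S.Amb →+ (tpSys S b').Amb where
  toFun z := (Sum.elim z.1 0, z.2)
  map_zero' := by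
    refine Prod.ext (funext fun e => ?_) rfl
    cases e <;> rfl
  map_add' z z' := by
    refine Prod.ext (funext fun e => ?_) rfl
    cases e
    · rfl
    · show (0 : ℤ) = 0 + 0
      simp

/-- `j ↦ (-j, j, 0)` -/
def tpKer : (tpE S b' → ℤ) →+ (tpSys S b').Amb where
  toFun j := (Sum.elim (-tpExt S b' j) j, 0)
  map_zero' := by
    refine Prod.ext (funext fun e => ?_) rfl
    cases e
    · show (-tpExt S b' 0) _ = 0
      simp
    · rfl
  map_add' j j' := by
    refine Prod.ext (funext fun e => ?_) (by simp)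
    cases e with
    | inl e =>
      show (-tpExt S b' (j + j')) e = (-tpExt S b' j) e + (-tpExt S b' j') e
      simp only [map_add, Pi.neg_apply, Pi.add_apply]
      ring
    | inr e => rfl

theorem tpP_apply (y : (tpSys S b').Amb) :
    tpP S b' y = (fun e => y.1 (Sum.inl e) + tpExt S b' (tpJ S b' y) e, y.2) := rfl

theorem tpJ_lift (z : S.Amb) : tpJ S b' (tpLift S b' z) = 0 := rfl

theorem tpJ_ker (j : tpE S b' → ℤ) : tpJ S b' (tpKer S b' j) = j := rfl

theorem tpP_lift (z : S.Amb) : tpP S b' (tpLift S b' z) = z := by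
  rw [tpP_apply, tpJ_lift, map_zero]
  refine Prod.ext (funext fun e => ?_) rfl
  show z.1 e + 0 = z.1 e
  simp

theorem tpP_ker (j : tpE S b' → ℤ) : tpP S b' (tpKer S b' j) = 0 := by
  rw [tpP_apply, tpJ_ker]
  refine Prod.ext (funext fun e => ?_) rfl
  show (-tpExt S b' j) e + tpExt S b' j e = 0
  simp

theorem tp_decomp (y : (tpSys S b').Amb) :
    tpLift S b' (tpP S b' y) + tpKer S b' (tpJ S b' y) = y := by
  refine Prod.ext (funext fun e => ?_) ?_
  · cases e with
    | inl e =>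
      show (y.1 (Sum.inl e) + tpExt S b' (tpJ S b' y) e) + (-tpExt S b' (tpJ S b' y)) e = y.1 (Sum.inl e)
      simp
    | inr e =>
      show (0 : ℤ) + y.1 (Sum.inr e) = y.1 (Sum.inr e)
      simp
  · show y.2 + 0 = y.2
    simp

theorem tp_mem_L (y : (tpSys S b').Amb) : y ∈ (tpSys S b').L ↔ tpP S b' y ∈ S.L := Iff.rfl

/-- `tpP` on the lattices -/
def tpPL : (tpSys S b').L →+ S.L where
  toFun y := ⟨tpP S b' y, y.2⟩
  map_zero' := by
    apply Subtype.ext
    exact map_zero (tpP S b')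
  map_add' y y' := by
    apply Subtype.ext
    exact map_add (tpP S b') (y : (tpSys S b').Amb) (y' : (tpSys S b').Amb)

/-- the fibration of the series lattice -/
def tpEquiv : (tpSys S b').L ≃ S.L × (tpE S b' → ℤ) where
  toFun y := (tpPL S b' y, tpJ S b' y)
  invFun p := ⟨tpLift S b' p.1 + tpKer S b' p.2, by
    rw [tp_mem_L, map_add, tpP_lift, tpP_ker, add_zero]
    exact p.1.2⟩
  left_inv y := by
    apply Subtype.ext
    exact tp_decomp S b' y
  right_inv p := by
    refine Prod.ext (Subtype.ext ?_) ?_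
    · show tpP S b' (tpLift S b' p.1 + tpKer S b' p.2) = p.1
      rw [map_add, tpP_lift, tpP_ker, add_zero]
    · show tpJ S b' (tpLift S b' p.1 + tpKer S b' p.2) = p.2
      rw [map_add, tpJ_lift, tpJ_ker, zero_add]

/-! ### the weights -/

theorem tp_W (z : S.Amb) (j : tpE S b' → ℤ) :
    (tpSys S b').W (tpLift S b' z + tpKer S b' j) =
      ((∏ e, bes (S.b e) (z.1 e - tpExt S b' j e)) * ∏ e : tpE S b', bes (b' e.1 - S.b e.1) (j e)) *
        Real.exp (-(∑ o, z.2 o ^ 2) / 2) := by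
  have hprod : (∏ e : S.E ⊕ tpE S b', bes ((tpSys S b').b e) ((tpLift S b' z + tpKer S b' j).1 e))
      = (∏ e, bes (S.b e) (z.1 e - tpExt S b' j e)) * ∏ e : tpE S b', bes (b' e.1 - S.b e.1) (j e) := by
    refine (Fintype.prod_sum_type _).trans ?_
    refine congrArg₂ (· * ·) (Finset.prod_congr rfl fun e _ => ?_) (Finset.prod_congr rfl fun e _ => ?_)
    · show bes (S.b e) (z.1 e + (-tpExt S b' j) e) = _
      rw [Pi.neg_apply, sub_eq_add_neg]
    · show bes (b' e.1 - S.b e.1) (0 + j e) = _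
      rw [zero_add]
  have hsum : (∑ o, (tpLift S b' z + tpKer S b' j).2 o ^ 2) = ∑ o, z.2 o ^ 2 := by
    refine Finset.sum_congr rfl fun o _ => ?_
    show (z.2 o + 0) ^ 2 = _
    rw [add_zero]
  show (∏ e : S.E ⊕ tpE S b', bes ((tpSys S b').b e) ((tpLift S b' z + tpKer S b' j).1 e)) *
    Real.exp (-(∑ o, (tpLift S b' z + tpKer S b' j).2 o ^ 2) / 2) = _
  rw [hprod, hsum]

variable {S b'}

/-- the convolution identity for all bonds at once -/
theorem tp_conv (hb : ∀ e, 0 < S.b e) (hbb : ∀ e, S.b e ≤ b' e) (u : S.E → ℤ) :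
    ∑' j : tpE S b' → ℤ, (∏ e, bes (S.b e) (u e - tpExt S b' j e)) *
        ∏ e : tpE S b', bes (b' e.1 - S.b e.1) (j e) = ∏ e, bes (b' e) (u e) := by
  have h1 : ∀ j : tpE S b' → ℤ, (∏ e, bes (S.b e) (u e - tpExt S b' j e)) *
      ∏ e : tpE S b', bes (b' e.1 - S.b e.1) (j e) =
      (∏ e : tpE S b', bes (b' e.1 - S.b e.1) (j e) * bes (S.b e.1) (u e.1 - j e)) *
        ∏ e : {e : S.E // ¬ S.b e < b' e}, bes (b' e.1) (u e.1) := by
    intro j
    rw [← Fintype.prod_subtype_mul_prod_subtype (fun e : S.E => S.b e < b' e)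
      (fun e => bes (S.b e) (u e - tpExt S b' j e)), Finset.prod_mul_distrib]
    have e1 : ∏ e : {e : S.E // S.b e < b' e}, bes (S.b e.1) (u e.1 - tpExt S b' j e.1)
        = ∏ e : tpE S b', bes (S.b e.1) (u e.1 - j e) :=
      Finset.prod_congr rfl fun e _ => by rw [tpExt_pos]
    have e2 : ∏ e : {e : S.E // ¬ S.b e < b' e}, bes (S.b e.1) (u e.1 - tpExt S b' j e.1)
        = ∏ e : {e : S.E // ¬ S.b e < b' e}, bes (b' e.1) (u e.1) :=
      Finset.prod_congr rfl fun e _ => by
        rw [tpExt_neg S b' j e.2, sub_zero, le_antisymm (hbb e.1) (not_lt.mp e.2)]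
    rw [e1, e2]
    ring
  simp_rw [h1]
  rw [tsum_mul_right, cs_real_tsum_pi (fun (e : tpE S b') (k : ℤ) =>
    bes (b' e.1 - S.b e.1) k * bes (S.b e.1) (u e.1 - k)) fun e k =>
      mul_nonneg (bes_nonneg _ (sub_pos.mpr e.2).le _) (bes_nonneg _ (hb e.1).le _)]
  rw [← Fintype.prod_subtype_mul_prod_subtype (fun e : S.E => S.b e < b' e) (fun e => bes (b' e) (u e))]
  congr 1
  refine Finset.prod_congr rfl fun e _ => ?_
  rw [(bes_conv_hasSum (b' e.1 - S.b e.1) (S.b e.1) (u e.1)).tsum_eq, sub_add_cancel]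

theorem tp_W_sum (hb : ∀ e, 0 < S.b e) (hbb : ∀ e, S.b e ≤ b' e) (z : S.Amb) :
    ∑' j : tpE S b' → ℤ, (tpSys S b').W (tpLift S b' z + tpKer S b' j) = (S.atb b').W z := by
  simp_rw [tp_W]
  rw [tsum_mul_right, tp_conv hb hbb]
  rfl

/-- **the law of `u + j` in the series system is the law at temperature `b'`.** -/
theorem tp_Zf_ser (hb : ∀ e, 0 < S.b e) (hbb : ∀ e, S.b e ≤ b' e) (F : S.L → ℝ)
    (hF : Summable fun y : (tpSys S b').L => F (tpPL S b' y) * (tpSys S b').W ((y : (tpSys S b').Amb) + 0)) :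
    (tpSys S b').Zf 0 (fun y => F (tpPL S b' y)) = (S.atb b').Zf 0 F := by
  unfold LSys.Zf
  simp only [add_zero] at hF ⊢
  rw [← (tpEquiv S b').symm.tsum_eq]
  have hF' : Summable fun p : S.L × (tpE S b' → ℤ) =>
      F (tpPL S b' ((tpEquiv S b').symm p)) * (tpSys S b').W (((tpEquiv S b').symm p : (tpSys S b').L) : (tpSys S b').Amb) :=
    (tpEquiv S b').symm.summable_iff.mpr hF
  rw [hF'.tsum_prod]
  refine tsum_congr fun z => ?_
  have e1 : ∀ j : tpE S b' → ℤ, tpPL S b' ((tpEquiv S b').symm (z, j)) = z := fun j =>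
    congrArg Prod.fst ((tpEquiv S b').apply_symm_apply (z, j))
  simp_rw [e1]
  rw [tsum_mul_left]
  congr 1
  exact tp_W_sum hb hbb (z : S.Amb)

variable (S b')

/-! ### the pinned subsystem -/

/-- the second increments vanish -/
def tpM : AddSubgroup (tpSys S b').Amb := (tpJ S b').ker

/-- the pinned lattice is `S.L` -/
def tpEquiv0 : ((tpSys S b').sub (tpM S b')).L ≃ S.L where
  toFun y := ⟨tpP S b' y.1, y.2.1⟩
  invFun z := ⟨tpLift S b' z, by
    refine ⟨?_, ?_⟩
    · show tpP S b' (tpLift S b' z) ∈ S.L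
      rw [tpP_lift]
      exact z.2
    · exact tpJ_lift S b' z⟩
  left_inv y := by
    apply Subtype.ext
    have h := tp_decomp S b' y.1
    have h0 : tpJ S b' y.1 = 0 := y.2.2
    rw [h0, map_zero, add_zero] at h
    exact h
  right_inv z := by
    apply Subtype.ext
    exact tpP_lift S b' z

/-- the constant `∏ p_{b'-b}(0)` -/
def tpC : ℝ := ∏ e : tpE S b', bes (b' e.1 - S.b e.1) 0

theorem tpC_pos : 0 < tpC S b' := Finset.prod_pos fun e _ => bes_pos _ (sub_pos.mpr e.2) _

theorem tp_W_lift (z : S.Amb) : (tpSys S b').W (tpLift S b' z) = tpC S b' * S.W z := by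
  have h := tp_W S b' z 0
  rw [map_zero, add_zero] at h
  rw [h]
  unfold LSys.W tpC
  simp only [map_zero, Pi.zero_apply, sub_zero]
  ring

theorem tp_Zf_pin (F : S.L → ℝ) :
    ((tpSys S b').sub (tpM S b')).Zf 0 (fun y => F (tpEquiv0 S b' y)) = tpC S b' * S.Zf 0 F := by
  unfold LSys.Zf
  rw [← (tpEquiv0 S b').symm.tsum_eq, ← tsum_mul_left]
  refine tsum_congr fun z => ?_
  show F (tpEquiv0 S b' ((tpEquiv0 S b').symm z)) * (tpSys S b').W (tpLift S b' z + 0) = _
  rw [Equiv.apply_symm_apply, add_zero, add_zero, tp_W_lift]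
  ring

theorem tp_E0_pin (F : S.L → ℝ) :
    ((tpSys S b').sub (tpM S b')).E0 (fun y => F (tpEquiv0 S b' y)) = S.E0 F := by
  rw [rd_E0_eq, rd_E0_eq, tp_Zf_pin]
  have h1 : ((tpSys S b').sub (tpM S b')).w 0 = tpC S b' * S.w 0 := tp_Zf_pin S b' fun _ => 1
  rw [h1, mul_div_mul_left _ _ (tpC_pos S b').ne']

/-! ### properness -/

theorem tpSys_ok (hS : S.Ok) (_hbb : ∀ e, S.b e ≤ b' e) : (tpSys S b').Ok := by
  obtain ⟨hb, n, v, hv, hL⟩ := hS
  have hbT : ∀ e, 0 < (tpSys S b').b e := by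
    intro e
    cases e with
    | inl e => exact hb e
    | inr e => exact sub_pos.mpr e.2
  set w : Fin n ⊕ tpE S b' → (tpSys S b').Amb :=
    Sum.elim (fun i => tpLift S b' (v i)) (fun e => tpKer S b' (Pi.single e 1)) with hw
  refine kit_ok_of_le (tpSys S b') hbT w ?_ ?_
  · rw [Fintype.linearIndependent_iff]
    intro g hg
    rw [Fintype.sum_sum_type] at hg
    simp only [hw, Sum.elim_inl, Sum.elim_inr] at hg
    -- the coordinates `inr e`
    have h2 : ∀ e : tpE S b', g (Sum.inr e) = 0 := by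
      intro e
      have h := congrFun (congrArg Prod.fst hg) (Sum.inr e)
      simp only [Prod.fst_add, Pi.add_apply, Prod.fst_sum, Finset.sum_apply, Prod.smul_fst,
        Pi.smul_apply, smul_eq_mul, Prod.fst_zero, Pi.zero_apply] at h
      have a1 : ∀ i, ((tpSys S b').real (tpLift S b' (v i))).1 (Sum.inr e) = 0 := fun i => by
        show (((0 : ℤ)) : ℝ) = 0
        simp
      have a2 : ∀ e', ((tpSys S b').real (tpKer S b' (Pi.single e' 1))).1 (Sum.inr e)
          = if e' = e then 1 else 0 := fun e' => by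
        show (((Pi.single e' 1 : tpE S b' → ℤ) e : ℤ) : ℝ) = _
        rw [Pi.single_apply]
        by_cases hh : e = e'
        · simp [hh]
        · simp [hh, Ne.symm hh]
      simp only [a1, a2, mul_zero, Finset.sum_const_zero, zero_add, mul_ite, mul_one,
        Finset.sum_ite_eq', Finset.mem_univ, if_true] at h
      exact h
    have h1 : ∑ i, g (Sum.inl i) • S.real (v i) = 0 := by
      simp only [h2, zero_smul, Finset.sum_const_zero, add_zero] at hg
      refine Prod.ext (funext fun e => ?_) (funext fun o => ?_)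
      · have h := congrFun (congrArg Prod.fst hg) (Sum.inl e)
        simp only [Prod.fst_sum, Finset.sum_apply, Prod.smul_fst, Pi.smul_apply, smul_eq_mul,
          Prod.fst_zero, Pi.zero_apply] at h ⊢
        exact h
      · have h := congrFun (congrArg Prod.snd hg) o
        simp only [Prod.snd_sum, Finset.sum_apply, Prod.smul_snd, Pi.smul_apply, smul_eq_mul,
          Prod.snd_zero, Pi.zero_apply] at h ⊢
        exact h
    have h3 := Fintype.linearIndependent_iff.mp hv (fun i => g (Sum.inl i)) h1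
    intro i
    cases i with
    | inl i => exact h3 i
    | inr e => exact h2 e
  · intro y hy
    rw [← tp_decomp S b' y]
    refine add_mem ?_ ?_
    · have hy' : tpP S b' y ∈ AddSubgroup.closure (Set.range v) := hL ▸ hy
      have hle : AddSubgroup.closure (Set.range v)
          ≤ (AddSubgroup.closure (Set.range w)).comap (tpLift S b') := by
        rw [AddSubgroup.closure_le]
        rintro _ ⟨i, rfl⟩
        exact AddSubgroup.subset_closure ⟨Sum.inl i, rfl⟩
      exact hle hy'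
    · have e1 : tpJ S b' y = ∑ e, tpJ S b' y e • (Pi.single e 1 : tpE S b' → ℤ) := by
        funext e
        simp [Finset.sum_apply, Pi.single_apply]
      rw [e1, map_sum]
      refine sum_mem fun e _ => ?_
      rw [map_zsmul]
      have hmem : tpKer S b' (Pi.single e 1) ∈ AddSubgroup.closure (Set.range w) :=
        AddSubgroup.subset_closure ⟨Sum.inr e, rfl⟩
      exact zsmul_mem hmem _

theorem tp_atb_ok (hS : S.Ok) (hbb : ∀ e, S.b e ≤ b' e) : (S.atb b').Ok :=
  ⟨fun e => lt_of_lt_of_le (hS.1 e) (hbb e), hS.2⟩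

theorem tp_E0_ser (hS : S.Ok) (hbb : ∀ e, S.b e ≤ b' e) (F : S.L → ℝ)
    (hF : Summable fun y : (tpSys S b').L => F (tpPL S b' y) * (tpSys S b').W ((y : (tpSys S b').Amb) + 0)) :
    (tpSys S b').E0 (fun y => F (tpPL S b' y)) = (S.atb b').E0 F := by
  have h1 : (tpSys S b').w 0 = (S.atb b').w 0 :=
    tp_Zf_ser hS.1 hbb (fun _ => 1) (by simpa using cs_summable_W (tpSys_ok S b' hS hbb) 0)
  refine (rd_E0_eq _).trans (Eq.trans ?_ (rd_E0_eq (S := S.atb b') F).symm)
  exact congrArg₂ (· / ·) (tp_Zf_ser hS.1 hbb F hF) h1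

/-! ### the exports -/

/-- monotonicity in the temperature ([E]L2.1 end) -/
theorem lsys_mgf_mono_b (hS : S.Ok) (b' : S.E → ℝ) (hbb : ∀ e, S.b e ≤ b' e) (X : S.L →+ ℝ) :
    S.E0 (fun z => Real.exp (X z)) ≤ (S.atb b').E0 fun z => Real.exp (X z) := by
  have hT := tpSys_ok S b' hS hbb
  have h := lsys_mgf_mono (subRef (tpSys S b') (tpM S b')) hT (lsys_ok_sub _ hT _) (X.comp (tpPL S b'))
  have e1 := tp_E0_pin S b' (fun z => Real.exp (X z))
  have e2 := tp_E0_ser S b' hS hbb (fun z => Real.exp (X z)) (lsys_summable _ hT 0 (X.comp (tpPL S b')))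
  exact e1.symm.le.trans (h.trans e2.le)

theorem lsys_var_mono_b (hS : S.Ok) (b' : S.E → ℝ) (hbb : ∀ e, S.b e ≤ b' e) (X : S.L →+ ℝ) :
    S.V0 X ≤ (S.atb b').V0 X :=
  rd_var_of_mgf (S := S.atb b') (S' := S) (tp_atb_ok S b' hS hbb) hS X X fun s =>
    lsys_mgf_mono_b S hS b' hbb (s • X)

theorem lsys_phi_mono_b (hS : S.Ok) (b' : S.E → ℝ) (hbb : ∀ e, S.b e ≤ b' e) (X : S.L →+ ℝ) :
    (S.atb b').phi X ≤ S.phi X := by
  have hT := tpSys_ok S b' hS hbb
  have h := lsys_phi_mono (subRef (tpSys S b') (tpM S b')) hT (lsys_ok_sub _ hT _) (X.comp (tpPL S b'))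
  have e1 := tp_E0_pin S b' (fun z => Real.cos (X z))
  have e2 := tp_E0_ser S b' hS hbb (fun z => Real.cos (X z))
    (by simpa using cs_summable_cos hT 0 (X.comp (tpPL S b')) 0)
  exact e2.symm.le.trans (h.trans e1.le)

end

end Claimed.Agent.R285.Rsd
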