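import Claimed.Agent.R285.Rsd.CosetUnfold

/-!
# ROW 285, package BP-RSD-M, file 2: abstract summation lemmas (owner helper170; Mathlib only)

* `ms_hasSum_pi_prod`    : product of `HasSum`s of nonnegative families = `HasSum` over the functions;
* `ms_hasSum_prod_family`: `∑_{(p,q)} a p * b q = (∑ a)(∑ b)` from the summability of `‖a p‖ ‖b q‖` ALONE (junk values are harmless);
* `ms_cauchy_schwarz`    : weighted Cauchy-Schwarz for `HasSum`s.
-/

set_option autoImplicit false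

namespace Claimed.Agent.R285.Rsd

open ENNReal

noncomputable section

theorem ms_hasSum_pi_prod {ι κ : Type*} [Fintype ι] (f : ι → κ → ℝ) (a : ι → ℝ) (h0 : ∀ i k, 0 ≤ f i k)
    (h : ∀ i, HasSum (f i) (a i)) : HasSum (fun j : ι → κ => ∏ i, f i (j i)) (∏ i, a i) := by
  have ha : ∀ i, 0 ≤ a i := fun i => (h i).nonneg (h0 i)
  have hp : ∀ j : ι → κ, 0 ≤ ∏ i, f i (j i) := fun j => Finset.prod_nonneg fun i _ => h0 i (j i)
  have e : ∑' j : ι → κ, ENNReal.ofReal (∏ i, f i (j i)) = ENNReal.ofReal (∏ i, a i) := by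
    simp_rw [ENNReal.ofReal_prod_of_nonneg fun i _ => h0 i _]
    rw [cs_ennreal_tsum_pi fun i k => ENNReal.ofReal (f i k), ENNReal.ofReal_prod_of_nonneg fun i _ => ha i]
    refine Finset.prod_congr rfl fun i _ => ?_
    rw [← ENNReal.ofReal_tsum_of_nonneg (h0 i) (h i).summable, (h i).tsum_eq]
  have hs : Summable fun j : ι → κ => ∏ i, f i (j i) := by
    have h1 := ENNReal.summable_toReal (f := fun j : ι → κ => ENNReal.ofReal (∏ i, f i (j i)))
      (by rw [e]; exact ENNReal.ofReal_ne_top)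
    refine h1.congr fun j => ?_
    exact ENNReal.toReal_ofReal (hp j)
  have h2 := ENNReal.ofReal_tsum_of_nonneg hp hs
  rw [e] at h2
  have h3 : ∑' j : ι → κ, ∏ i, f i (j i) = ∏ i, a i :=
    (ENNReal.ofReal_eq_ofReal_iff (tsum_nonneg hp) (Finset.prod_nonneg fun i _ => ha i)).1 h2
  exact h3 ▸ hs.hasSum

theorem ms_hasSum_prod_family {P Q : Type*} (a : P → ℂ) (b : Q → ℂ)
    (h : Summable fun x : P × Q => ‖a x.1‖ * ‖b x.2‖) :
    HasSum (fun x : P × Q => a x.1 * b x.2) ((∑' p, a p) * ∑' q, b q) := by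
  by_cases ha : ∀ p, a p = 0
  · simp [ha]
  by_cases hb : ∀ q, b q = 0
  · simp [hb]
  push Not at ha hb
  obtain ⟨p₀, hp₀⟩ := ha
  obtain ⟨q₀, hq₀⟩ := hb
  have hb' : Summable fun q => ‖b q‖ :=
    (summable_mul_left_iff (norm_ne_zero_iff.2 hp₀)).1 (h.prod_factor p₀)
  have ha' : Summable fun p => ‖a p‖ := by
    have h1 : Summable fun x : Q × P => ‖a x.2‖ * ‖b x.1‖ := (Equiv.prodComm Q P).summable_iff.2 h
    exact (summable_mul_right_iff (norm_ne_zero_iff.2 hq₀)).1 (h1.prod_factor q₀)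
  refine ha'.of_norm.hasSum.mul hb'.of_norm.hasSum (Summable.of_norm ?_)
  simpa only [norm_mul] using h

theorem ms_cauchy_schwarz {I : Type*} (l : I → ℝ) (hl : ∀ i, 0 ≤ l i) (A B : I → ℂ) {P : ℂ} {SA SB : ℝ}
    (hP : HasSum (fun i => (l i : ℂ) * A i * B i) P) (hA : HasSum (fun i => l i * ‖A i‖ ^ 2) SA)
    (hB : HasSum (fun i => l i * ‖B i‖ ^ 2) SB) : ‖P‖ ^ 2 ≤ SA * SB := by
  have hsum : Summable fun i => l i * (‖A i‖ * ‖B i‖) := by
    refine Summable.of_nonneg_of_le (fun i => mul_nonneg (hl i) (by positivity)) (fun i => ?_)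
      (hA.summable.add hB.summable)
    nlinarith [sq_nonneg (‖A i‖ - ‖B i‖), hl i, mul_nonneg (hl i) (sq_nonneg (‖A i‖ - ‖B i‖))]
  set T := ∑' i, l i * (‖A i‖ * ‖B i‖) with hT
  have hT0 : 0 ≤ T := tsum_nonneg fun i => mul_nonneg (hl i) (by positivity)
  have hPT : ‖P‖ ≤ T := by
    have hn : ∀ i, ‖(l i : ℂ) * A i * B i‖ = l i * (‖A i‖ * ‖B i‖) := fun i => by
      rw [norm_mul, norm_mul, Complex.norm_real, Real.norm_eq_abs, abs_of_nonneg (hl i), mul_assoc]
    rw [← hP.tsum_eq, hT]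
    refine (norm_tsum_le_tsum_norm ?_).trans (le_of_eq (tsum_congr hn))
    exact hsum.congr fun i => (hn i).symm
  have hq : ∀ t : ℝ, 0 ≤ SA * (t * t) + (-(2 * T)) * t + SB := by
    intro t
    have h1 : HasSum (fun i => l i * (t * ‖A i‖ - ‖B i‖) ^ 2) (SA * (t * t) + (-(2 * T)) * t + SB) := by
      have h2 := ((hA.mul_right (t * t)).add (hsum.hasSum.mul_right (-(2 * t)))).add hB
      have e : SA * (t * t) + T * (-(2 * t)) + SB = SA * (t * t) + (-(2 * T)) * t + SB := by ring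
      rw [e] at h2
      have e2 : (fun i => l i * (t * ‖A i‖ - ‖B i‖) ^ 2) = fun i =>
          l i * ‖A i‖ ^ 2 * (t * t) + l i * (‖A i‖ * ‖B i‖) * (-(2 * t)) + l i * ‖B i‖ ^ 2 := by
        funext i
        ring
      rw [e2]
      exact h2
    exact h1.nonneg fun i => mul_nonneg (hl i) (sq_nonneg _)
  have hd := discrim_le_zero hq
  unfold discrim at hd
  have : T ^ 2 ≤ SA * SB := by nlinarith
  calc ‖P‖ ^ 2 ≤ T ^ 2 := by gcongr
    _ ≤ _ := this

end

end Claimed.Agent.R285.Rsd
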