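import Claimed.Agent.R285.Rsd.CosetEvent
import Claimed.Agent.R285.Rsd.CosetFree
import Claimed.Agent.R285.Rsd.Calc

/-!
# ROW 285, leaf L-ENT-FK-BES (#15095, helper5): a new comparison rule.   ALL PROVED, no `sorry`.

`lsys_bes_mono`: the centred expectation of a product of Bessel weights of integer statistics increases with precision.
Route (plan of helper229): FREE BONDS.  `bmSys S bF`: bonds `S.E ⊕ F`, lattice = preimage of `S.L` (the new coordinates are free); `bm_w`: same partition sum (`∑_j p_b(j) = 1`);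
the subsystem on the GRAPH `{j = δ z}` has the partition sum `S.Zf 0 (∏ bes (bF e) (δ e z))` (`bm_graph_w`); `lsys_event_mono` along `bmRef`.
-/

set_option autoImplicit false
set_option linter.unusedSectionVars false

namespace Claimed.Agent.R285.Rsd

noncomputable section

open Classical

variable (S : LSys) {F : Type} [Fintype F] (bF : F → ℝ)

/-- forget the free bonds -/
def bmPi (F : Type) : ((S.E ⊕ F → ℤ) × (S.O → ℝ)) →+ S.Amb where
  toFun y := (fun e => y.1 (Sum.inl e), y.2)
  map_zero' := rfl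
  map_add' _ _ := rfl

/-- the system with additional free bonds -/
abbrev bmSys : LSys where
  E := S.E ⊕ F
  O := S.O
  b := Sum.elim S.b bF
  L := S.L.comap (bmPi S F)

/-- `bmPi` on the ambient group -/
def bmP : (bmSys S bF).Amb →+ S.Amb := bmPi S F

/-- the free coordinates -/
def bmJ : (bmSys S bF).Amb →+ (F → ℤ) where
  toFun y e := y.1 (Sum.inr e)
  map_zero' := rfl
  map_add' _ _ := rfl

/-- `(z, j) ↦ (z.1, j, z.2)` -/
def bmMk : S.Amb × (F → ℤ) →+ (bmSys S bF).Amb where
  toFun p := (Sum.elim p.1.1 p.2, p.1.2)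
  map_zero' := by
    refine Prod.ext (funext fun e => ?_) rfl
    cases e <;> rfl
  map_add' p p' := by
    refine Prod.ext (funext fun e => ?_) rfl
    cases e <;> rfl

theorem bmP_mk (p : S.Amb × (F → ℤ)) : bmP S bF (bmMk S bF p) = p.1 := rfl

theorem bmJ_mk (p : S.Amb × (F → ℤ)) : bmJ S bF (bmMk S bF p) = p.2 := rfl

theorem bm_decomp (y : (bmSys S bF).Amb) : bmMk S bF (bmP S bF y, bmJ S bF y) = y := by
  refine Prod.ext (funext fun e => ?_) rfl
  cases e <;> rfl

theorem bm_mem_L (y : (bmSys S bF).Amb) : y ∈ (bmSys S bF).L ↔ bmP S bF y ∈ S.L := Iff.rfl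

/-- the fibration of the extended lattice -/
def bmEquiv : (bmSys S bF).L ≃ S.L × (F → ℤ) where
  toFun y := (⟨bmP S bF y, y.2⟩, bmJ S bF y)
  invFun p := ⟨bmMk S bF (p.1, p.2), p.1.2⟩
  left_inv y := Subtype.ext (bm_decomp S bF y)
  right_inv _ := rfl

theorem bm_W (p : S.Amb × (F → ℤ)) : (bmSys S bF).W (bmMk S bF p) = S.W p.1 * ∏ e, bes (bF e) (p.2 e) := by
  have hprod : (∏ e : S.E ⊕ F, bes ((bmSys S bF).b e) ((bmMk S bF p).1 e))
      = (∏ e, bes (S.b e) (p.1.1 e)) * ∏ e, bes (bF e) (p.2 e) := Fintype.prod_sum_type _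
  show (∏ e : S.E ⊕ F, bes ((bmSys S bF).b e) ((bmMk S bF p).1 e)) * Real.exp (-(∑ o, p.1.2 o ^ 2) / 2) = _
  rw [hprod]
  unfold LSys.W
  ring

theorem bm_bes_sum (b : ℝ) : ∑' k : ℤ, bes b k = 1 := by
  have h := (bes_hasSum_exp b 0).tsum_eq
  simpa using h

theorem bm_free_sum (hb : ∀ e, 0 < bF e) : ∑' j : F → ℤ, ∏ e, bes (bF e) (j e) = 1 := by
  rw [cs_real_tsum_pi (fun e k => bes (bF e) k) fun e k => bes_nonneg _ (hb e).le _]
  simp [bm_bes_sum]

/-! ### properness -/

theorem bmSys_ok (hS : S.Ok) (hb : ∀ e, 0 < bF e) : (bmSys S bF).Ok := by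
  obtain ⟨hbS, n, v, hv, hL⟩ := hS
  have hbT : ∀ e, 0 < (bmSys S bF).b e := by
    intro e
    cases e with
    | inl e => exact hbS e
    | inr e => exact hb e
  set w : Fin n ⊕ F → (bmSys S bF).Amb :=
    Sum.elim (fun i => bmMk S bF (v i, 0)) (fun e => bmMk S bF (0, Pi.single e 1)) with hw
  refine kit_ok_of_le (bmSys S bF) hbT w ?_ ?_
  · rw [Fintype.linearIndependent_iff]
    intro g hg
    rw [Fintype.sum_sum_type] at hg
    simp only [hw, Sum.elim_inl, Sum.elim_inr] at hg
    have h2 : ∀ e : F, g (Sum.inr e) = 0 := by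
      intro e
      have h := congrFun (congrArg Prod.fst hg) (Sum.inr e)
      simp only [Prod.fst_add, Pi.add_apply, Prod.fst_sum, Finset.sum_apply, Prod.smul_fst,
        Pi.smul_apply, smul_eq_mul, Prod.fst_zero, Pi.zero_apply] at h
      have a1 : ∀ i, ((bmSys S bF).real (bmMk S bF (v i, 0))).1 (Sum.inr e) = 0 := fun i => by
        show (((0 : ℤ)) : ℝ) = 0
        simp
      have a2 : ∀ e', ((bmSys S bF).real (bmMk S bF (0, Pi.single e' 1))).1 (Sum.inr e)
          = if e' = e then 1 else 0 := fun e' => by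
        show (((Pi.single e' 1 : F → ℤ) e : ℤ) : ℝ) = _
        rw [Pi.single_apply]
        by_cases hh : e = e'
        · simp [hh]
        · simp [hh, Ne.symm hh]
      simp only [a1, a2, mul_zero, Finset.sum_const_zero, zero_add, mul_ite, mul_one,
        Finset.sum_ite_eq', Finset.mem_univ, if_true] at h
      exact h
    have h1 : ∑ i, g (Sum.inl i) • S.real (v i) = 0 := by
      simp only [h2, zero_smul, Finset.sum_const_zero, add_zero] at hg
      refine Prod.ext (funext fun e => ?_) (funext fun o => ?_)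
      · have h := congrFun (congrArg Prod.fst hg) (Sum.inl e)
        simp only [Prod.fst_sum, Finset.sum_apply, Prod.smul_fst, Pi.smul_apply, smul_eq_mul,
          Prod.fst_zero, Pi.zero_apply] at h ⊢
        exact h
      · have h := congrFun (congrArg Prod.snd hg) o
        simp only [Prod.snd_sum, Finset.sum_apply, Prod.smul_snd, Pi.smul_apply, smul_eq_mul,
          Prod.snd_zero, Pi.zero_apply] at h ⊢
        exact h
    have h3 := Fintype.linearIndependent_iff.mp hv (fun i => g (Sum.inl i)) h1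
    intro i
    cases i with
    | inl i => exact h3 i
    | inr e => exact h2 e
  · intro y hy
    have hsplit : y = bmMk S bF (bmP S bF y, 0) + bmMk S bF (0, bmJ S bF y) := by
      rw [← map_add]
      simpa using (bm_decomp S bF y).symm
    rw [hsplit]
    refine add_mem ?_ ?_
    · have hy' : bmP S bF y ∈ AddSubgroup.closure (Set.range v) := hL ▸ hy
      have hle : AddSubgroup.closure (Set.range v)
          ≤ (AddSubgroup.closure (Set.range w)).comap ((bmMk S bF).comp (AddMonoidHom.inl S.Amb (F → ℤ))) := by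
        rw [AddSubgroup.closure_le]
        rintro _ ⟨i, rfl⟩
        exact AddSubgroup.subset_closure ⟨Sum.inl i, rfl⟩
      exact hle hy'
    · have e1 : bmJ S bF y = ∑ e, bmJ S bF y e • (Pi.single e 1 : F → ℤ) := by
        funext e
        simp [Finset.sum_apply, Pi.single_apply]
      have e2 : bmMk S bF (0, bmJ S bF y) = ((bmMk S bF).comp (AddMonoidHom.inr S.Amb (F → ℤ))) (bmJ S bF y) := rfl
      rw [e2, e1, map_sum]
      refine sum_mem fun e _ => ?_
      rw [map_zsmul]
      have hmem : ((bmMk S bF).comp (AddMonoidHom.inr S.Amb (F → ℤ))) (Pi.single e 1) ∈ AddSubgroup.closure (Set.range w) :=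
        AddSubgroup.subset_closure ⟨Sum.inr e, rfl⟩
      exact zsmul_mem hmem _

/-! ### the partition sums -/

/-- free bonds do not change the partition sum -/
theorem bm_w (hS : S.Ok) (hb : ∀ e, 0 < bF e) : (bmSys S bF).w 0 = S.w 0 := by
  have hsum := cs_summable_W (bmSys_ok S bF hS hb) 0
  unfold LSys.w LSys.Zf
  simp only [add_zero, one_mul] at hsum ⊢
  rw [← (bmEquiv S bF).symm.tsum_eq]
  have hsum' : Summable fun p : S.L × (F → ℤ) => (bmSys S bF).W (((bmEquiv S bF).symm p : (bmSys S bF).L) : (bmSys S bF).Amb) :=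
    (bmEquiv S bF).symm.summable_iff.mpr hsum
  rw [hsum'.tsum_prod]
  refine tsum_congr fun z => ?_
  have e1 : ∀ j : F → ℤ, (bmSys S bF).W (((bmEquiv S bF).symm (z, j) : (bmSys S bF).L) : (bmSys S bF).Amb)
      = S.W (z : S.Amb) * ∏ e, bes (bF e) (j e) := fun j => bm_W S bF ((z : S.Amb), j)
  simp_rw [e1]
  rw [tsum_mul_left, bm_free_sum bF hb, mul_one]

variable (δ : F → S.L →+ ℤ)

/-- the graph of the integer statistics -/
def bmGr : S.L →+ (bmSys S bF).Amb where
  toFun z := bmMk S bF ((z : S.Amb), fun e => δ e z)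
  map_zero' := by
    have : (fun e => δ e (0 : S.L)) = (0 : F → ℤ) := funext fun e => map_zero (δ e)
    show bmMk S bF ((0 : S.Amb), fun e => δ e (0 : S.L)) = 0
    rw [this]
    exact map_zero (bmMk S bF)
  map_add' z z' := by
    have : (fun e => δ e (z + z')) = (fun e => δ e z) + fun e => δ e z' := funext fun e => map_add (δ e) z z'
    show bmMk S bF (((z : S.Amb) + (z' : S.Amb)), fun e => δ e (z + z')) = _
    rw [this]
    exact map_add (bmMk S bF) ((z : S.Amb), fun e => δ e z) ((z' : S.Amb), fun e => δ e z')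

/-- the partition sum of the subsystem on the graph -/
theorem bm_graph_w (N : AddSubgroup (bmSys S bF).Amb)
    (hN : ∀ y, (y ∈ (bmSys S bF).L ∧ y ∈ N) ↔ ∃ z : S.L, bmGr S bF δ z = y) :
    ((bmSys S bF).sub N).w 0 = S.Zf 0 fun z => ∏ e, bes (bF e) (δ e z) := by
  let eqv : ((bmSys S bF).sub N).L ≃ S.L :=
    { toFun := fun y => ⟨bmP S bF y.1, y.2.1⟩
      invFun := fun z => ⟨bmGr S bF δ z, (hN _).2 ⟨z, rfl⟩⟩
      left_inv := by
        intro y
        obtain ⟨z, hz⟩ := (hN y.1).1 y.2
        apply Subtype.ext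
        show bmGr S bF δ ⟨bmP S bF y.1, y.2.1⟩ = y.1
        have : (⟨bmP S bF y.1, y.2.1⟩ : S.L) = z := by
          apply Subtype.ext
          show bmP S bF y.1 = z
          rw [← hz]
          rfl
        rw [this, hz]
      right_inv := fun z => rfl }
  unfold LSys.w LSys.Zf
  rw [← eqv.symm.tsum_eq]
  refine tsum_congr fun z => ?_
  show 1 * (bmSys S bF).W (bmGr S bF δ z + 0) = _
  rw [add_zero, add_zero, one_mul]
  exact (bm_W S bF ((z : S.Amb), fun e => δ e z)).trans (mul_comm _ _)

/-! ### the comparison -/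

variable {S} {S' : LSys} (r : LSys.Ref S S')

/-- free bonds on both sides -/
def bmRef : LSys.Ref (bmSys S bF) (bmSys S' bF) where
  iE := r.iE.sumMap (Function.Embedding.refl F)
  iO := r.iO
  hb := by
    intro e
    cases e with
    | inl e => exact r.hb e
    | inr e => rfl
  map_mem := fun z hz => r.map_mem (bmPi S' F z) hz

theorem bmP_res (y : (bmSys S' bF).Amb) : bmP S bF ((bmRef bF r).res y) = r.res (bmP S' bF y) := rfl

theorem bmJ_res (y : (bmSys S' bF).Amb) : bmJ S bF ((bmRef bF r).res y) = bmJ S' bF y := rfl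

/-- **the centred expectation of a product of Bessel weights of integer statistics increases with precision.** -/
theorem lsys_bes_mono {S S' : LSys} (r : LSys.Ref S S') (hS : S.Ok) (hS' : S'.Ok) {F : Type} [Fintype F] (bF : F → ℝ)
    (hb : ∀ e, 0 < bF e) (d : F → S.L →+ ℤ) :
    S.E0 (fun z => ∏ e, bes (bF e) (d e z)) ≤ S'.E0 fun z => ∏ e, bes (bF e) (d e (r.psi z)) := by
  set N : AddSubgroup (bmSys S bF).Amb := (bmGr S bF d).range with hNdef
  have h1 : ((bmSys S bF).sub N).w 0 = S.Zf 0 fun z => ∏ e, bes (bF e) (d e z) := by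
    refine bm_graph_w S bF d N fun y => ⟨fun h => h.2, ?_⟩
    rintro ⟨z, rfl⟩
    exact ⟨z.2, ⟨z, rfl⟩⟩
  have h2 : ((bmSys S' bF).sub (N.comap (bmRef bF r).res)).w 0
      = S'.Zf 0 fun z => ∏ e, bes (bF e) (((d e).comp r.psi) z) := by
    refine bm_graph_w S' bF (fun e => (d e).comp r.psi) _ fun y => ⟨?_, ?_⟩
    · rintro ⟨hy, z, hz⟩
      refine ⟨⟨bmP S' bF y, hy⟩, ?_⟩
      have e1 : r.psi ⟨bmP S' bF y, hy⟩ = z := by
        apply Subtype.ext
        show r.res (bmP S' bF y) = z
        rw [← bmP_res, ← hz]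
        rfl
      have e2 : bmJ S' bF y = fun e => d e z := by
        rw [← bmJ_res bF r, ← hz]
        rfl
      show bmMk S' bF (bmP S' bF y, fun e => d e (r.psi ⟨bmP S' bF y, hy⟩)) = y
      rw [e1, ← e2]
      exact bm_decomp S' bF y
    · rintro ⟨z, rfl⟩
      refine ⟨z.2, ⟨r.psi z, ?_⟩⟩
      refine Prod.ext (funext fun e => ?_) rfl
      cases e <;> rfl
  have key := lsys_event_mono (bmRef bF r) (bmSys_ok S bF hS hb) (bmSys_ok S' bF hS' hb) N
  rw [h1, h2, bm_w S bF hS hb, bm_w S' bF hS' hb] at key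
  rw [rd_E0_eq, rd_E0_eq]
  exact key

end

end Claimed.Agent.R285.Rsd
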