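import Claimed.Agent.R285.Rsd.Master

/-!
# ROW 285, package BP-RSD-D (architect helper23), file 1: KIT FOR THE CALCULUS PART.   Paper-free.

NO DERIVATIVES ANYWHERE.  Everything is built on `lsys_summable` (all exponential moments are finite) and `lsys_master`.

* Section A: real analysis, Mathlib only (`rd_exp_taylor2`, `rd_tsum_taylor2`, `rd_le_of_cubic`, `rd_tendsto_pow4`, `rd_cosh_lower`, `rd_doubling`, `rd_chord`, `rd_sqrt_of_rat`, `rd_phase_abs`).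
* Section B: `LSys.Dom F` := `|F| ≤ C ∑ exp (Y z)` over a finite list of tests.  `Dom` is closed under `+, *, -, smul, pow`, contains constants, tests, `exp ∘ Y`, bounded functions;
  `Dom F` ⟹ `F · W(· + α)` summable; `Zf α` is linear and monotone on `Dom`.
* Section C: inversion symmetry, moments: `E0 X = 0`, `V0 X = E0 X²`, `Cv 0 0 X Y = E0 (X Y)`, `V0 (t • X) = t² V0 X`, `E0 (exp ∘ X) = wT 0 X / w 0`, `phi 0 = 1`.
* Section D: characters: `wC α Y 0 = wT α Y`, `wC 0 0 X = w 0 * phi X`, `0 ≤ phi X`, `‖wC α Y X‖ ≤ wT α Y * phi X` (master with `(β,Y',X') = 0`), real form `rd_cos_bound`.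
* Section E: second order Taylor expansion `rd_taylor2` of `s ↦ Zf α (P · exp (s X))`.

Tests form the real vector space `S.L →+ ℝ` (`(s • X) z = s * X z` by `AddMonoidHom.smul_apply, smul_eq_mul`).
LEAVES: every `sorry` below; the leaf names `L-RSD-D-..` are given in the docstrings.  Several leaves share this file: edit only your own theorems (helpers directly above them), splice on a fresh pull.
-/

set_option autoImplicit false

namespace Claimed.Agent.R285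

open MeasureTheory Filter Topology
open Rsd (lsys_summable lsys_pos lsys_master lsys_phi_four)

noncomputable section

/-! ## A. Real analysis (Mathlib only) -/

/-- L-RSD-D-A1.  `Complex.norm_exp_sub_sum_le_norm_mul_exp (u : ℂ) 3`, `Finset.sum_range_succ`, casts (`Complex.ofReal_exp`, `Complex.norm_real`). -/
theorem rd_exp_taylor2 (u : ℝ) : |Real.exp u - 1 - u - u ^ 2 / 2| ≤ |u| ^ 3 * Real.exp |u| := by
  have h := Complex.norm_exp_sub_sum_le_norm_mul_exp (u : ℂ) 3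
  have e : Complex.exp (u : ℂ) - ∑ m ∈ Finset.range 3, (u : ℂ) ^ m / (m.factorial : ℂ)
      = ((Real.exp u - 1 - u - u ^ 2 / 2 : ℝ) : ℂ) := by
    simp only [Finset.sum_range_succ, Finset.sum_range_zero, Nat.factorial]
    push_cast
    ring
  rw [e, Complex.norm_real, Complex.norm_real, Real.norm_eq_abs, Real.norm_eq_abs] at h
  exact h

/-- L-RSD-D-A1.  `y³/6 ≤ exp y` for `y ≥ 0` (`Real.pow_div_factorial_le_exp` or `Real.sum_le_exp_of_nonneg`). -/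
theorem rd_cube_le_exp (u : ℝ) : |u| ^ 3 ≤ 6 * Real.exp |u| := by
  have h := Real.pow_div_factorial_le_exp |u| (abs_nonneg u) 3
  have : ((3 : ℕ).factorial : ℝ) = 6 := by norm_num [Nat.factorial]
  rw [this, div_le_iff₀ (by norm_num)] at h
  linarith

/-- L-RSD-D-A1.  **Abstract second order expansion.**  Termwise `rd_exp_taylor2` at `u = s x_i`: `|u|³ e^{|u|} ≤ |s|³ |x_i|³ e^{|x_i|} ≤ 6 |s|³ e^{2|x_i|}`.  All four series are summable by comparison with `h`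
(`1, |x|, x²/2 ≤ e^{|x|}`, `e^{s x} ≤ e^{|x|}`); then `tsum_add, tsum_mul_left`, `norm_tsum_le_tsum_norm` / `tsum_le_tsum`. -/
theorem rd_tsum_taylor2 {ι : Type} (c x : ι → ℝ) (h : Summable fun i => |c i| * Real.exp (2 * |x i|)) (s : ℝ)
    (hs : |s| ≤ 1) :
    |∑' i, c i * Real.exp (s * x i) - (∑' i, c i + s * ∑' i, c i * x i + s ^ 2 / 2 * ∑' i, c i * x i ^ 2)|
      ≤ (6 * ∑' i, |c i| * Real.exp (2 * |x i|)) * |s| ^ 3 := by
  have hexp : ∀ i, Real.exp |x i| ≤ Real.exp (2 * |x i|) := fun i =>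
    Real.exp_le_exp.2 (by linarith [abs_nonneg (x i)])
  have hone : ∀ i, 1 ≤ Real.exp |x i| := fun i => Real.one_le_exp (abs_nonneg _)
  have s0 : Summable fun i => c i * Real.exp (s * x i) := by
    refine Summable.of_norm_bounded h fun i => ?_
    rw [Real.norm_eq_abs, abs_mul, abs_of_pos (Real.exp_pos _)]
    refine mul_le_mul_of_nonneg_left ?_ (abs_nonneg _)
    refine le_trans (Real.exp_le_exp.2 ?_) (hexp i)
    calc s * x i ≤ |s * x i| := le_abs_self _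
      _ = |s| * |x i| := abs_mul _ _
      _ ≤ 1 * |x i| := mul_le_mul_of_nonneg_right hs (abs_nonneg _)
      _ = |x i| := one_mul _
  have s1 : Summable fun i => c i := by
    refine Summable.of_norm_bounded h fun i => ?_
    rw [Real.norm_eq_abs]
    calc |c i| = |c i| * 1 := (mul_one _).symm
      _ ≤ |c i| * Real.exp (2 * |x i|) :=
        mul_le_mul_of_nonneg_left ((hone i).trans (hexp i)) (abs_nonneg _)
  have s2 : Summable fun i => c i * x i := by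
    refine Summable.of_norm_bounded h fun i => ?_
    rw [Real.norm_eq_abs, abs_mul]
    refine mul_le_mul_of_nonneg_left ?_ (abs_nonneg _)
    refine le_trans ?_ (hexp i)
    linarith [Real.add_one_le_exp |x i|]
  have s3 : Summable fun i => c i * x i ^ 2 := by
    refine Summable.of_norm_bounded (h.mul_left 2) fun i => ?_
    rw [Real.norm_eq_abs, abs_mul]
    have h2 := Real.pow_div_factorial_le_exp |x i| (abs_nonneg (x i)) 2
    have : ((2 : ℕ).factorial : ℝ) = 2 := by norm_num [Nat.factorial]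
    rw [this, div_le_iff₀ (by norm_num), sq_abs] at h2
    have h3 : |x i ^ 2| ≤ 2 * Real.exp (2 * |x i|) := by
      rw [abs_of_nonneg (sq_nonneg _)]
      linarith [hexp i]
    calc |c i| * |x i ^ 2| ≤ |c i| * (2 * Real.exp (2 * |x i|)) :=
          mul_le_mul_of_nonneg_left h3 (abs_nonneg _)
      _ = 2 * (|c i| * Real.exp (2 * |x i|)) := by ring
  set T : ι → ℝ := fun i => c i * Real.exp (s * x i)
      - (c i + s * (c i * x i) + s ^ 2 / 2 * (c i * x i ^ 2)) with hT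
  have sT : Summable T := s0.sub ((s1.add (s2.mul_left s)).add (s3.mul_left (s ^ 2 / 2)))
  have eT : ∑' i, c i * Real.exp (s * x i)
      - (∑' i, c i + s * ∑' i, c i * x i + s ^ 2 / 2 * ∑' i, c i * x i ^ 2) = ∑' i, T i := by
    rw [hT, s0.tsum_sub ((s1.add (s2.mul_left s)).add (s3.mul_left (s ^ 2 / 2))),
      (s1.add (s2.mul_left s)).tsum_add (s3.mul_left (s ^ 2 / 2)),
      s1.tsum_add (s2.mul_left s), tsum_mul_left, tsum_mul_left]
  have bT : ∀ i, ‖T i‖ ≤ (6 * |s| ^ 3) * (|c i| * Real.exp (2 * |x i|)) := by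
    intro i
    have e1 : T i = c i * (Real.exp (s * x i) - 1 - s * x i - (s * x i) ^ 2 / 2) := by
      rw [hT]; ring
    rw [Real.norm_eq_abs, e1, abs_mul]
    have h1 := rd_exp_taylor2 (s * x i)
    have hsx : |s * x i| ≤ |x i| := by
      rw [abs_mul]
      calc |s| * |x i| ≤ 1 * |x i| := mul_le_mul_of_nonneg_right hs (abs_nonneg _)
        _ = |x i| := one_mul _
    have h2 : |s * x i| ^ 3 * Real.exp |s * x i| ≤ (|s| ^ 3 * |x i| ^ 3) * Real.exp |x i| := by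
      rw [abs_mul, mul_pow, ← abs_mul]
      exact mul_le_mul_of_nonneg_left (Real.exp_le_exp.2 hsx) (by positivity)
    have h3 : (|s| ^ 3 * |x i| ^ 3) * Real.exp |x i|
        ≤ (|s| ^ 3 * (6 * Real.exp |x i|)) * Real.exp |x i| :=
      mul_le_mul_of_nonneg_right
        (mul_le_mul_of_nonneg_left (rd_cube_le_exp (x i)) (by positivity)) (Real.exp_pos _).le
    have h4 : Real.exp |x i| * Real.exp |x i| = Real.exp (2 * |x i|) := by
      rw [← Real.exp_add]; congr 1; ring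
    calc |c i| * |Real.exp (s * x i) - 1 - s * x i - (s * x i) ^ 2 / 2|
        ≤ |c i| * ((|s| ^ 3 * (6 * Real.exp |x i|)) * Real.exp |x i|) :=
          mul_le_mul_of_nonneg_left (h1.trans (h2.trans h3)) (abs_nonneg _)
      _ = (6 * |s| ^ 3) * (|c i| * (Real.exp |x i| * Real.exp |x i|)) := by ring
      _ = (6 * |s| ^ 3) * (|c i| * Real.exp (2 * |x i|)) := by rw [h4]
  rw [eT]
  calc |∑' i, T i| = ‖∑' i, T i‖ := (Real.norm_eq_abs _).symm
    _ ≤ ∑' i, (6 * |s| ^ 3) * (|c i| * Real.exp (2 * |x i|)) :=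
        tsum_of_norm_bounded (h.mul_left _).hasSum bT
    _ = (6 * ∑' i, |c i| * Real.exp (2 * |x i|)) * |s| ^ 3 := by rw [tsum_mul_left]; ring

/-- comparison of the quadratic coefficients. -/
theorem rd_le_of_cubic {a b K : ℝ} (h : ∀ s : ℝ, 0 < s → s ≤ 1 → a * s ^ 2 ≤ b * s ^ 2 + K * s ^ 3) : a ≤ b := by
  by_contra hab
  push_neg at hab
  have hK : 0 < |K| + 1 := by positivity
  set s : ℝ := min 1 ((a - b) / (2 * (|K| + 1))) with hs
  have hs0 : 0 < s := lt_min one_pos (div_pos (sub_pos.2 hab) (by positivity))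
  have hs1 : s ≤ 1 := min_le_left _ _
  have hs2 : s * (2 * (|K| + 1)) ≤ a - b := by
    have : s ≤ (a - b) / (2 * (|K| + 1)) := min_le_right _ _
    rwa [le_div_iff₀ (by positivity)] at this
  have h1 := h s hs0 hs1
  have h2 : (a - b) * s ^ 2 ≤ K * s * s ^ 2 := by nlinarith
  have h3 : a - b ≤ K * s := le_of_mul_le_mul_right h2 (by positivity)
  have h4 : K * s ≤ |K| * s := mul_le_mul_of_nonneg_right (le_abs_self K) hs0.le
  nlinarith

/-- L-RSD-D-A2.  `Real.tendsto_one_add_div_pow_exp t` composed with `fun n => 4 ^ n` (`Nat.tendsto_pow_atTop_atTop_of_one_lt`), `Nat.cast_pow`. -/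
theorem rd_tendsto_pow4 (t : ℝ) : Tendsto (fun n : ℕ => (1 + t / 4 ^ n) ^ (4 ^ n)) atTop (𝓝 (Real.exp t)) := by
  have h := (Real.tendsto_one_add_div_pow_exp t).comp
    (tendsto_pow_atTop_atTop_of_one_lt (r := (4 : ℕ)) (by norm_num))
  refine h.congr fun n => ?_
  simp only [Function.comp_apply, Nat.cast_pow, Nat.cast_ofNat]

/-- L-RSD-D-A2.  `cosh u - 1 = 2 sinh² (u/2)` and `|sinh x| ≥ |x|` (`Real.self_le_sinh_iff`, oddness); or compare the power series. -/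
theorem rd_cosh_lower (u : ℝ) : 1 + u ^ 2 / 2 ≤ Real.cosh u := by
  have h1 : Real.cosh u = 1 + 2 * Real.sinh (u / 2) ^ 2 := by
    have : u = 2 * (u / 2) := by ring
    conv_lhs => rw [this]
    rw [Real.cosh_two_mul, Real.cosh_sq]; ring
  have h2 : (u / 2) ^ 2 ≤ Real.sinh (u / 2) ^ 2 := by
    rw [← sq_abs (u / 2), ← sq_abs (Real.sinh (u / 2))]
    apply pow_le_pow_left₀ (abs_nonneg _)
    rcases le_total 0 (u / 2) with h | h
    · rw [abs_of_nonneg h]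
      exact (Real.self_le_sinh_iff.2 h).trans (le_abs_self _)
    · rw [abs_of_nonpos h]
      have h' : 0 ≤ -(u / 2) := by linarith
      have := Real.self_le_sinh_iff.2 h'
      rw [Real.sinh_neg] at this
      exact this.trans (neg_le_abs _)
  rw [h1]
  nlinarith

/-- L-RSD-D-A2.  **Doubling.**  By induction `m ((2⁻¹)^n • X) ^ (4^n) ≤ m X` (`pow_le_pow_left₀` with base `m (..)^4 ≥ 0`, `pow_mul`, `pow_succ`; `(2:ℝ) • (2⁻¹)^(n+1) • X = (2⁻¹)^n • X`).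
By `hc` at `s = (2⁻¹)^n`: `1 + c / 4^n ≤ m (..)`; for large `n` the left side is `≥ 0`, so `(1 + c/4^n)^(4^n) ≤ m X` eventually; `rd_tendsto_pow4`, `le_of_tendsto`. -/
theorem rd_doubling {V : Type} [AddCommGroup V] [Module ℝ V] (m : V → ℝ) (h4 : ∀ Y, m Y ^ 4 ≤ m ((2 : ℝ) • Y)) (X : V)
    (c : ℝ) (hc : ∀ s : ℝ, 1 + s ^ 2 * c ≤ m (s • X)) : Real.exp c ≤ m X := by
  have hind : ∀ n : ℕ, m (((2 : ℝ)⁻¹ ^ n) • X) ^ (4 ^ n) ≤ m X := by
    intro n
    induction n with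
    | zero => simp
    | succ n ih =>
      have e1 : (2 : ℝ) • (((2 : ℝ)⁻¹ ^ (n + 1)) • X) = ((2 : ℝ)⁻¹ ^ n) • X := by
        rw [smul_smul, pow_succ]
        congr 1
        field_simp
      have h5 := h4 (((2 : ℝ)⁻¹ ^ (n + 1)) • X)
      rw [e1] at h5
      have h6 : (0 : ℝ) ≤ m (((2 : ℝ)⁻¹ ^ (n + 1)) • X) ^ 4 := by
        have : m (((2 : ℝ)⁻¹ ^ (n + 1)) • X) ^ 4 = (m (((2 : ℝ)⁻¹ ^ (n + 1)) • X) ^ 2) ^ 2 := by ring
        rw [this]; positivity
      calc m (((2 : ℝ)⁻¹ ^ (n + 1)) • X) ^ (4 ^ (n + 1))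
          = (m (((2 : ℝ)⁻¹ ^ (n + 1)) • X) ^ 4) ^ (4 ^ n) := by
            rw [← pow_mul]
            congr 1
            rw [pow_succ, mul_comm]
        _ ≤ m (((2 : ℝ)⁻¹ ^ n) • X) ^ (4 ^ n) := pow_le_pow_left₀ h6 h5 _
        _ ≤ m X := ih
  have hlow : ∀ n : ℕ, 1 + c / 4 ^ n ≤ m (((2 : ℝ)⁻¹ ^ n) • X) := by
    intro n
    have := hc ((2 : ℝ)⁻¹ ^ n)
    have e : ((2 : ℝ)⁻¹ ^ n) ^ 2 * c = c / 4 ^ n := by
      rw [← pow_mul, mul_comm n 2, pow_mul]
      have : ((2 : ℝ)⁻¹ ^ 2) = 4⁻¹ := by norm_num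
      rw [this, inv_pow]
      field_simp
    rwa [e] at this
  have hlim : Tendsto (fun n : ℕ => 1 + c / (4 : ℝ) ^ n) atTop (𝓝 (1 + 0)) :=
    tendsto_const_nhds.add (tendsto_const_nhds.div_atTop
      (tendsto_pow_atTop_atTop_of_one_lt (by norm_num)))
  have hev : ∀ᶠ n : ℕ in atTop, (0 : ℝ) ≤ 1 + c / (4 : ℝ) ^ n := by
    have : ∀ᶠ n : ℕ in atTop, (0 : ℝ) < 1 + c / (4 : ℝ) ^ n :=
      hlim.eventually (lt_mem_nhds (by norm_num))
    exact this.mono fun n hn => hn.le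
  refine le_of_tendsto (rd_tendsto_pow4 c) (hev.mono fun n hn => ?_)
  exact (pow_le_pow_left₀ hn (hlow n) _).trans (hind n)

/-- L-RSD-D-A3.  **Chord inequality for discretely concave sequences.**  `d k = v (k+1) - v k` is nonincreasing; `v n - v 0 = ∑_{0 ≤ k < n} d k ≤ n d (-1)`, `v 0 - v (-a) = ∑_{-a ≤ k < 0} d k ≥ a d (-1)` (two inductions on `ℕ`). -/
theorem rd_chord (v : ℤ → ℝ) (h : ∀ k, v (k + 1) + v (k - 1) ≤ 2 * v k) (a n : ℕ) :
    (n : ℝ) * v (-(a : ℤ)) + a * v n ≤ ((a : ℝ) + n) * v 0 := by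
  set D : ℝ := v 0 - v (-1) with hD
  have hd1 : ∀ j : ℕ, v ((j : ℤ) + 1) - v j ≤ D := by
    intro j
    induction j with
    | zero =>
      have := h 0
      simp only [zero_add, zero_sub] at this
      simp only [Nat.cast_zero, zero_add]
      rw [hD]; linarith
    | succ j ih =>
      have := h ((j : ℤ) + 1)
      simp only [add_sub_cancel_right] at this
      push_cast
      linarith
  have hu : ∀ j : ℕ, v j - v 0 ≤ j * D := by
    intro j
    induction j with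
    | zero => simp
    | succ j ih =>
      have := hd1 j
      push_cast
      linarith
  have hd2 : ∀ j : ℕ, D ≤ v (-(j : ℤ)) - v (-(j : ℤ) - 1) := by
    intro j
    induction j with
    | zero => simp [hD]
    | succ j ih =>
      have := h (-(j : ℤ) - 1)
      simp only [sub_add_cancel] at this
      push_cast
      have e : -((j : ℤ) + 1) = -(j : ℤ) - 1 := by ring
      rw [e]
      linarith
  have hl : ∀ j : ℕ, j * D ≤ v 0 - v (-(j : ℤ)) := by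
    intro j
    induction j with
    | zero => simp
    | succ j ih =>
      have := hd2 j
      push_cast
      have e : -((j : ℤ) + 1) = -(j : ℤ) - 1 := by ring
      rw [e]
      linarith
  have h1 := hu n
  have h2 := hl a
  have hn : (0 : ℝ) ≤ n := Nat.cast_nonneg n
  have ha : (0 : ℝ) ≤ a := Nat.cast_nonneg a
  have h3 : (a : ℝ) * (v n - v 0) ≤ a * (n * D) := mul_le_mul_of_nonneg_left h1 ha
  have h4 : (n : ℝ) * (a * D) ≤ n * (v 0 - v (-(a : ℤ))) := mul_le_mul_of_nonneg_left h2 hn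
  nlinarith

/-- helper for `rd_sqrt_of_rat`: the inequality for all real ratios. -/
theorem rd_sqrt_of_rat_real {u0 u1 q : ℝ} (h0 : 0 ≤ u0) (hq : 0 ≤ q)
    (h : ∀ a n : ℕ, 0 < a → 0 < n → u1 ≤ q * (1 + (a : ℝ) / n) + u0 * (1 + (n : ℝ) / a))
    (r : ℝ) (hr : 0 < r) : u1 ≤ q * (1 + r) + u0 * (1 + 1 / r) := by
  apply le_of_forall_pos_le_add
  intro δ hδ
  set ε : ℝ := δ / (q + 1) with hε
  have hεpos : 0 < ε := div_pos hδ (by linarith)
  obtain ⟨ρ, hρ1, hρ2⟩ := exists_rat_btwn (show r < r + ε by linarith)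
  have hρpos : (0 : ℝ) < ρ := hr.trans hρ1
  have hρpos' : 0 < ρ := by exact_mod_cast hρpos
  have hnum : 0 < ρ.num := Rat.num_pos.2 hρpos'
  have hden : 0 < ρ.den := ρ.den_pos
  have hcast : ((ρ.num.toNat : ℕ) : ℝ) = (ρ.num : ℝ) := by
    have : ((ρ.num.toNat : ℕ) : ℤ) = ρ.num := Int.toNat_of_nonneg hnum.le
    exact_mod_cast this
  have hρeq : (ρ : ℝ) = (ρ.num : ℝ) / (ρ.den : ℝ) := by
    exact_mod_cast (Rat.cast_def (K := ℝ) ρ)
  have hmain := h ρ.num.toNat ρ.den (by omega) hden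
  rw [hcast] at hmain
  have e1 : (ρ.num : ℝ) / (ρ.den : ℝ) = ρ := hρeq.symm
  have e2 : (ρ.den : ℝ) / (ρ.num : ℝ) = 1 / ρ := by
    rw [hρeq, one_div_div]
  rw [e1, e2] at hmain
  have h1 : q * (1 + (ρ : ℝ)) ≤ q * (1 + r) + δ := by
    have : q * ε ≤ δ := by
      rw [hε, mul_div_assoc']
      rw [div_le_iff₀ (by linarith)]
      nlinarith
    nlinarith
  have h2 : u0 * (1 + 1 / (ρ : ℝ)) ≤ u0 * (1 + 1 / r) := by
    apply mul_le_mul_of_nonneg_left _ h0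
    have : 1 / (ρ : ℝ) ≤ 1 / r := one_div_le_one_div_of_le hr hρ1.le
    linarith
  linarith

/-- L-RSD-D-A4.  First `∀ r > 0 real, u1 ≤ q (1 + r) + u0 (1 + 1/r)` (`a_k = ⌊r k⌋₊ + 1`, `n_k = k`, `a_k / k → r` by `tendsto_nat_floor_mul_div_atTop`; `le_of_tendsto'`).
Then for `η > 0` take `r = √((u0+η)/(q+η))`: `u1 ≤ (q+η)(1+r) + (u0+η)(1+1/r) = (√(q+η) + √(u0+η))²`, so `√u1 ≤ √(q+η) + √(u0+η)`; let `η → 0` (continuity of `√`). -/
theorem rd_sqrt_of_rat {u0 u1 q : ℝ} (h0 : 0 ≤ u0) (hq : 0 ≤ q)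
    (h : ∀ a n : ℕ, 0 < a → 0 < n → u1 ≤ q * (1 + (a : ℝ) / n) + u0 * (1 + (n : ℝ) / a)) :
    Real.sqrt u1 ≤ Real.sqrt u0 + Real.sqrt q := by
  apply le_of_forall_pos_le_add
  intro δ hδ
  set P : ℝ := Real.sqrt q + δ / 2 with hP
  set U : ℝ := Real.sqrt u0 + δ / 2 with hU
  have hPpos : 0 < P := by have := Real.sqrt_nonneg q; positivity
  have hUpos : 0 < U := by have := Real.sqrt_nonneg u0; positivity
  have hqP : q ≤ P ^ 2 := by
    have := Real.sq_sqrt hq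
    have h2 := Real.sqrt_nonneg q
    rw [hP]; nlinarith
  have huU : u0 ≤ U ^ 2 := by
    have := Real.sq_sqrt h0
    have h2 := Real.sqrt_nonneg u0
    rw [hU]; nlinarith
  have hr : 0 < U / P := div_pos hUpos hPpos
  have h1 := rd_sqrt_of_rat_real h0 hq h (U / P) hr
  have h2 : q * (1 + U / P) ≤ P ^ 2 * (1 + U / P) :=
    mul_le_mul_of_nonneg_right hqP (by positivity)
  have h3 : u0 * (1 + 1 / (U / P)) ≤ U ^ 2 * (1 + 1 / (U / P)) :=
    mul_le_mul_of_nonneg_right huU (by positivity)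
  have h4 : P ^ 2 * (1 + U / P) + U ^ 2 * (1 + 1 / (U / P)) = (P + U) ^ 2 := by
    field_simp
    ring
  have h5 : u1 ≤ (P + U) ^ 2 := by linarith
  have h6 : Real.sqrt u1 ≤ P + U := (Real.sqrt_le_left (by positivity)).2 h5
  rw [hP, hU] at h6
  linarith

/-- L-RSD-D-A5.  For `a, n > 0` put `v k = ψ (A + (k / n : ℝ) • B) - q B * k² / n²` (`k : ℤ`).  `h4` at `(A + (k/n) • B, (1/n) • B)`, `hq`, `hh` give `v (k+1) + v (k-1) ≤ 2 v k`.
`rd_chord`: `n v (-a) + a v n ≤ (a+n) v 0`, with `v (-a) ≥ - q B a²/n²` (`h0`), `v n = ψ (A+B) - q B`, `v 0 = ψ A`; divide by `a`. -/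
theorem rd_phase_rat {V : Type} [AddCommGroup V] [Module ℝ V] (ψ q : V → ℝ) (h0 : ∀ A, 0 ≤ ψ A)
    (h4 : ∀ A B, ψ (A + B) + ψ (A - B) ≤ 2 * ψ A + 2 * ψ B) (hq : ∀ B, ψ B ≤ q B)
    (hh : ∀ (t : ℝ) B, q (t • B) = t ^ 2 * q B) (A B : V) (a n : ℕ) (ha : 0 < a) (hn : 0 < n) :
    ψ (A + B) ≤ q B * (1 + (a : ℝ) / n) + ψ A * (1 + (n : ℝ) / a) := by
  have hnR : (0 : ℝ) < n := Nat.cast_pos.2 hn
  have haR : (0 : ℝ) < a := Nat.cast_pos.2 ha
  set v : ℤ → ℝ := fun k => ψ (A + ((k : ℝ) / n) • B) - q B * (k : ℝ) ^ 2 / (n : ℝ) ^ 2 with hv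
  have hconc : ∀ k, v (k + 1) + v (k - 1) ≤ 2 * v k := by
    intro k
    have h5 := h4 (A + ((k : ℝ) / n) • B) (((1 : ℝ) / n) • B)
    have e1 : A + ((k : ℝ) / n) • B + ((1 : ℝ) / n) • B = A + (((k + 1 : ℤ) : ℝ) / n) • B := by
      rw [add_assoc, ← add_smul]
      congr 2
      push_cast
      ring
    have e2 : A + ((k : ℝ) / n) • B - ((1 : ℝ) / n) • B = A + (((k - 1 : ℤ) : ℝ) / n) • B := by
      rw [add_sub_assoc, ← sub_smul]
      congr 2
      push_cast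
      ring
    rw [e1, e2] at h5
    have h6 : ψ (((1 : ℝ) / n) • B) ≤ (1 / (n : ℝ)) ^ 2 * q B := (hq _).trans (le_of_eq (hh _ _))
    simp only [hv]
    have e3 : q B * (((k + 1 : ℤ) : ℝ)) ^ 2 / (n : ℝ) ^ 2 + q B * (((k - 1 : ℤ) : ℝ)) ^ 2 / (n : ℝ) ^ 2
        = 2 * (q B * (k : ℝ) ^ 2 / (n : ℝ) ^ 2) + 2 * ((1 / (n : ℝ)) ^ 2 * q B) := by
      push_cast
      field_simp
      ring
    linarith
  have hc := rd_chord v hconc a n
  have v0 : v 0 = ψ A := by simp [hv]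
  have vn : v n = ψ (A + B) - q B := by
    simp only [hv]
    have : (((n : ℤ) : ℝ) / (n : ℝ)) = 1 := by
      push_cast
      exact div_self hnR.ne'
    rw [this, one_smul]
    push_cast
    field_simp
  have va : -(q B * (a : ℝ) ^ 2 / (n : ℝ) ^ 2) ≤ v (-(a : ℤ)) := by
    simp only [hv]
    have := h0 (A + (((-(a : ℤ) : ℤ) : ℝ) / n) • B)
    push_cast at this ⊢
    have e : (-(a : ℝ)) ^ 2 = (a : ℝ) ^ 2 := by ring
    rw [e]
    linarith
  rw [v0, vn] at hc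
  have h7 : (n : ℝ) * (-(q B * (a : ℝ) ^ 2 / (n : ℝ) ^ 2)) ≤ n * v (-(a : ℤ)) :=
    mul_le_mul_of_nonneg_left va hnR.le
  have h8 : (a : ℝ) * ψ (A + B) ≤ a * (q B * (1 + (a : ℝ) / n) + ψ A * (1 + (n : ℝ) / a)) := by
    have e : (a : ℝ) * (q B * (1 + (a : ℝ) / n) + ψ A * (1 + (n : ℝ) / a))
        = ((a : ℝ) + n) * ψ A + a * q B - (n : ℝ) * (-(q B * (a : ℝ) ^ 2 / (n : ℝ) ^ 2)) := by
      field_simp
      ring
    rw [e]
    linarith
  exact le_of_mul_le_mul_left h8 haR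

/-- **abstract phase transfer**: a nonnegative function with `ψ(A+B) + ψ(A-B) ≤ 2ψ(A) + 2ψ(B)` below a quadratic form `q`. -/
theorem rd_phase_abs {V : Type} [AddCommGroup V] [Module ℝ V] (ψ q : V → ℝ) (h0 : ∀ A, 0 ≤ ψ A)
    (h4 : ∀ A B, ψ (A + B) + ψ (A - B) ≤ 2 * ψ A + 2 * ψ B) (hq : ∀ B, ψ B ≤ q B)
    (hh : ∀ (t : ℝ) B, q (t • B) = t ^ 2 * q B) (A B : V) :
    Real.sqrt (ψ (A + B)) ≤ Real.sqrt (ψ A) + Real.sqrt (q B) :=
  rd_sqrt_of_rat (h0 A) ((h0 B).trans (hq B)) fun a n ha hn => rd_phase_rat ψ q h0 h4 hq hh A B a n ha hn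

/-- helper: product of two bounded quantities. -/
theorem rd_mul_le_of_abs {x y X Y : ℝ} (hx : |x| ≤ X) (hy : |y| ≤ Y) : |x * y| ≤ X * Y := by
  rw [abs_mul]
  exact mul_le_mul hx hy (abs_nonneg _) ((abs_nonneg _).trans hx)

/-- L-RSD-D-A6.  Write `p s = 1 + s m1 + s²/2 m2 + r s`, `|r (±s)| ≤ K s³`; the product is `1 + s² (m2 - m1²) + [s⁴ m2²/4 + r(s)(1 - s m1 + s² m2/2) + r(-s)(1 + s m1 + s² m2/2) + r(s) r(-s)]`;
for `0 < s ≤ 1` the bracket is `≤ (m2²/4 + 2 K (1 + |m1| + |m2|) + K²) s³`. -/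
theorem rd_prod_expand {m1 m2 K : ℝ} {p : ℝ → ℝ}
    (hp : ∀ s : ℝ, |s| ≤ 1 → |p s - (1 + s * m1 + s ^ 2 / 2 * m2)| ≤ K * |s| ^ 3) :
    ∃ K' : ℝ, ∀ s : ℝ, 0 < s → s ≤ 1 → p s * p (-s) ≤ 1 + (m2 - m1 ^ 2) * s ^ 2 + K' * s ^ 3 := by
  have hK : 0 ≤ K := by
    have := hp 1 (by simp)
    simp only [abs_one, one_pow, mul_one] at this
    exact (abs_nonneg _).trans this
  set c : ℝ := 1 + |m1| + |m2| with hc
  have hc0 : 0 ≤ c := by positivity
  refine ⟨m2 ^ 2 / 4 + 2 * (K * c) + K ^ 2, fun s hs0 hs1 => ?_⟩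
  have habs : |s| = s := abs_of_pos hs0
  have h1 := hp s (by rw [habs]; exact hs1)
  have h2 := hp (-s) (by rw [abs_neg, habs]; exact hs1)
  rw [habs] at h1
  rw [abs_neg, habs] at h2
  set L1 : ℝ := 1 + s * m1 + s ^ 2 / 2 * m2 with hL1
  set L2 : ℝ := 1 + -s * m1 + (-s) ^ 2 / 2 * m2 with hL2
  set r1 : ℝ := p s - L1 with hr1
  set r2 : ℝ := p (-s) - L2 with hr2
  have hs2 : s ^ 2 ≤ 1 := pow_le_one₀ hs0.le hs1
  have hs3 : 0 ≤ s ^ 3 := by positivity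
  have hs3' : s ^ 3 ≤ 1 := pow_le_one₀ hs0.le hs1
  have bL1 : |L1| ≤ c := by
    have t1 : |s * m1| ≤ |m1| := by
      rw [abs_mul, habs]; exact mul_le_of_le_one_left (abs_nonneg _) hs1
    have t2 : |s ^ 2 / 2 * m2| ≤ |m2| := by
      rw [abs_mul, abs_of_nonneg (by positivity : 0 ≤ s ^ 2 / 2)]
      exact mul_le_of_le_one_left (abs_nonneg _) (by linarith)
    calc |L1| ≤ |1 + s * m1| + |s ^ 2 / 2 * m2| := abs_add_le _ _
      _ ≤ |(1 : ℝ)| + |s * m1| + |s ^ 2 / 2 * m2| := by gcongr; exact abs_add_le _ _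
      _ ≤ c := by rw [abs_one, hc]; linarith
  have bL2 : |L2| ≤ c := by
    have t1 : |-s * m1| ≤ |m1| := by
      rw [abs_mul, abs_neg, habs]; exact mul_le_of_le_one_left (abs_nonneg _) hs1
    have t2 : |(-s) ^ 2 / 2 * m2| ≤ |m2| := by
      rw [neg_sq, abs_mul, abs_of_nonneg (by positivity : 0 ≤ s ^ 2 / 2)]
      exact mul_le_of_le_one_left (abs_nonneg _) (by linarith)
    calc |L2| ≤ |1 + -s * m1| + |(-s) ^ 2 / 2 * m2| := abs_add_le _ _
      _ ≤ |(1 : ℝ)| + |-s * m1| + |(-s) ^ 2 / 2 * m2| := by gcongr; exact abs_add_le _ _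
      _ ≤ c := by rw [abs_one, hc]; linarith
  have e : p s * p (-s) = L1 * L2 + r1 * L2 + r2 * L1 + r1 * r2 := by
    rw [hr1, hr2]; ring
  have eL : L1 * L2 = 1 + (m2 - m1 ^ 2) * s ^ 2 + m2 ^ 2 / 4 * s ^ 4 := by
    rw [hL1, hL2]; ring
  have b1 : r1 * L2 ≤ K * s ^ 3 * c := (le_abs_self _).trans (rd_mul_le_of_abs h1 bL2)
  have b2 : r2 * L1 ≤ K * s ^ 3 * c := (le_abs_self _).trans (rd_mul_le_of_abs h2 bL1)
  have b3 : r1 * r2 ≤ K ^ 2 * s ^ 3 := by
    have := (le_abs_self _).trans (rd_mul_le_of_abs h1 h2)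
    have h6 : K * s ^ 3 * (K * s ^ 3) ≤ K ^ 2 * s ^ 3 := by
      have : K * s ^ 3 * (K * s ^ 3) = (K ^ 2 * s ^ 3) * s ^ 3 := by ring
      rw [this]
      exact mul_le_of_le_one_right (by positivity) hs3'
    linarith
  have b4 : m2 ^ 2 / 4 * s ^ 4 ≤ m2 ^ 2 / 4 * s ^ 3 := by
    apply mul_le_mul_of_nonneg_left _ (by positivity)
    have : s ^ 4 = s ^ 3 * s := by ring
    rw [this]
    exact mul_le_of_le_one_right hs3 hs1
  rw [e, eL]
  nlinarith

/-- L-RSD-D-A6.  Insert the expansions in `h` (`A M - B² = a0 + s² (a2/2 + a0 μ2/2 - b1²) + O(s³)`, `a0 M² = a0 + s² a0 μ2 + O(s³)`, all error terms bounded by a constant times `s³` for `0 < s ≤ 1`), then `rd_le_of_cubic`. -/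
theorem rd_cumulant_abs {a0 a2 b1 b2 μ2 K : ℝ} {A B M : ℝ → ℝ}
    (hA : ∀ s : ℝ, |s| ≤ 1 → |A s - (a0 + s * 0 + s ^ 2 / 2 * a2)| ≤ K * |s| ^ 3)
    (hB : ∀ s : ℝ, |s| ≤ 1 → |B s - (0 + s * b1 + s ^ 2 / 2 * b2)| ≤ K * |s| ^ 3)
    (hM : ∀ s : ℝ, |s| ≤ 1 → |M s - (1 + s * 0 + s ^ 2 / 2 * μ2)| ≤ K * |s| ^ 3)
    (h : ∀ s : ℝ, 0 < s → s ≤ 1 → a0 * M s ^ 2 ≤ A s * M s - B s ^ 2) :
    0 ≤ a2 - a0 * μ2 - 2 * b1 ^ 2 := by
  have hK : 0 ≤ K := by
    have := hA 1 (by simp)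
    simp only [abs_one, one_pow, mul_one] at this
    exact (abs_nonneg _).trans this
  set g : ℝ := a2 - a0 * μ2 with hg
  suffices hmain : b1 ^ 2 ≤ g / 2 by linarith
  refine rd_le_of_cubic (K := (|μ2| + K) * |g| + (1 + |μ2| + K) * (K * (1 + |a0|))
      + 2 * |b1| * (|b2| + K)) fun s hs0 hs1 => ?_
  have habs : |s| = s := abs_of_pos hs0
  have h1 := hA s (by rw [habs]; exact hs1)
  have h2 := hB s (by rw [habs]; exact hs1)
  have h3 := hM s (by rw [habs]; exact hs1)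
  rw [habs] at h1 h2 h3
  have h4 := h s hs0 hs1
  set rA : ℝ := A s - (a0 + s * 0 + s ^ 2 / 2 * a2) with hrA
  set rB : ℝ := B s - (0 + s * b1 + s ^ 2 / 2 * b2) with hrB
  set rM : ℝ := M s - (1 + s * 0 + s ^ 2 / 2 * μ2) with hrM
  have hs2 : s ^ 2 ≤ 1 := pow_le_one₀ hs0.le hs1
  have hs3 : 0 ≤ s ^ 3 := by positivity
  have hs3' : s ^ 3 ≤ 1 := pow_le_one₀ hs0.le hs1
  have hs2s : s ^ 2 ≤ s := by nlinarith
  have hs3s : s ^ 3 ≤ s ^ 2 := by nlinarith [sq_nonneg s]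
  -- `M - 1`
  have eM : M s = 1 + s ^ 2 / 2 * μ2 + rM := by rw [hrM]; ring
  have eA : A s = a0 + s ^ 2 / 2 * a2 + rA := by rw [hrA]; ring
  have eB : B s = s * b1 + s ^ 2 / 2 * b2 + rB := by rw [hrB]; ring
  have bM1 : |M s - 1| ≤ (|μ2| + K) * s := by
    have e : M s - 1 = s ^ 2 / 2 * μ2 + rM := by rw [eM]; ring
    rw [e]
    have t1 : |s ^ 2 / 2 * μ2| ≤ |μ2| * s := by
      rw [abs_mul, abs_of_nonneg (by positivity : 0 ≤ s ^ 2 / 2), mul_comm]
      exact mul_le_mul_of_nonneg_left (by linarith) (abs_nonneg _)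
    have t2 : |rM| ≤ K * s := h3.trans (mul_le_mul_of_nonneg_left (by linarith) hK)
    calc |s ^ 2 / 2 * μ2 + rM| ≤ |s ^ 2 / 2 * μ2| + |rM| := abs_add_le _ _
      _ ≤ (|μ2| + K) * s := by linarith
  have bM : |M s| ≤ 1 + |μ2| + K := by
    have e : M s = 1 + (M s - 1) := by ring
    rw [e]
    calc |1 + (M s - 1)| ≤ |(1 : ℝ)| + |M s - 1| := abs_add_le _ _
      _ ≤ 1 + (|μ2| + K) * s := by rw [abs_one]; linarith
      _ ≤ 1 + (|μ2| + K) * 1 := by
          have : (|μ2| + K) * s ≤ (|μ2| + K) * 1 := mul_le_mul_of_nonneg_left hs1 (by positivity)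
          linarith
      _ = 1 + |μ2| + K := by ring
  have bR : |rA - a0 * rM| ≤ K * (1 + |a0|) * s ^ 3 := by
    have t : |a0 * rM| ≤ |a0| * (K * s ^ 3) := by
      rw [abs_mul]; exact mul_le_mul_of_nonneg_left h3 (abs_nonneg _)
    calc |rA - a0 * rM| ≤ |rA| + |a0 * rM| := abs_sub _ _
      _ ≤ K * s ^ 3 + |a0| * (K * s ^ 3) := add_le_add h1 t
      _ = K * (1 + |a0|) * s ^ 3 := by ring
  have bB : |s ^ 2 / 2 * b2 + rB| ≤ (|b2| + K) * s ^ 2 := by
    have t1 : |s ^ 2 / 2 * b2| ≤ |b2| * s ^ 2 := by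
      rw [abs_mul, abs_of_nonneg (by positivity : 0 ≤ s ^ 2 / 2), mul_comm]
      exact mul_le_mul_of_nonneg_left (by linarith [sq_nonneg s]) (abs_nonneg _)
    have t2 : |rB| ≤ K * s ^ 2 := h2.trans (mul_le_mul_of_nonneg_left hs3s hK)
    calc |s ^ 2 / 2 * b2 + rB| ≤ |s ^ 2 / 2 * b2| + |rB| := abs_add_le _ _
      _ ≤ (|b2| + K) * s ^ 2 := by linarith
  -- the identity
  have hid : A s * M s - B s ^ 2 - a0 * M s ^ 2
      = g / 2 * s ^ 2 - b1 ^ 2 * s ^ 2 + (M s - 1) * (s ^ 2 / 2 * g) + M s * (rA - a0 * rM)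
        - (2 * s * b1) * (s ^ 2 / 2 * b2 + rB) - (s ^ 2 / 2 * b2 + rB) ^ 2 := by
    have e1 : A s - a0 * M s = s ^ 2 / 2 * g + (rA - a0 * rM) := by
      rw [eA, eM, hg]; ring
    have e2 : A s * M s - B s ^ 2 - a0 * M s ^ 2 = M s * (A s - a0 * M s) - B s ^ 2 := by ring
    rw [e2, e1]
    have e3 : B s ^ 2 = b1 ^ 2 * s ^ 2 + (2 * s * b1) * (s ^ 2 / 2 * b2 + rB)
        + (s ^ 2 / 2 * b2 + rB) ^ 2 := by
      rw [eB]; ring
    rw [e3]; ring
  have c1 : (M s - 1) * (s ^ 2 / 2 * g) ≤ (|μ2| + K) * |g| * s ^ 3 := by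
    have t : |s ^ 2 / 2 * g| ≤ s ^ 2 * |g| := by
      rw [abs_mul, abs_of_nonneg (by positivity : 0 ≤ s ^ 2 / 2)]
      exact mul_le_mul_of_nonneg_right (by linarith [sq_nonneg s]) (abs_nonneg _)
    calc (M s - 1) * (s ^ 2 / 2 * g) ≤ |(M s - 1) * (s ^ 2 / 2 * g)| := le_abs_self _
      _ ≤ (|μ2| + K) * s * (s ^ 2 * |g|) := rd_mul_le_of_abs bM1 t
      _ = (|μ2| + K) * |g| * s ^ 3 := by ring
  have c2 : M s * (rA - a0 * rM) ≤ (1 + |μ2| + K) * (K * (1 + |a0|)) * s ^ 3 := by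
    calc M s * (rA - a0 * rM) ≤ |M s * (rA - a0 * rM)| := le_abs_self _
      _ ≤ (1 + |μ2| + K) * (K * (1 + |a0|) * s ^ 3) := rd_mul_le_of_abs bM bR
      _ = (1 + |μ2| + K) * (K * (1 + |a0|)) * s ^ 3 := by ring
  have c3 : -((2 * s * b1) * (s ^ 2 / 2 * b2 + rB)) ≤ 2 * |b1| * (|b2| + K) * s ^ 3 := by
    have t : |2 * s * b1| ≤ 2 * s * |b1| := by
      rw [abs_mul, abs_of_nonneg (by positivity : 0 ≤ 2 * s)]
    calc -((2 * s * b1) * (s ^ 2 / 2 * b2 + rB)) ≤ |(2 * s * b1) * (s ^ 2 / 2 * b2 + rB)| :=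
          neg_le_abs _
      _ ≤ 2 * s * |b1| * ((|b2| + K) * s ^ 2) := rd_mul_le_of_abs t bB
      _ = 2 * |b1| * (|b2| + K) * s ^ 3 := by ring
  have c4 : 0 ≤ (s ^ 2 / 2 * b2 + rB) ^ 2 := sq_nonneg _
  have h5 : 0 ≤ A s * M s - B s ^ 2 - a0 * M s ^ 2 := by linarith
  rw [hid] at h5
  linarith

/-! ## B. Exponentially dominated functions -/

namespace LSys

variable (S : LSys)

/-- `F` is dominated by a finite sum of exponentials of tests. -/
def Dom (F : S.L → ℝ) : Prop :=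
  ∃ (C : ℝ) (l : List (S.L →+ ℝ)), ∀ z, |F z| ≤ C * (l.map fun Y => Real.exp (Y z)).sum

end LSys

section Dom

variable {S : LSys} {F G : S.L → ℝ}

/-- L-RSD-D-B1. -/
theorem rd_dom_of_le (hG : S.Dom G) (h : ∀ z, |F z| ≤ |G z|) : S.Dom F := by
  obtain ⟨C, l, hl⟩ := hG
  exact ⟨C, l, fun z => (h z).trans (hl z)⟩

/-- L-RSD-D-B1.  `l = [0]`. -/
theorem rd_dom_bdd (C : ℝ) (h : ∀ z, |F z| ≤ C) : S.Dom F := ⟨C, [0], fun z => by simpa using h z⟩

theorem rd_dom_const (c : ℝ) : S.Dom fun _ => c := rd_dom_bdd |c| fun _ => le_rfl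

/-- L-RSD-D-B1.  `l = [Y]`. -/
theorem rd_dom_exp (Y : S.L →+ ℝ) : S.Dom fun z => Real.exp (Y z) :=
  ⟨1, [Y], fun z => by simp [abs_of_pos (Real.exp_pos _)]⟩

theorem rd_abs_le_exp_add (x : ℝ) : |x| ≤ Real.exp x + Real.exp (-x) := by
  rcases abs_cases x with ⟨h, _⟩ | ⟨h, _⟩
  · rw [h]; have := Real.add_one_le_exp x; have := Real.exp_pos (-x); linarith
  · rw [h]; have := Real.add_one_le_exp (-x); have := Real.exp_pos x; linarith

theorem rd_exp_abs_le (x : ℝ) : Real.exp |x| ≤ Real.exp x + Real.exp (-x) := by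
  rcases abs_cases x with ⟨h, _⟩ | ⟨h, _⟩
  · rw [h]; have := Real.exp_pos (-x); linarith
  · rw [h]; have := Real.exp_pos x; linarith

theorem rd_expsum_nonneg (l : List (S.L →+ ℝ)) (z : S.L) : 0 ≤ (l.map fun Y => Real.exp (Y z)).sum :=
  List.sum_nonneg fun x hx => by
    obtain ⟨Y, _, rfl⟩ := List.mem_map.1 hx
    exact (Real.exp_pos _).le

theorem rd_expsum_mul (l₁ l₂ : List (S.L →+ ℝ)) (z : S.L) :
    (l₁.map fun Y => Real.exp (Y z)).sum * (l₂.map fun Y => Real.exp (Y z)).sum =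
      ((l₁.flatMap fun Y => l₂.map fun Y' => Y + Y').map fun Y => Real.exp (Y z)).sum := by
  induction l₁ with
  | nil => simp
  | cons Y t ih =>
    rw [List.map_cons, List.sum_cons, add_mul, ih, List.flatMap_cons, List.map_append, List.sum_append,
      List.map_map, ← List.sum_map_mul_left]
    congr 2
    apply List.map_congr_left
    intro Y' _
    simp [Real.exp_add]

/-- L-RSD-D-B1.  `|x| ≤ e^x + e^{-x}`, `l = [X, -X]`. -/
theorem rd_dom_test (X : S.L →+ ℝ) : S.Dom fun z => X z :=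
  ⟨1, [X, -X], fun z => by simpa using rd_abs_le_exp_add (X z)⟩

/-- L-RSD-D-B1.  `C = max C₁ 0 + max C₂ 0`, `l = l₁ ++ l₂`. -/
theorem rd_dom_add (hF : S.Dom F) (hG : S.Dom G) : S.Dom fun z => F z + G z := by
  obtain ⟨C₁, l₁, h₁⟩ := hF
  obtain ⟨C₂, l₂, h₂⟩ := hG
  refine ⟨max C₁ 0 + max C₂ 0, l₁ ++ l₂, fun z => ?_⟩
  rw [List.map_append, List.sum_append]
  have s₁ := rd_expsum_nonneg l₁ z
  have s₂ := rd_expsum_nonneg l₂ z
  have a₁ : C₁ * (l₁.map fun Y => Real.exp (Y z)).sum ≤ max C₁ 0 * (l₁.map fun Y => Real.exp (Y z)).sum :=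
    mul_le_mul_of_nonneg_right (le_max_left _ _) s₁
  have a₂ : C₂ * (l₂.map fun Y => Real.exp (Y z)).sum ≤ max C₂ 0 * (l₂.map fun Y => Real.exp (Y z)).sum :=
    mul_le_mul_of_nonneg_right (le_max_left _ _) s₂
  have m₁ : 0 ≤ max C₁ 0 := le_max_right _ _
  have m₂ : 0 ≤ max C₂ 0 := le_max_right _ _
  have := abs_add_le (F z) (G z)
  have := h₁ z
  have := h₂ z
  nlinarith [mul_nonneg m₁ s₂, mul_nonneg m₂ s₁]

/-- L-RSD-D-B1.  `C = |C₁| |C₂|`, `l = l₁.flatMap fun Y => l₂.map fun Y' => Y + Y'` (`List.sum_map_mul_left/right`, `Real.exp_add`; induction on `l₁`). -/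
theorem rd_dom_mul (hF : S.Dom F) (hG : S.Dom G) : S.Dom fun z => F z * G z := by
  obtain ⟨C₁, l₁, h₁⟩ := hF
  obtain ⟨C₂, l₂, h₂⟩ := hG
  refine ⟨C₁ * C₂, l₁.flatMap fun Y => l₂.map fun Y' => Y + Y', fun z => ?_⟩
  rw [← rd_expsum_mul, abs_mul]
  calc |F z| * |G z| ≤ (C₁ * (l₁.map fun Y => Real.exp (Y z)).sum) * (C₂ * (l₂.map fun Y => Real.exp (Y z)).sum) :=
        mul_le_mul (h₁ z) (h₂ z) (abs_nonneg _) ((abs_nonneg _).trans (h₁ z))
    _ = _ := by ring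

theorem rd_dom_neg (hF : S.Dom F) : S.Dom fun z => -F z := rd_dom_of_le hF fun z => by rw [abs_neg]

theorem rd_dom_sub (hF : S.Dom F) (hG : S.Dom G) : S.Dom fun z => F z - G z := by
  simpa [sub_eq_add_neg] using rd_dom_add hF (rd_dom_neg hG)

theorem rd_dom_smul (c : ℝ) (hF : S.Dom F) : S.Dom fun z => c * F z := rd_dom_mul (rd_dom_const c) hF

theorem rd_dom_pow (hF : S.Dom F) (n : ℕ) : S.Dom fun z => F z ^ n := by
  induction n with
  | zero => simpa using rd_dom_const (S := S) 1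
  | succ n ih => simpa [pow_succ] using rd_dom_mul ih hF

theorem rd_dom_abs (hF : S.Dom F) : S.Dom fun z => |F z| := rd_dom_of_le hF fun z => by rw [abs_abs]

theorem rd_dom_cos (f : S.L → ℝ) : S.Dom fun z => Real.cos (f z) := rd_dom_bdd 1 fun z => Real.abs_cos_le_one _

/-- L-RSD-D-B1.  `e^{|x|} ≤ e^x + e^{-x}`. -/
theorem rd_dom_exp_abs (c : ℝ) (X : S.L →+ ℝ) : S.Dom fun z => Real.exp (c * |X z|) := by
  refine ⟨1, [c • X, -(c • X)], fun z => ?_⟩
  have h1 : c * |X z| ≤ |c * X z| := by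
    rw [abs_mul]
    exact mul_le_mul_of_nonneg_right (le_abs_self c) (abs_nonneg _)
  have h2 := rd_exp_abs_le (c * X z)
  have h3 := Real.exp_le_exp.2 h1
  rw [abs_of_pos (Real.exp_pos _)]
  simpa using h3.trans h2

/-- L-RSD-D-B2.  `bes_pos`, `Real.exp_pos`, `Finset.prod_pos`. -/
theorem rd_W_pos (hS : S.Ok) (x : S.Amb) : 0 < S.W x :=
  mul_pos (Finset.prod_pos fun e _ => bes_pos _ (hS.1 e) _) (Real.exp_pos _)

/-- L-RSD-D-B2.  `bes_neg`, `neg_sq`. -/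
theorem rd_W_neg (x : S.Amb) : S.W (-x) = S.W x := by
  unfold LSys.W
  simp [bes_neg]

/-- L-RSD-D-B2.  Comparison with the finite sum of the summable families `lsys_summable hS α Y`, `Y ∈ l` (`Summable.of_norm_bounded`, induction on `l` for the summability of the bound; `rd_W_pos`). -/
theorem rd_dom_summable (hS : S.Ok) (hF : S.Dom F) (α : S.Amb) :
    Summable fun z : S.L => F z * S.W ((z : S.Amb) + α) := by
  obtain ⟨C, l, hl⟩ := hF
  have hsum : ∀ l : List (S.L →+ ℝ),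
      Summable fun z : S.L => (l.map fun Y => Real.exp (Y z)).sum * S.W ((z : S.Amb) + α) := by
    intro l
    induction l with
    | nil => simp
    | cons Y l ih =>
      simp only [List.map_cons, List.sum_cons, add_mul]
      exact (lsys_summable S hS α Y).add ih
  refine Summable.of_norm_bounded ((hsum l).mul_left C) fun z => ?_
  rw [norm_mul, Real.norm_eq_abs, Real.norm_eq_abs, abs_of_pos (rd_W_pos hS _), ← mul_assoc]
  exact mul_le_mul_of_nonneg_right (hl z) (rd_W_pos hS _).le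

/-- L-RSD-D-B2.  `Summable.countable_support` of `lsys_summable hS 0 0`, the support is everything (`rd_W_pos`). -/
theorem rd_countable (hS : S.Ok) : Countable S.L := by
  have h := (lsys_summable S hS 0 0).countable_support
  have hu : Function.support (fun z : S.L => Real.exp ((0 : S.L →+ ℝ) z) * S.W ((z : S.Amb) + 0)) = Set.univ := by
    ext z
    simp only [Function.mem_support, Set.mem_univ, iff_true]
    exact (mul_pos (Real.exp_pos _) (rd_W_pos hS _)).ne'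
  rw [hu] at h
  exact Set.countable_univ_iff.1 h

theorem rd_Zf_add (hS : S.Ok) (hF : S.Dom F) (hG : S.Dom G) (α : S.Amb) :
    S.Zf α (fun z => F z + G z) = S.Zf α F + S.Zf α G := by
  unfold LSys.Zf
  rw [← (rd_dom_summable hS hF α).tsum_add (rd_dom_summable hS hG α)]
  exact tsum_congr fun z => by ring

theorem rd_Zf_smul (c : ℝ) (F : S.L → ℝ) (α : S.Amb) : S.Zf α (fun z => c * F z) = c * S.Zf α F := by
  unfold LSys.Zf
  rw [← tsum_mul_left]
  exact tsum_congr fun z => by ring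

theorem rd_Zf_neg' (F : S.L → ℝ) (α : S.Amb) : S.Zf α (fun z => -F z) = -S.Zf α F := by
  simpa using rd_Zf_smul (-1) F α

theorem rd_Zf_sub (hS : S.Ok) (hF : S.Dom F) (hG : S.Dom G) (α : S.Amb) :
    S.Zf α (fun z => F z - G z) = S.Zf α F - S.Zf α G := by
  have := rd_Zf_add hS hF (rd_dom_neg hG) α
  rw [rd_Zf_neg'] at this
  simpa [sub_eq_add_neg] using this

theorem rd_Zf_mono (hS : S.Ok) (hF : S.Dom F) (hG : S.Dom G) (α : S.Amb) (h : ∀ z, F z ≤ G z) :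
    S.Zf α F ≤ S.Zf α G :=
  (rd_dom_summable hS hF α).tsum_le_tsum (fun z => mul_le_mul_of_nonneg_right (h z) (rd_W_pos hS _).le)
    (rd_dom_summable hS hG α)

theorem rd_Zf_nonneg (hS : S.Ok) (α : S.Amb) (h : ∀ z, 0 ≤ F z) : 0 ≤ S.Zf α F :=
  tsum_nonneg fun z => mul_nonneg (h z) (rd_W_pos hS _).le

theorem rd_Zf_abs_le (hS : S.Ok) (hF : S.Dom F) (α : S.Amb) : |S.Zf α F| ≤ S.Zf α fun z => |F z| := by
  rw [abs_le]
  constructor
  · rw [← rd_Zf_neg']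
    exact rd_Zf_mono hS (rd_dom_neg (rd_dom_abs hF)) hF α fun z => neg_abs_le _
  · exact rd_Zf_mono hS hF (rd_dom_abs hF) α fun z => le_abs_self _

theorem rd_Zf_congr {F G : S.L → ℝ} (α : S.Amb) (h : ∀ z, F z = G z) : S.Zf α F = S.Zf α G := by
  have : F = G := funext h
  rw [this]

end Dom

/-! ## C. Symmetry and moments -/

section Moments

variable {S : LSys}

/-- L-RSD-D-C1.  Reindex by `Equiv.neg S.L` (`Equiv.tsum_eq`), `rd_W_neg`: `W (-z - α) = W (z + α)`. -/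
theorem rd_Zf_inv (F : S.L → ℝ) (α : S.Amb) : S.Zf (-α) (fun z => F (-z)) = S.Zf α F := by
  unfold LSys.Zf
  rw [← (Equiv.neg S.L).tsum_eq fun z => F z * S.W ((z : S.Amb) + α)]
  refine tsum_congr fun z => ?_
  simp only [Equiv.neg_apply]
  congr 1
  rw [← rd_W_neg]
  congr 1
  simp [add_comm]

theorem rd_Zf_odd (F : S.L → ℝ) (h : ∀ z, F (-z) = -F z) : S.Zf 0 F = 0 := by
  have h1 := rd_Zf_inv F (0 : S.Amb)
  rw [neg_zero, rd_Zf_congr 0 h, rd_Zf_neg'] at h1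
  linarith

theorem rd_wT_zero (α : S.Amb) : S.wT α 0 = S.w α := by simp [LSys.wT, LSys.w]

theorem rd_w_pos (hS : S.Ok) (α : S.Amb) : 0 < S.w α := by
  rw [← rd_wT_zero]
  exact lsys_pos S hS α 0

theorem rd_E0_eq (F : S.L → ℝ) : S.E0 F = S.Zf 0 F / S.w 0 := by
  simp [LSys.E0, LSys.Ev, rd_wT_zero]

theorem rd_E0_const (hS : S.Ok) (c : ℝ) : S.E0 (fun _ => c) = c := by
  rw [rd_E0_eq]
  have : S.Zf 0 (fun _ => c) = c * S.w 0 := by
    simpa [LSys.w] using rd_Zf_smul c (fun _ : S.L => (1 : ℝ)) (0 : S.Amb)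
  rw [this, mul_div_assoc, div_self (rd_w_pos hS 0).ne', mul_one]

theorem rd_E0_add (hS : S.Ok) {F G : S.L → ℝ} (hF : S.Dom F) (hG : S.Dom G) :
    S.E0 (fun z => F z + G z) = S.E0 F + S.E0 G := by
  simp only [rd_E0_eq, rd_Zf_add hS hF hG, add_div]

theorem rd_E0_smul (c : ℝ) (F : S.L → ℝ) : S.E0 (fun z => c * F z) = c * S.E0 F := by
  simp only [rd_E0_eq, rd_Zf_smul, mul_div_assoc]

theorem rd_E0_mono (hS : S.Ok) {F G : S.L → ℝ} (hF : S.Dom F) (hG : S.Dom G) (h : ∀ z, F z ≤ G z) :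
    S.E0 F ≤ S.E0 G := by
  simp only [rd_E0_eq]
  exact div_le_div_of_nonneg_right (rd_Zf_mono hS hF hG 0 h) (rd_w_pos hS 0).le

theorem rd_E0_odd (F : S.L → ℝ) (h : ∀ z, F (-z) = -F z) : S.E0 F = 0 := by
  rw [rd_E0_eq, rd_Zf_odd F h, zero_div]

theorem rd_E0_test (X : S.L →+ ℝ) : S.E0 (fun z => X z) = 0 := rd_E0_odd _ fun z => map_neg X z

theorem rd_Cv0_eq (X Y : S.L →+ ℝ) : S.Cv 0 0 X Y = S.E0 fun z => X z * Y z := by
  have h1 : S.Ev 0 0 (fun z => X z) = 0 := rd_E0_test X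
  simp [LSys.Cv, h1, LSys.E0]

theorem rd_V0_eq (X : S.L →+ ℝ) : S.V0 X = S.E0 fun z => X z ^ 2 := by
  rw [LSys.V0, rd_Cv0_eq]
  simp only [sq]

theorem rd_V0_smul (t : ℝ) (X : S.L →+ ℝ) : S.V0 (t • X) = t ^ 2 * S.V0 X := by
  rw [rd_V0_eq, rd_V0_eq, ← rd_E0_smul]
  congr 1
  funext z
  simp [mul_pow]

theorem rd_V0_nonneg (hS : S.Ok) (X : S.L →+ ℝ) : 0 ≤ S.V0 X := by
  rw [rd_V0_eq, rd_E0_eq]
  exact div_nonneg (rd_Zf_nonneg hS 0 fun z => sq_nonneg _) (rd_w_pos hS 0).le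

theorem rd_E0_exp (X : S.L →+ ℝ) : S.E0 (fun z => Real.exp (X z)) = S.wT 0 X / S.w 0 := by
  rw [rd_E0_eq]
  rfl

theorem rd_phi_zero (hS : S.Ok) : S.phi 0 = 1 := by
  simpa [LSys.phi] using rd_E0_const hS 1

theorem rd_E0_inv (F : S.L → ℝ) : S.E0 (fun z => F (-z)) = S.E0 F := by
  have h := rd_Zf_inv F (0 : S.Amb)
  rw [neg_zero] at h
  rw [rd_E0_eq, rd_E0_eq, h]

/-- L-RSD-D-C2.  `E0 e^{sX} = E0 cosh (sX)` (average `rd_Zf_inv` with itself: `E0 F = E0 ((F + F ∘ neg)/2)`), `rd_cosh_lower`, `rd_E0_mono`, `rd_E0_add`, `rd_E0_const`, `rd_E0_smul`, `rd_V0_eq`; `Dom` by `rd_dom_*`. -/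
theorem rd_mgf_lower (hS : S.Ok) (X : S.L →+ ℝ) (s : ℝ) :
    1 + s ^ 2 * (S.V0 X / 2) ≤ S.E0 fun z => Real.exp ((s • X) z) := by
  have hd1 : S.Dom fun z => Real.exp ((s • X) z) := rd_dom_exp (s • X)
  have hd2 : S.Dom fun z => Real.exp ((s • X) (-z)) := by
    have := rd_dom_exp (-(s • X))
    simpa using this
  have hsym := rd_E0_inv fun z : S.L => Real.exp ((s • X) z)
  have hadd := rd_E0_add hS hd1 hd2
  have hd3 : S.Dom fun z => (2 : ℝ) + s ^ 2 * X z ^ 2 :=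
    rd_dom_add (rd_dom_const 2) (rd_dom_smul _ (rd_dom_pow (rd_dom_test X) 2))
  have hlow := rd_E0_mono hS hd3 (rd_dom_add hd1 hd2) fun z => by
    have h1 := rd_cosh_lower ((s • X) z)
    rw [Real.cosh_eq] at h1
    have h2 : (s • X) (-z) = -((s • X) z) := map_neg _ _
    rw [h2]
    have h3 : (s • X) z = s * X z := by simp
    rw [h3] at h1 ⊢
    nlinarith [h1]
  rw [rd_E0_add hS (rd_dom_const 2) (rd_dom_smul _ (rd_dom_pow (rd_dom_test X) 2)), rd_E0_const hS, rd_E0_smul,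
    ← rd_V0_eq, hadd, hsym] at hlow
  linarith

/-- L-RSD-D-C2.  `Real.one_sub_sq_div_two_le_cos`, `rd_E0_mono`, linearity, `rd_V0_eq`. -/
theorem rd_phi_quad_lower (hS : S.Ok) (X : S.L →+ ℝ) (s : ℝ) : 1 + s ^ 2 * (-S.V0 X / 2) ≤ S.phi (s • X) := by
  have hd3 : S.Dom fun z => (1 : ℝ) + (-(s ^ 2) / 2) * X z ^ 2 :=
    rd_dom_add (rd_dom_const 1) (rd_dom_smul _ (rd_dom_pow (rd_dom_test X) 2))
  have hlow := rd_E0_mono hS hd3 (rd_dom_cos fun z => (s • X) z) fun z => by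
    have h1 := Real.one_sub_sq_div_two_le_cos (x := (s • X) z)
    have h3 : (s • X) z = s * X z := by simp
    rw [h3] at h1 ⊢
    nlinarith [h1]
  rw [rd_E0_add hS (rd_dom_const 1) (rd_dom_smul _ (rd_dom_pow (rd_dom_test X) 2)), rd_E0_const hS, rd_E0_smul,
    ← rd_V0_eq] at hlow
  unfold LSys.phi
  linarith

end Moments

/-! ## D. Characters -/

section Chars

variable {S : LSys}

/-- L-RSD-D-D1.  Unfold; `Complex.ofReal_tsum`, `Complex.ofReal_exp`, `push_cast`. -/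
theorem rd_wC_zero (α : S.Amb) (Y : S.L →+ ℝ) : S.wC α Y 0 = (S.wT α Y : ℂ) := by
  have e : S.wT α Y = ∑' z : S.L, Real.exp (Y z) * S.W ((z : S.Amb) + α) := rfl
  rw [e, Complex.ofReal_tsum]
  unfold LSys.wC
  refine tsum_congr fun z => ?_
  simp

/-- summability of the complex series (helper of L-RSD-D-D1). -/
theorem rd_wC_summable (hS : S.Ok) (α : S.Amb) (Y X : S.L →+ ℝ) : Summable fun z : S.L =>
    Complex.exp ((Y z : ℂ) + Complex.I * (X z : ℂ)) * (S.W ((z : S.Amb) + α) : ℂ) := by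
  refine Summable.of_norm_bounded (lsys_summable S hS α Y) fun z => ?_
  rw [norm_mul, Complex.norm_real, Real.norm_eq_abs, abs_of_pos (rd_W_pos hS _), Complex.norm_exp]
  simp

/-- L-RSD-D-D1.  Real part of a convergent complex series termwise (`Complex.hasSum_re` / `Complex.reCLM.map_tsum` with the summability from `lsys_summable`: the norm of the term is `e^{Y z} W`);
`(e^{iθ} e^{Y + iX}).re = e^Y cos (X + θ)` (`Complex.exp_re`, `Complex.exp_add`). -/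
theorem rd_wC_re (hS : S.Ok) (α : S.Amb) (Y X : S.L →+ ℝ) (θ : ℝ) :
    (Complex.exp (Complex.I * θ) * S.wC α Y X).re = S.Zf α fun z => Real.exp (Y z) * Real.cos (X z + θ) := by
  unfold LSys.wC LSys.Zf
  rw [← tsum_mul_left, Complex.re_tsum ((rd_wC_summable hS α Y X).mul_left _)]
  refine tsum_congr fun z => ?_
  rw [← mul_assoc, ← Complex.exp_add]
  have : Complex.I * (θ : ℂ) + ((Y z : ℂ) + Complex.I * (X z : ℂ))
      = ((Y z : ℝ) : ℂ) + ((X z + θ : ℝ) : ℂ) * Complex.I := by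
    push_cast
    ring
  rw [this, Complex.re_mul_ofReal, Complex.exp_add, ← Complex.ofReal_exp, Complex.re_ofReal_mul,
    Complex.exp_ofReal_mul_I_re]

/-- L-RSD-D-D1.  Real part: `rd_wC_re` with `θ = 0`, `rd_E0_eq`; imaginary part `= Zf 0 (sin ∘ X) = 0` by `rd_Zf_odd` (same termwise argument with `Complex.imCLM`). -/
theorem rd_wC_centred (hS : S.Ok) (X : S.L →+ ℝ) : S.wC 0 0 X = ((S.w 0 * S.phi X : ℝ) : ℂ) := by
  apply Complex.ext
  · have h := rd_wC_re hS 0 0 X 0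
    simp only [Complex.ofReal_zero, mul_zero, Complex.exp_zero, one_mul, add_zero,
      AddMonoidHom.zero_apply, Real.exp_zero] at h
    rw [h, Complex.ofReal_re, LSys.phi, rd_E0_eq, mul_div_cancel₀ _ (rd_w_pos hS 0).ne']
  · rw [Complex.ofReal_im]
    have h : (S.wC 0 0 X).im = S.Zf 0 fun z => Real.sin (X z) := by
      unfold LSys.wC LSys.Zf
      rw [Complex.im_tsum (rd_wC_summable hS 0 0 X)]
      refine tsum_congr fun z => ?_
      have : (((0 : S.L →+ ℝ) z : ℝ) : ℂ) + Complex.I * (X z : ℂ) = ((X z : ℝ) : ℂ) * Complex.I := by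
        simp [mul_comm]
      rw [this, Complex.im_mul_ofReal, Complex.exp_ofReal_mul_I_im]
    rw [h]
    exact rd_Zf_odd _ fun z => by rw [map_neg, Real.sin_neg]

/-- `φ ≥ 0`: `lsys_phi_four` at `(X/2, X/2)`. -/
theorem rd_phi_nonneg (hS : S.Ok) (X : S.L →+ ℝ) : 0 ≤ S.phi X := by
  have h := lsys_phi_four S hS ((2⁻¹ : ℝ) • X) ((2⁻¹ : ℝ) • X)
  have h1 : (2⁻¹ : ℝ) • X + (2⁻¹ : ℝ) • X = X := by
    rw [← add_smul]; norm_num
  rw [h1, sub_self, rd_phi_zero hS, mul_one] at h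
  exact le_trans (by positivity) h

/-- L-RSD-D-D2.  `lsys_master S hS α 0 Y 0 X 0`; `add_zero, sub_zero`; `‖wC 0 0 0‖ = w 0` (`rd_wC_zero`, `rd_wT_zero`, `rd_w_pos`); cancel `w 0 ^ 2`; `abs_le_of_sq_le_sq` / `pow_le_pow_left₀` with `rd_phi_nonneg`, `lsys_pos`. -/
theorem rd_char_bound (hS : S.Ok) (α : S.Amb) (Y X : S.L →+ ℝ) : ‖S.wC α Y X‖ ≤ S.wT α Y * S.phi X := by
  have hm := lsys_master S hS α 0 Y 0 X 0
  simp only [rd_wC_zero, add_zero, sub_zero, Complex.norm_real, Real.norm_eq_abs, sq_abs, rd_wT_zero] at hm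
  have h0 := rd_w_pos hS 0
  have hT := lsys_pos S hS α Y
  have hφ := rd_phi_nonneg hS X
  have h1 : ‖S.wC α Y X‖ ^ 2 * S.w 0 ^ 2 ≤ (S.wT α Y * S.phi X) ^ 2 * S.w 0 ^ 2 := by
    calc ‖S.wC α Y X‖ ^ 2 * S.w 0 ^ 2 ≤ _ := hm
      _ = _ := by ring
  have h2 : ‖S.wC α Y X‖ ^ 2 ≤ (S.wT α Y * S.phi X) ^ 2 := le_of_mul_le_mul_right h1 (by positivity)
  exact (abs_le_of_sq_le_sq' h2 (mul_nonneg hT.le hφ)).2

/-- real form of `rd_char_bound`. -/
theorem rd_cos_bound (hS : S.Ok) (α : S.Amb) (Y X : S.L →+ ℝ) (θ : ℝ) :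
    |S.Zf α fun z => Real.exp (Y z) * Real.cos (X z + θ)| ≤ S.wT α Y * S.phi X := by
  rw [← rd_wC_re hS]
  refine (Complex.abs_re_le_norm _).trans ?_
  rw [norm_mul, mul_comm Complex.I, Complex.norm_exp_ofReal_mul_I, one_mul]
  exact rd_char_bound hS α Y X

/-- the centred cosine sum. -/
theorem rd_Zf_cos (X : S.L →+ ℝ) (hS : S.Ok) : S.Zf 0 (fun z => Real.cos (X z)) = S.w 0 * S.phi X := by
  rw [LSys.phi, rd_E0_eq, mul_div_cancel₀ _ (rd_w_pos hS 0).ne']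

end Chars

/-! ## E. Second order expansion -/

/-- L-RSD-D-E1.  `rd_tsum_taylor2` with `c z = P z * W (z + α)`, `x z = X z`; hypothesis `h` from `rd_dom_summable` for `|P| · exp (2 |X|)` (`rd_dom_mul`, `rd_dom_abs`, `rd_dom_exp_abs`; `|c z| = |P z| W`);
`K = 6 * Zf α (|P| exp (2|X|))`.  Rearrange the products inside the `tsum`s by `tsum_congr`. -/
theorem rd_taylor2 {S : LSys} (hS : S.Ok) (α : S.Amb) {P : S.L → ℝ} (hP : S.Dom P) (X : S.L →+ ℝ) :
    ∃ K : ℝ, ∀ s : ℝ, |s| ≤ 1 →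
      |S.Zf α (fun z => P z * Real.exp (s * X z)) -
        (S.Zf α P + s * S.Zf α (fun z => P z * X z) + s ^ 2 / 2 * S.Zf α fun z => P z * X z ^ 2)| ≤ K * |s| ^ 3 := by
  have hsum : Summable fun z : S.L => |P z * S.W ((z : S.Amb) + α)| * Real.exp (2 * |X z|) := by
    refine (rd_dom_summable hS (rd_dom_mul (rd_dom_abs hP) (rd_dom_exp_abs 2 X)) α).congr fun z => ?_
    rw [abs_mul, abs_of_pos (rd_W_pos hS _)]
    ring
  refine ⟨6 * ∑' z : S.L, |P z * S.W ((z : S.Amb) + α)| * Real.exp (2 * |X z|), fun s hs => ?_⟩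
  have h := rd_tsum_taylor2 (fun z : S.L => P z * S.W ((z : S.Amb) + α)) (fun z => X z) hsum s hs
  have e1 : S.Zf α (fun z => P z * Real.exp (s * X z)) =
      ∑' z : S.L, P z * S.W ((z : S.Amb) + α) * Real.exp (s * X z) := tsum_congr fun z => by ring
  have e2 : S.Zf α (fun z => P z * X z) = ∑' z : S.L, P z * S.W ((z : S.Amb) + α) * X z :=
    tsum_congr fun z => by ring
  have e3 : S.Zf α (fun z => P z * X z ^ 2) = ∑' z : S.L, P z * S.W ((z : S.Amb) + α) * X z ^ 2 :=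
    tsum_congr fun z => by ring
  rw [e1, e2, e3]
  exact h

end

end Claimed.Agent.R285
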