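import Claimed.Agent.R285.Rsd.CosetRef
import Claimed.Agent.R285.Rsd.CalcKit
import Claimed.Agent.R285.Pins.BandLib

/-!
# ROW 285, leaf L-ENT-FK-GAU (#16187, helper283): a new comparison rule.   ALL PROVED, no `sorry`.

`lsys_gau_mono`: the centred expectation of a centred Gaussian weight of real statistics increases with precision.
Route (plan of helper229, by induction on the rows): `cos a · exp(-y²/2) = ∫ cos (a + s y) dγ(s)` (`pn_bd_gauss_fourier`, `pn_bd_gauss_sin`);  Fubini (`gm_fubini`);
the statement with an additional factor `cos (X z)` is proved for all tests `X` by induction on the set of rows; no row: `lsys_phi_mono`.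
-/

set_option autoImplicit false

namespace Claimed.Agent.R285.Rsd

open MeasureTheory Filter Topology
open Claimed.Agent.R285.Pins (pnGd pn_bd_gd_pos pn_bd_gd_integrable pn_bd_gd_integral pn_bd_gauss_fourier pn_bd_gauss_sin)

noncomputable section

/-- the Gaussian density is continuous -/
theorem gm_gd_continuous : Continuous pnGd := by
  unfold Claimed.Agent.R285.Pins.pnGd
  fun_prop

/-- a bounded continuous function is integrable against the Gaussian density -/
theorem gm_integrable {f : ℝ → ℝ} (hf : Continuous f) {C : ℝ} (hb : ∀ s, |f s| ≤ C) :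
    Integrable fun s => f s * pnGd s := by
  refine (pn_bd_gd_integrable.const_mul C).mono' (hf.mul gm_gd_continuous).aestronglyMeasurable
    (Eventually.of_forall fun s => ?_)
  rw [norm_mul, Real.norm_eq_abs, Real.norm_eq_abs, abs_of_pos (pn_bd_gd_pos s)]
  exact mul_le_mul_of_nonneg_right (hb s) (pn_bd_gd_pos s).le

/-- `cos a · exp(-y²/2) = ∫ cos (a + s y) dγ(s)` -/
theorem gm_cos_gauss (a y : ℝ) : ∫ s, Real.cos (a + s * y) * pnGd s = Real.cos a * Real.exp (-(y ^ 2) / 2) := by
  have h1 : Integrable fun s : ℝ => Real.cos (s * y) * pnGd s :=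
    gm_integrable (by fun_prop) fun s => Real.abs_cos_le_one _
  have h2 : Integrable fun s : ℝ => Real.sin (s * y) * pnGd s :=
    gm_integrable (by fun_prop) fun s => Real.abs_sin_le_one _
  have e : ∀ s : ℝ, Real.cos (a + s * y) * pnGd s
      = Real.cos a * (Real.cos (s * y) * pnGd s) - Real.sin a * (Real.sin (s * y) * pnGd s) := by
    intro s
    rw [Real.cos_add]
    ring
  simp only [e]
  rw [integral_sub (h1.const_mul _) (h2.const_mul _), integral_const_mul, integral_const_mul,
    pn_bd_gauss_fourier, pn_bd_gauss_sin, mul_zero, sub_zero]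

variable {S : LSys}

/-- the weights are summable -/
theorem gm_W_summable (hS : S.Ok) : Summable fun z : S.L => S.W ((z : S.Amb) + 0) := by
  simpa using rd_dom_summable hS (rd_dom_const (S := S) 1) 0

/-- **Fubini** for a bounded family which is continuous in the parameter -/
theorem gm_fubini (hS : S.Ok) (f : ℝ → S.L → ℝ) (hc : ∀ z, Continuous fun s => f s z) (hb : ∀ s z, |f s z| ≤ 1) :
    S.E0 (fun z => ∫ s, f s z * pnGd s) = ∫ s, S.E0 (fun z => f s z) * pnGd s ∧
      Integrable fun s => S.E0 (fun z => f s z) * pnGd s := by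
  have : Countable S.L := rd_countable hS
  have hW := gm_W_summable hS
  have hW0 : ∀ z : S.L, 0 < S.W ((z : S.Amb) + 0) := fun z => rd_W_pos hS _
  have hw := rd_w_pos hS 0
  have hint : ∀ z : S.L, Integrable fun s => f s z * pnGd s := fun z => gm_integrable (hc z) fun s => hb s z
  -- the exchange
  have hF_int : ∀ z : S.L, Integrable fun s => f s z * pnGd s * S.W ((z : S.Amb) + 0) := fun z =>
    (hint z).mul_const _
  have hF_sum : Summable fun z : S.L => ∫ s, ‖f s z * pnGd s * S.W ((z : S.Amb) + 0)‖ := by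
    refine Summable.of_nonneg_of_le (fun z => integral_nonneg fun s => norm_nonneg _) (fun z => ?_) hW
    have h1 : ∫ s, ‖f s z * pnGd s * S.W ((z : S.Amb) + 0)‖ ≤ ∫ s, pnGd s * S.W ((z : S.Amb) + 0) := by
      refine integral_mono (hF_int z).norm (pn_bd_gd_integrable.mul_const _) fun s => ?_
      show ‖f s z * pnGd s * S.W ((z : S.Amb) + 0)‖ ≤ pnGd s * S.W ((z : S.Amb) + 0)
      rw [norm_mul, norm_mul, Real.norm_eq_abs, Real.norm_eq_abs, Real.norm_eq_abs, abs_of_pos (pn_bd_gd_pos s),
        abs_of_pos (hW0 z)]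
      have := mul_le_mul_of_nonneg_right (hb s z) (pn_bd_gd_pos s).le
      rw [one_mul] at this
      exact mul_le_mul_of_nonneg_right this (hW0 z).le
    rw [integral_mul_const, pn_bd_gd_integral, one_mul] at h1
    exact h1
  have hs := (hasSum_integral_of_summable_integral_norm hF_int hF_sum).tsum_eq
  have hcont : Continuous fun s => S.Zf 0 fun z => f s z := by
    unfold LSys.Zf
    refine continuous_tsum (fun z => (hc z).mul continuous_const) hW fun z s => ?_
    rw [norm_mul, Real.norm_eq_abs, Real.norm_eq_abs, abs_of_pos (hW0 z)]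
    have := mul_le_mul_of_nonneg_right (hb s z) (hW0 z).le
    rwa [one_mul] at this
  have hbd : ∀ s, |S.E0 fun z => f s z| ≤ 1 := by
    intro s
    rw [rd_E0_eq, abs_div, abs_of_pos hw, div_le_one hw]
    refine (rd_Zf_abs_le hS (rd_dom_bdd 1 fun z => hb s z) 0).trans ?_
    exact rd_Zf_mono hS (rd_dom_abs (rd_dom_bdd 1 fun z => hb s z)) (rd_dom_const 1) 0 fun z => hb s z
  constructor
  · rw [rd_E0_eq]
    simp only [rd_E0_eq]
    have e1 : S.Zf 0 (fun z => ∫ s, f s z * pnGd s) = ∑' z : S.L, ∫ s, f s z * pnGd s * S.W ((z : S.Amb) + 0) := by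
      unfold LSys.Zf
      exact tsum_congr fun z => (integral_mul_const _ _).symm
    rw [e1, hs, ← integral_div]
    refine integral_congr_ae (Eventually.of_forall fun s => ?_)
    show (∑' z : S.L, f s z * pnGd s * S.W ((z : S.Amb) + 0)) / S.w 0 = S.Zf 0 (fun z => f s z) / S.w 0 * pnGd s
    unfold LSys.Zf
    rw [div_mul_eq_mul_div, ← tsum_mul_right]
    congr 1
    exact tsum_congr fun z => by ring
  · have hcE : Continuous fun s => S.E0 fun z => f s z := by
      simp only [rd_E0_eq]
      exact hcont.div_const _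
    exact gm_integrable hcE hbd

/-- one more row -/
theorem gm_step (hS : S.Ok) (X Y : S.L →+ ℝ) (G : S.L → ℝ) (hG : ∀ z, |G z| ≤ 1) :
    S.E0 (fun z => Real.cos (X z) * (G z * Real.exp (-(Y z ^ 2) / 2)))
        = ∫ s, S.E0 (fun z => Real.cos ((X + s • Y) z) * G z) * pnGd s ∧
      Integrable fun s => S.E0 (fun z => Real.cos ((X + s • Y) z) * G z) * pnGd s := by
  have h := gm_fubini hS (fun s z => Real.cos ((X + s • Y) z) * G z)
    (fun z => by
      simp only [AddMonoidHom.add_apply, AddMonoidHom.smul_apply, smul_eq_mul]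
      fun_prop)
    (fun s z => by
      rw [abs_mul]
      exact mul_le_one₀ (Real.abs_cos_le_one _) (abs_nonneg _) (hG z))
  refine ⟨?_, h.2⟩
  rw [← h.1]
  congr 1
  funext z
  have e : ∀ s : ℝ, Real.cos ((X + s • Y) z) * G z * pnGd s = G z * (Real.cos (X z + s * Y z) * pnGd s) := by
    intro s
    simp only [AddMonoidHom.add_apply, AddMonoidHom.smul_apply, smul_eq_mul]
    ring
  simp only [e]
  rw [integral_const_mul, gm_cos_gauss]
  ring

/-- the statement with a character, by induction on the rows -/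
theorem gm_main {S S' : LSys} (r : LSys.Ref S S') (hS : S.Ok) (hS' : S'.Ok) {F : Type} (ℓ : F → S.L →+ ℝ)
    (T : Finset F) : ∀ X : S.L →+ ℝ,
    S.E0 (fun z => Real.cos (X z) * Real.exp (-(∑ o ∈ T, ℓ o z ^ 2) / 2))
      ≤ S'.E0 fun z => Real.cos (X (r.psi z)) * Real.exp (-(∑ o ∈ T, ℓ o (r.psi z) ^ 2) / 2) := by
  classical
  induction T using Finset.induction_on with
  | empty =>
    intro X
    simpa [LSys.phi] using lsys_phi_mono r hS hS' X
  | insert o T ho ih =>
    intro X
    have hG : ∀ z : S.L, |Real.exp (-(∑ o ∈ T, ℓ o z ^ 2) / 2)| ≤ 1 := fun z => by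
      rw [abs_of_pos (Real.exp_pos _), Real.exp_le_one_iff]
      have : 0 ≤ ∑ o ∈ T, ℓ o z ^ 2 := Finset.sum_nonneg fun o _ => sq_nonneg _
      linarith
    have e : ∀ z : S.L, Real.exp (-(∑ o ∈ insert o T, ℓ o z ^ 2) / 2)
        = Real.exp (-(∑ o ∈ T, ℓ o z ^ 2) / 2) * Real.exp (-(ℓ o z ^ 2) / 2) := fun z => by
      rw [Finset.sum_insert ho, ← Real.exp_add]
      congr 1
      ring
    simp only [e]
    obtain ⟨h1, i1⟩ := gm_step hS X (ℓ o) (fun z => Real.exp (-(∑ o ∈ T, ℓ o z ^ 2) / 2)) hG
    obtain ⟨h2, i2⟩ := gm_step hS' (X.comp r.psi) ((ℓ o).comp r.psi)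
      (fun z => Real.exp (-(∑ o ∈ T, ℓ o (r.psi z) ^ 2) / 2)) fun z => hG (r.psi z)
    simp only [AddMonoidHom.comp_apply] at h2
    rw [h1, h2]
    refine integral_mono i1 i2 fun s => ?_
    refine mul_le_mul_of_nonneg_right ?_ (pn_bd_gd_pos s).le
    exact ih (X + s • ℓ o)

/-- **the centred expectation of a centred Gaussian weight of real statistics increases with precision.** -/
theorem lsys_gau_mono {S S' : LSys} (r : LSys.Ref S S') (hS : S.Ok) (hS' : S'.Ok) {F : Type} [Fintype F]
    (ℓ : F → S.L →+ ℝ) :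
    S.E0 (fun z => Real.exp (-(∑ o, ℓ o z ^ 2) / 2)) ≤ S'.E0 fun z => Real.exp (-(∑ o, ℓ o (r.psi z) ^ 2) / 2) := by
  simpa using gm_main r hS hS' ℓ Finset.univ 0

end

end Claimed.Agent.R285.Rsd
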