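import Mathlib

/-!
# ROW 285, package BP-RSD-C, file 1: the abstract unfolding functional (owner helper170)

`Ω = D × (ι → ℝ)` (`D` a discrete commutative group, `ι` finite), `unf f = ∑_d ∫ f(d,c) dc` with values in `[0,∞]`.
A countable group `Z` acts through an additive map `i : Z →+ Ω`.

* `unf_adjoint` : `unf (σ · ∑_z h(· + i z)) = unf ((∑_z σ(· - i z)) · h)`   (Tonelli + translation invariance);
* `unf_unfold`  : `unf h = unf ((a / ā) · h̄)` when `0 < ā < ∞`  (`ā = ∑_z a(· + i z)`: the partition of unity `a / ā`);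
* `unf_ratio`   : `a` even and `2 P ā(x) ≤ Q (h̄(x) + h̄(-x))` for all `x`  ⟹  `P · unf a ≤ Q · unf h`;
* `unf_le_of_bar_le` : `h̄ ≤ C ā`  ⟹  `unf h ≤ C · unf a`;
* `unf_sub_partition` : `∑_z σ(x - i z) ≤ 1`  ⟹  `unf (σ · ā) ≤ unf a`;
* `cs_ennreal_tsum_pi` : `∑_{j : ι → κ} ∏_i f i (j i) = ∏_i ∑_k f i k`.
No quotient groups, no fundamental domains.
-/

set_option autoImplicit false
set_option linter.unusedSectionVars false

namespace Claimed.Agent.R285.Rsd

open MeasureTheory ENNReal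

noncomputable section

variable {D : Type*} {ι : Type*} [Fintype ι]

/-- the unfolding functional: sum over the discrete part, Lebesgue integral over the real part -/
def unf (f : D × (ι → ℝ) → ℝ≥0∞) : ℝ≥0∞ := ∑' d : D, ∫⁻ c : ι → ℝ, f (d, c)

/-- measurability in the real variable -/
def MeasC (f : D × (ι → ℝ) → ℝ≥0∞) : Prop := ∀ d : D, Measurable fun c : ι → ℝ => f (d, c)

theorem unf_mono {f g : D × (ι → ℝ) → ℝ≥0∞} (h : ∀ x, f x ≤ g x) : unf f ≤ unf g :=
  ENNReal.tsum_le_tsum fun d => lintegral_mono fun c => h (d, c)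

theorem unf_congr {f g : D × (ι → ℝ) → ℝ≥0∞} (h : ∀ x, f x = g x) : unf f = unf g := by
  have : f = g := funext h
  rw [this]

theorem unf_const_mul (a : ℝ≥0∞) {f : D × (ι → ℝ) → ℝ≥0∞} (hf : MeasC f) :
    unf (fun x => a * f x) = a * unf f := by
  unfold unf
  rw [← ENNReal.tsum_mul_left]
  exact tsum_congr fun d => lintegral_const_mul a (hf d)

theorem unf_add {f g : D × (ι → ℝ) → ℝ≥0∞} (hf : MeasC f) :
    unf (fun x => f x + g x) = unf f + unf g := by
  unfold unf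
  rw [← ENNReal.tsum_add]
  exact tsum_congr fun d => lintegral_add_left (hf d) _

theorem unf_tsum {Z : Type*} [Countable Z] (f : Z → D × (ι → ℝ) → ℝ≥0∞) (hf : ∀ z, MeasC (f z)) :
    unf (fun x => ∑' z, f z x) = ∑' z, unf (f z) := by
  unfold unf
  rw [ENNReal.tsum_comm]
  exact tsum_congr fun d => lintegral_tsum fun z => (hf z d).aemeasurable

theorem MeasC.mul {f g : D × (ι → ℝ) → ℝ≥0∞} (hf : MeasC f) (hg : MeasC g) :
    MeasC fun x => f x * g x := fun d => (hf d).mul (hg d)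

theorem MeasC.add {f g : D × (ι → ℝ) → ℝ≥0∞} (hf : MeasC f) (hg : MeasC g) :
    MeasC fun x => f x + g x := fun d => (hf d).add (hg d)

theorem MeasC.div {f g : D × (ι → ℝ) → ℝ≥0∞} (hf : MeasC f) (hg : MeasC g) :
    MeasC fun x => f x / g x := fun d => (hf d).div (hg d)

theorem MeasC.const_mul (a : ℝ≥0∞) {f : D × (ι → ℝ) → ℝ≥0∞} (hf : MeasC f) :
    MeasC fun x => a * f x := fun d => (hf d).const_mul a

theorem MeasC.tsum {Z : Type*} [Countable Z] {f : Z → D × (ι → ℝ) → ℝ≥0∞} (hf : ∀ z, MeasC (f z)) :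
    MeasC fun x => ∑' z, f z x := fun d => Measurable.tsum fun z => hf z d

variable [AddCommGroup D]

theorem MeasC.add_right {f : D × (ι → ℝ) → ℝ≥0∞} (hf : MeasC f) (x₀ : D × (ι → ℝ)) :
    MeasC fun x => f (x + x₀) := fun d =>
  (hf (d + x₀.1)).comp (measurable_id.add_const x₀.2)

theorem MeasC.sub_right {f : D × (ι → ℝ) → ℝ≥0∞} (hf : MeasC f) (x₀ : D × (ι → ℝ)) :
    MeasC fun x => f (x - x₀) := fun d =>
  (hf (d - x₀.1)).comp (measurable_id.sub_const x₀.2)

theorem MeasC.neg {f : D × (ι → ℝ) → ℝ≥0∞} (hf : MeasC f) :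
    MeasC fun x => f (-x) := fun d => (hf (-d)).comp measurable_neg

theorem unf_add_right (f : D × (ι → ℝ) → ℝ≥0∞) (x₀ : D × (ι → ℝ)) :
    unf (fun x => f (x + x₀)) = unf f := by
  unfold unf
  rw [← (Equiv.addRight x₀.1).tsum_eq fun d => ∫⁻ c : ι → ℝ, f (d, c)]
  refine tsum_congr fun d => ?_
  exact lintegral_add_right_eq_self (fun c => f (d + x₀.1, c)) x₀.2

theorem unf_neg (f : D × (ι → ℝ) → ℝ≥0∞) : unf (fun x => f (-x)) = unf f := by
  unfold unf
  rw [← (Equiv.neg D).tsum_eq fun d => ∫⁻ c : ι → ℝ, f (d, c)]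
  refine tsum_congr fun d => ?_
  exact lintegral_neg_eq_self (fun c => f (-d, c))

variable {Z : Type*} [AddCommGroup Z] [Countable Z] (i : Z →+ D × (ι → ℝ))

/-- periodisation -/
def bar (h : D × (ι → ℝ) → ℝ≥0∞) (x : D × (ι → ℝ)) : ℝ≥0∞ := ∑' z : Z, h (x + i z)

theorem MeasC.bar {h : D × (ι → ℝ) → ℝ≥0∞} (hh : MeasC h) : MeasC (bar i h) :=
  MeasC.tsum fun z => hh.add_right (i z)

theorem bar_add (h : D × (ι → ℝ) → ℝ≥0∞) (x : D × (ι → ℝ)) (z₀ : Z) : bar i h (x + i z₀) = bar i h x := by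
  unfold bar
  rw [← (Equiv.addLeft z₀).tsum_eq fun z => h (x + i z)]
  refine tsum_congr fun z => ?_
  simp [add_assoc]

theorem bar_sub (h : D × (ι → ℝ) → ℝ≥0∞) (x : D × (ι → ℝ)) (z₀ : Z) : bar i h (x - i z₀) = bar i h x := by
  have := bar_add i h (x - i z₀) z₀
  rw [sub_add_cancel] at this
  exact this.symm

theorem bar_eq_sub (h : D × (ι → ℝ) → ℝ≥0∞) (x : D × (ι → ℝ)) : bar i h x = ∑' z : Z, h (x - i z) := by
  unfold bar
  rw [← (Equiv.neg Z).tsum_eq fun z => h (x + i z)]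
  refine tsum_congr fun z => ?_
  simp [sub_eq_add_neg]

theorem bar_neg {h : D × (ι → ℝ) → ℝ≥0∞} (hev : ∀ x, h (-x) = h x) (x : D × (ι → ℝ)) :
    bar i h (-x) = bar i h x := by
  rw [bar_eq_sub i h x]
  unfold bar
  refine tsum_congr fun z => ?_
  rw [← hev]
  congr 1
  abel

/-- **adjoint lemma** -/
theorem unf_adjoint {σ h : D × (ι → ℝ) → ℝ≥0∞} (hσ : MeasC σ) (hh : MeasC h) :
    unf (fun x => σ x * bar i h x) = unf fun x => (∑' z : Z, σ (x - i z)) * h x := by
  calc unf (fun x => σ x * bar i h x) = unf (fun x => ∑' z : Z, σ x * h (x + i z)) :=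
        unf_congr fun x => by rw [bar, ENNReal.tsum_mul_left]
    _ = ∑' z : Z, unf (fun x => σ x * h (x + i z)) := unf_tsum _ fun z => hσ.mul (hh.add_right (i z))
    _ = ∑' z : Z, unf (fun x => σ (x - i z) * h x) := by
        refine tsum_congr fun z => ?_
        rw [← unf_add_right (fun x => σ (x - i z) * h x) (i z)]
        exact unf_congr fun x => by simp
    _ = unf (fun x => ∑' z : Z, σ (x - i z) * h x) :=
        (unf_tsum _ fun z => (hσ.sub_right (i z)).mul hh).symm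
    _ = _ := unf_congr fun x => by rw [ENNReal.tsum_mul_right]

/-- **unfolding with the partition of unity `a / ā`** -/
theorem unf_unfold {a h : D × (ι → ℝ) → ℝ≥0∞} (ha : MeasC a) (hh : MeasC h)
    (h0 : ∀ x, bar i a x ≠ 0) (h1 : ∀ x, bar i a x ≠ ∞) :
    unf (fun x => a x / bar i a x * bar i h x) = unf h := by
  rw [unf_adjoint i (ha.div (ha.bar i)) hh]
  refine unf_congr fun x => ?_
  have : ∑' z : Z, a (x - i z) / bar i a (x - i z) = 1 := by
    simp_rw [bar_sub, div_eq_mul_inv]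
    rw [ENNReal.tsum_mul_right, ← bar_eq_sub]
    exact ENNReal.mul_inv_cancel (h0 x) (h1 x)
  rw [this, one_mul]

/-- `h̄ ≤ C ā` implies `unf h ≤ C unf a` -/
theorem unf_le_of_bar_le {a h : D × (ι → ℝ) → ℝ≥0∞} (ha : MeasC a) (hh : MeasC h)
    (h0 : ∀ x, bar i a x ≠ 0) (h1 : ∀ x, bar i a x ≠ ∞) (C : ℝ≥0∞)
    (hle : ∀ x, bar i h x ≤ C * bar i a x) : unf h ≤ C * unf a := by
  rw [← unf_unfold i ha hh h0 h1, ← unf_unfold i ha ha h0 h1,
    ← unf_const_mul C ((ha.div (ha.bar i)).mul (ha.bar i))]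
  refine unf_mono fun x => ?_
  calc a x / bar i a x * bar i h x ≤ a x / bar i a x * (C * bar i a x) := by gcongr; exact hle x
    _ = C * (a x / bar i a x * bar i a x) := by ring

/-- **the coset inequality** -/
theorem unf_ratio {a h : D × (ι → ℝ) → ℝ≥0∞} (ha : MeasC a) (hh : MeasC h)
    (h0 : ∀ x, bar i a x ≠ 0) (h1 : ∀ x, bar i a x ≠ ∞) (hev : ∀ x, a (-x) = a x) (P Q : ℝ≥0∞)
    (hle : ∀ x, 2 * (P * bar i a x) ≤ Q * (bar i h x + bar i h (-x))) : P * unf a ≤ Q * unf h := by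
  set ρ : D × (ι → ℝ) → ℝ≥0∞ := fun x => a x / bar i a x with hρ
  have hρm : MeasC ρ := ha.div (ha.bar i)
  have hρev : ∀ x, ρ (-x) = ρ x := fun x => by simp only [hρ, hev, bar_neg i hev]
  have hm1 : MeasC fun x => ρ x * bar i h x := hρm.mul (hh.bar i)
  have e1 : unf (fun x => ρ x * bar i h (-x)) = unf h := by
    rw [← unf_unfold i ha hh h0 h1, ← unf_neg fun x => a x / bar i a x * bar i h x]
    exact unf_congr fun x => by rw [← hρev x]
  have key : 2 * (P * unf a) ≤ 2 * (Q * unf h) := by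
    calc 2 * (P * unf a) = unf (fun x => ρ x * (2 * (P * bar i a x))) := by
          rw [← unf_unfold i ha ha h0 h1, ← unf_const_mul P (hρm.mul (ha.bar i)),
            ← unf_const_mul 2 ((hρm.mul (ha.bar i)).const_mul P)]
          exact unf_congr fun x => by ring
      _ ≤ unf (fun x => ρ x * (Q * (bar i h x + bar i h (-x)))) :=
          unf_mono fun x => mul_le_mul_right (hle x) _
      _ = unf (fun x => Q * (ρ x * bar i h x + ρ x * bar i h (-x))) := unf_congr fun x => by ring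
      _ = Q * (unf (fun x => ρ x * bar i h x) + unf fun x => ρ x * bar i h (-x)) := by
          rw [unf_const_mul Q (hm1.add (hρm.mul (hh.bar i).neg)), unf_add hm1]
      _ = 2 * (Q * unf h) := by
          rw [e1, unf_unfold i ha hh h0 h1]; ring
  exact (ENNReal.mul_le_mul_iff_right (by norm_num) (by norm_num)).1 key

/-- a sub-partition of unity loses mass -/
theorem unf_sub_partition {σ a : D × (ι → ℝ) → ℝ≥0∞} (hσ : MeasC σ) (ha : MeasC a)
    (hle : ∀ x, ∑' z : Z, σ (x - i z) ≤ 1) : unf (fun x => σ x * bar i a x) ≤ unf a := by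
  rw [unf_adjoint i hσ ha]
  refine unf_mono fun x => ?_
  calc (∑' z : Z, σ (x - i z)) * a x ≤ 1 * a x := by gcongr; exact hle x
    _ = a x := one_mul _

end

/-! ### sums of products over a finite product -/

theorem cs_ennreal_tsum_pi_fin {κ : Type*} : ∀ (n : ℕ) (f : Fin n → κ → ℝ≥0∞),
    ∑' j : Fin n → κ, ∏ i, f i (j i) = ∏ i, ∑' k, f i k
  | 0, f => by simp
  | n + 1, f => by
    rw [← (Fin.consEquiv fun _ : Fin (n + 1) => κ).tsum_eq, ENNReal.tsum_prod']
    simp only [Fin.prod_univ_succ, Fin.consEquiv_apply, Fin.cons_zero, Fin.cons_succ]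
    simp_rw [ENNReal.tsum_mul_left, cs_ennreal_tsum_pi_fin n fun i => f i.succ, ENNReal.tsum_mul_right]

theorem cs_ennreal_tsum_pi {ι κ : Type*} [Fintype ι] (f : ι → κ → ℝ≥0∞) :
    ∑' j : ι → κ, ∏ i, f i (j i) = ∏ i, ∑' k, f i k := by
  classical
  let e := Fintype.equivFin ι
  rw [← (Equiv.arrowCongr e (Equiv.refl κ)).symm.tsum_eq, ← e.symm.prod_comp,
    ← cs_ennreal_tsum_pi_fin _ fun i => f (e.symm i)]
  refine tsum_congr fun j => ?_
  rw [← e.symm.prod_comp]
  simp [Equiv.arrowCongr]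

end Claimed.Agent.R285.Rsd
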