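import Claimed.Agent.R285.Rsd.KitSum

/-!
# ROW 285, packages BP-RSD-C / BP-RSD-M, file 0: elementary identities for `LSys` (owner helper170).
Upstream: `Rsd.lsys_summable`, `Rsd.lsys_pos` (package K, PROVED in `Rsd/KitSum.lean`), `bes_pos`, `bes_neg`.  NO use of the master inequality: `Rsd/Master.lean` imports this file.
-/

set_option autoImplicit false
set_option linter.unusedSectionVars false

namespace Claimed.Agent.R285.Rsd

open MeasureTheory ENNReal

noncomputable section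

variable (S : LSys)

theorem cs_W_pos (hb : ∀ e, 0 < S.b e) (z : S.Amb) : 0 < S.W z :=
  mul_pos (Finset.prod_pos fun e _ => bes_pos _ (hb e) _) (Real.exp_pos _)

theorem cs_W_neg (z : S.Amb) : S.W (-z) = S.W z := by
  unfold LSys.W
  simp [bes_neg]

theorem cs_w_eq (α : S.Amb) : S.w α = ∑' z : S.L, S.W ((z : S.Amb) + α) := by
  simp [LSys.w, LSys.Zf]

theorem cs_wT_eq (α : S.Amb) (Y : S.L →+ ℝ) :
    S.wT α Y = ∑' z : S.L, Real.exp (Y z) * S.W ((z : S.Amb) + α) := rfl

theorem cs_wT_zero (α : S.Amb) : S.wT α 0 = S.w α := by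
  simp [LSys.wT, LSys.w]

variable {S}

theorem cs_summable_W (hS : S.Ok) (α : S.Amb) : Summable fun z : S.L => S.W ((z : S.Amb) + α) := by
  simpa using lsys_summable S hS α 0

theorem cs_w_pos (hS : S.Ok) (α : S.Amb) : 0 < S.w α := by
  rw [← cs_wT_zero]; exact lsys_pos S hS α 0

theorem cs_countable (hS : S.Ok) : Countable S.L := by
  have h := (cs_summable_W hS 0).countable_support
  have hu : Function.support (fun z : S.L => S.W ((z : S.Amb) + 0)) = Set.univ := by
    ext z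
    simp only [Function.mem_support, Set.mem_univ, iff_true]
    exact (cs_W_pos S hS.1 _).ne'
  rw [hu] at h
  exact Set.countable_univ_iff.1 h

theorem cs_wC_zero (α : S.Amb) (Y : S.L →+ ℝ) : S.wC α Y 0 = ((S.wT α Y : ℝ) : ℂ) := by
  rw [cs_wT_eq, Complex.ofReal_tsum]
  unfold LSys.wC
  refine tsum_congr fun z => ?_
  simp

theorem cs_phi_eq (X : S.L →+ ℝ) : S.phi X = (∑' z : S.L, Real.cos (X z) * S.W (z : S.Amb)) / S.w 0 := by
  simp [LSys.phi, LSys.E0, LSys.Ev, LSys.Zf, cs_wT_zero]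

theorem cs_w_mul_phi (hS : S.Ok) (X : S.L →+ ℝ) :
    S.w 0 * S.phi X = ∑' z : S.L, Real.cos (X z) * S.W (z : S.Amb) := by
  rw [cs_phi_eq, mul_div_cancel₀ _ (cs_w_pos hS 0).ne']

theorem cs_phi_zero (hS : S.Ok) : S.phi 0 = 1 := by
  rw [cs_phi_eq]
  have : (∑' z : S.L, Real.cos ((0 : S.L →+ ℝ) z) * S.W (z : S.Amb)) = S.w 0 := by
    rw [cs_w_eq]; simp
  rw [this, div_self (cs_w_pos hS 0).ne']

theorem cs_E0_exp (X : S.L →+ ℝ) : S.E0 (fun z => Real.exp (X z)) = S.wT 0 X / S.w 0 := by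
  simp [LSys.E0, LSys.Ev, LSys.wT, LSys.w]

end

end Claimed.Agent.R285.Rsd
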