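import Claimed.Agent.R285.Rsd.MasterDR
import Claimed.Agent.R285.Rsd.CosetBasic0

/-!
# ROW 285, package BP-RSD-M, file 4: THE MASTER INEQUALITY (owner helper170)

`lsys_master`, `lsys_four`, `lsys_phi_four`, `lsys_phi_affine`: statements verbatim from `Base/Height.lean`.
Upstream: ONLY `lsys_summable`, `lsys_pos` (package K), through `CosetBasic0`.
-/

set_option autoImplicit false

namespace Claimed.Agent.R285.Rsd

noncomputable section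

variable {S : LSys}

/-- the exponential `e^{ζ p + i ξ p}` -/
def chi (ζ ξ : S.L →+ ℝ) (p : S.L) : ℂ := Complex.exp ((ζ p : ℂ) + Complex.I * (ξ p : ℂ))

theorem chi_norm (ζ ξ : S.L →+ ℝ) (p : S.L) : ‖chi ζ ξ p‖ = Real.exp (ζ p) := by
  unfold chi
  rw [Complex.norm_exp]
  simp

theorem chi_conj (ζ ξ : S.L →+ ℝ) (p : S.L) : (starRingEnd ℂ) (chi ζ ξ p) = chi ζ (-ξ) p := by
  unfold chi
  rw [← Complex.exp_conj]
  congr 1
  simp

theorem chi_mul (ζ₁ ζ₂ ξ₁ ξ₂ : S.L →+ ℝ) (u v : S.L) :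
    chi ζ₁ ξ₁ (u + v) * chi ζ₂ ξ₂ (u - v) = chi (ζ₁ + ζ₂) (ξ₁ + ξ₂) u * chi (ζ₁ - ζ₂) (ξ₁ - ξ₂) v := by
  unfold chi
  rw [← Complex.exp_add, ← Complex.exp_add]
  congr 1
  simp only [map_add, map_sub, AddMonoidHom.add_apply, AddMonoidHom.sub_apply]
  push_cast
  ring

theorem ms_wC_eq (α : S.Amb) (Y X : S.L →+ ℝ) :
    S.wC α Y X = ∑' z : S.L, chi Y X z * (S.W ((z : S.Amb) + α) : ℂ) := rfl

theorem ms_wC_summable_norm (hS : S.Ok) (α : S.Amb) (Y X : S.L →+ ℝ) :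
    Summable fun z : S.L => ‖chi Y X z * (S.W ((z : S.Amb) + α) : ℂ)‖ := by
  refine (lsys_summable S hS α Y).congr fun z => ?_
  rw [norm_mul, chi_norm, Complex.norm_real, Real.norm_eq_abs, abs_of_pos (cs_W_pos S hS.1 _)]

/-- the doubling representation of a product of two character sums -/
theorem ms_DR_chi (hS : S.Ok) (a b : S.Amb) (ζ₁ ζ₂ ξ₁ ξ₂ : S.L →+ ℝ) :
    HasSum (fun i : (S.E → ℕ) × Par S =>
        (lam S i.1 : ℂ) * amp S i (a + b) (chi ζ₁ ξ₁) * amp S i (a - b) (chi ζ₂ ξ₂))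
      (S.wC a (ζ₁ + ζ₂) (ξ₁ + ξ₂) * S.wC b (ζ₁ - ζ₂) (ξ₁ - ξ₂)) := by
  have hs : Summable fun x : S.L × S.L =>
      S.W ((x.1 : S.Amb) + a) * S.W ((x.2 : S.Amb) + b) * (‖chi ζ₁ ξ₁ (x.1 + x.2)‖ * ‖chi ζ₂ ξ₂ (x.1 - x.2)‖) := by
    have h1 := (lsys_summable S hS a (ζ₁ + ζ₂)).mul_of_nonneg (lsys_summable S hS b (ζ₁ - ζ₂))
      (fun z => mul_nonneg (Real.exp_pos _).le (cs_W_pos S hS.1 _).le)
      (fun z => mul_nonneg (Real.exp_pos _).le (cs_W_pos S hS.1 _).le)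
    refine h1.congr fun x => ?_
    rw [← norm_mul, chi_mul, norm_mul, chi_norm, chi_norm]
    ring
  have h := ms_DR S hS.1 a b (chi ζ₁ ξ₁) (chi ζ₂ ξ₂) hs
  have e : S.wC a (ζ₁ + ζ₂) (ξ₁ + ξ₂) * S.wC b (ζ₁ - ζ₂) (ξ₁ - ξ₂)
      = ∑' x : S.L × S.L, ((S.W ((x.1 : S.Amb) + a) * S.W ((x.2 : S.Amb) + b) : ℝ) : ℂ)
        * (chi ζ₁ ξ₁ (x.1 + x.2) * chi ζ₂ ξ₂ (x.1 - x.2)) := by
    rw [ms_wC_eq, ms_wC_eq, tsum_mul_tsum_of_summable_norm (ms_wC_summable_norm hS _ _ _)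
      (ms_wC_summable_norm hS _ _ _)]
    refine tsum_congr fun x => ?_
    rw [chi_mul]
    push_cast
    ring
  rw [e]
  exact h

/-- the centred character sum is real -/
theorem ms_wC_centred (hS : S.Ok) (X : S.L →+ ℝ) : S.wC 0 0 X = ((S.w 0 * S.phi X : ℝ) : ℂ) := by
  have hsum := (ms_wC_summable_norm hS 0 0 X).of_norm
  have hconj : (starRingEnd ℂ) (S.wC 0 0 X) = S.wC 0 0 X := by
    rw [ms_wC_eq, Complex.conj_tsum, ← (Equiv.neg S.L).tsum_eq]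
    refine tsum_congr fun z => ?_
    rw [map_mul, chi_conj, Complex.conj_ofReal]
    have e1 : chi (0 : S.L →+ ℝ) (-X) ((Equiv.neg S.L) z) = chi 0 X z := by
      unfold chi
      simp
    have e2 : S.W ((((Equiv.neg S.L) z : S.L) : S.Amb) + 0) = S.W ((z : S.Amb) + 0) := by
      rw [add_zero, add_zero]
      exact cs_W_neg S z
    rw [e1, e2]
  have hre : (S.wC 0 0 X).re = S.w 0 * S.phi X := by
    rw [cs_w_mul_phi hS, ms_wC_eq, Complex.re_tsum hsum]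
    refine tsum_congr fun z => ?_
    rw [Complex.re_mul_ofReal, add_zero]
    congr 1
    unfold chi
    rw [Complex.exp_re]
    simp
  rw [← hre]
  exact (Complex.conj_eq_iff_real.1 hconj).choose_spec.symm ▸ by simp

/-- `∑ lam ‖amp‖² ` -/
theorem ms_amp_sq (hS : S.Ok) (s : S.Amb) (ζ ξ : S.L →+ ℝ) :
    HasSum (fun i : (S.E → ℕ) × Par S => lam S i.1 * ‖amp S i s (chi ζ ξ)‖ ^ 2)
      (S.wT s (ζ + ζ) * (S.w 0 * S.phi (ξ + ξ))) := by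
  have h := ms_DR_chi hS s 0 ζ ζ ξ (-ξ)
  rw [add_zero, sub_zero, add_neg_cancel, sub_self, sub_neg_eq_add, cs_wC_zero, ms_wC_centred hS,
    ← Complex.ofReal_mul] at h
  rw [← Complex.hasSum_ofReal]
  refine ms_hasSum_congr h fun i => ?_
  have e : amp S i s (chi ζ (-ξ)) = (starRingEnd ℂ) (amp S i s (chi ζ ξ)) := by
    rw [amp_conj]
    congr 1
    funext p
    rw [chi_conj]
  rw [e, mul_assoc, Complex.mul_conj, Complex.normSq_eq_norm_sq]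
  push_cast
  rfl

/-- **the master inequality** -/
theorem lsys_master (S : LSys) (hS : S.Ok) (α β : S.Amb) (Y Y' X X' : S.L →+ ℝ) :
    ‖S.wC α Y X‖ ^ 2 * ‖S.wC β Y' X'‖ ^ 2 ≤
      S.wT (α + β) (Y + Y') * S.wT (α - β) (Y - Y') * (S.w 0 * S.phi (X + X')) * (S.w 0 * S.phi (X - X')) := by
  set ζ₁ : S.L →+ ℝ := (2⁻¹ : ℝ) • (Y + Y') with hζ₁
  set ζ₂ : S.L →+ ℝ := (2⁻¹ : ℝ) • (Y - Y') with hζ₂
  set ξ₁ : S.L →+ ℝ := (2⁻¹ : ℝ) • (X + X') with hξ₁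
  set ξ₂ : S.L →+ ℝ := (2⁻¹ : ℝ) • (X - X') with hξ₂
  have half : ∀ A B : S.L →+ ℝ, (2⁻¹ : ℝ) • (A + B) + (2⁻¹ : ℝ) • (A - B) = A := by
    intro A B
    ext z
    simp only [AddMonoidHom.add_apply, AddMonoidHom.smul_apply, AddMonoidHom.sub_apply, smul_eq_mul]
    ring
  have half' : ∀ A B : S.L →+ ℝ, (2⁻¹ : ℝ) • (A + B) - (2⁻¹ : ℝ) • (A - B) = B := by
    intro A B
    ext z
    simp only [AddMonoidHom.add_apply, AddMonoidHom.smul_apply, AddMonoidHom.sub_apply, smul_eq_mul]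
    ring
  have dbl' : ∀ A : S.L →+ ℝ, (2⁻¹ : ℝ) • A + (2⁻¹ : ℝ) • A = A := by
    intro A
    ext z
    simp only [AddMonoidHom.add_apply, AddMonoidHom.smul_apply, smul_eq_mul]
    ring
  have hP := ms_DR_chi hS α β ζ₁ ζ₂ ξ₁ ξ₂
  rw [hζ₁, hζ₂, hξ₁, hξ₂, half, half, half', half', ← hζ₁, ← hζ₂, ← hξ₁, ← hξ₂] at hP
  have hA := ms_amp_sq hS (α + β) ζ₁ ξ₁
  have hB := ms_amp_sq hS (α - β) ζ₂ ξ₂
  rw [hζ₁, hξ₁, dbl', dbl', ← hζ₁, ← hξ₁] at hA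
  rw [hζ₂, hξ₂, dbl', dbl', ← hζ₂, ← hξ₂] at hB
  have h := ms_cauchy_schwarz (fun i : (S.E → ℕ) × Par S => lam S i.1) (fun i => (lam_pos S hS.1 _).le)
    (fun i => amp S i (α + β) (chi ζ₁ ξ₁)) (fun i => amp S i (α - β) (chi ζ₂ ξ₂)) hP hA hB
  rw [norm_mul, mul_pow] at h
  calc _ ≤ _ := h
    _ = _ := by ring

/-- **RSD four point inequality** -/
theorem lsys_four (S : LSys) (hS : S.Ok) (α β : S.Amb) :
    S.w α ^ 2 * S.w β ^ 2 ≤ S.w 0 ^ 2 * S.w (α + β) * S.w (α - β) := by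
  have hm := lsys_master S hS α β 0 0 0 0
  simp only [cs_wC_zero, add_zero, sub_zero, cs_phi_zero hS, mul_one, Complex.norm_real,
    Real.norm_eq_abs, sq_abs, cs_wT_zero] at hm
  calc _ ≤ _ := hm
    _ = _ := by ring

/-- four point inequality for the characteristic coefficients -/
theorem lsys_phi_four (S : LSys) (hS : S.Ok) (X Y : S.L →+ ℝ) :
    S.phi X ^ 2 * S.phi Y ^ 2 ≤ S.phi (X + Y) * S.phi (X - Y) := by
  have hm := lsys_master S hS 0 0 0 0 X Y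
  simp only [ms_wC_centred hS, add_zero, sub_zero, Complex.norm_real, Real.norm_eq_abs, sq_abs,
    cs_wT_zero] at hm
  have h0 := cs_w_pos hS 0
  have h4 : 0 < S.w 0 ^ 4 := by positivity
  have : S.w 0 ^ 4 * (S.phi X ^ 2 * S.phi Y ^ 2) ≤ S.w 0 ^ 4 * (S.phi (X + Y) * S.phi (X - Y)) := by
    calc _ = (S.w 0 * S.phi X) ^ 2 * (S.w 0 * S.phi Y) ^ 2 := by ring
      _ ≤ _ := hm
      _ = _ := by ring
  exact le_of_mul_le_mul_left this h4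

theorem ms_phi_nonneg (hS : S.Ok) (X : S.L →+ ℝ) : 0 ≤ S.phi X := by
  have h := lsys_phi_four S hS ((2⁻¹ : ℝ) • X) ((2⁻¹ : ℝ) • X)
  have h1 : (2⁻¹ : ℝ) • X + (2⁻¹ : ℝ) • X = X := by
    rw [← add_smul]; norm_num
  rw [h1, sub_self, cs_phi_zero hS, mul_one] at h
  exact le_trans (by positivity) h

/-- a characteristic coefficient on a translate, with a tilt, is at most the centred one -/
theorem ms_char_bound (hS : S.Ok) (α : S.Amb) (Y X : S.L →+ ℝ) : ‖S.wC α Y X‖ ≤ S.wT α Y * S.phi X := by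
  have hm := lsys_master S hS α 0 Y 0 X 0
  simp only [cs_wC_zero, add_zero, sub_zero, Complex.norm_real, Real.norm_eq_abs, sq_abs, cs_wT_zero] at hm
  have h0 := cs_w_pos hS 0
  have hT := lsys_pos S hS α Y
  have hφ := ms_phi_nonneg hS X
  have h1 : ‖S.wC α Y X‖ ^ 2 * S.w 0 ^ 2 ≤ (S.wT α Y * S.phi X) ^ 2 * S.w 0 ^ 2 := by
    calc ‖S.wC α Y X‖ ^ 2 * S.w 0 ^ 2 ≤ _ := hm
      _ = _ := by ring
  have h2 : ‖S.wC α Y X‖ ^ 2 ≤ (S.wT α Y * S.phi X) ^ 2 := le_of_mul_le_mul_right h1 (by positivity)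
  exact (abs_le_of_sq_le_sq' h2 (mul_nonneg hT.le hφ)).2

/-- a characteristic coefficient on a translate is at most the centred one -/
theorem lsys_phi_affine (S : LSys) (hS : S.Ok) (α : S.Amb) (X : S.L →+ ℝ) : ‖S.wC α 0 X‖ ≤ S.w α * S.phi X := by
  have h := ms_char_bound hS α 0 X
  rwa [cs_wT_zero] at h

end

end Claimed.Agent.R285.Rsd
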