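import Claimed.Agent.R285.Rsd.Master

/-!
# ROW 285, package BP-RSD-C, file 2: the pointwise consequences of the master inequality (owner helper170).
Upstream: `lsys_summable`, `lsys_pos` (package K, still from `Base/Height`), `Rsd.lsys_master`, `Rsd.lsys_phi_affine` (PROVED in `Rsd/Master.lean`).
-/

set_option autoImplicit false
set_option linter.unusedSectionVars false

namespace Claimed.Agent.R285.Rsd

open MeasureTheory ENNReal

noncomputable section

variable {S : LSys}

/-- master inequality with `β = y`, no characters, followed by AM-GM with a free weight `e^{±t}`. -/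
theorem cs_master_amgm (hS : S.Ok) (α y : S.Amb) (Y : S.L →+ ℝ) (t : ℝ) :
    2 * (S.wT α Y * S.w y) ≤
      S.w 0 * (Real.exp t * S.wT (α + y) Y + Real.exp (-t) * S.wT (α - y) Y) := by
  have hm := lsys_master S hS α y Y 0 0 0
  simp only [cs_wC_zero, add_zero, sub_zero, cs_phi_zero hS, mul_one, Complex.norm_real,
    Real.norm_eq_abs, sq_abs, cs_wT_zero] at hm
  have hA := lsys_pos S hS (α + y) Y
  have hB := lsys_pos S hS (α - y) Y
  have hp := lsys_pos S hS α Y
  have hy := cs_w_pos hS y
  have h0 := cs_w_pos hS 0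
  set A := S.wT (α + y) Y
  set B := S.wT (α - y) Y
  set p := S.wT α Y
  set q := S.w 0
  set u := S.w y
  have he : Real.exp t * Real.exp (-t) = 1 := by rw [← Real.exp_add]; simp
  have hsq : (2 * (p * u)) ^ 2 ≤ (q * (Real.exp t * A + Real.exp (-t) * B)) ^ 2 := by
    have h1 : 4 * (A * B) ≤ (Real.exp t * A + Real.exp (-t) * B) ^ 2 := by
      have : 4 * (A * B) = 4 * ((Real.exp t * A) * (Real.exp (-t) * B)) := by
        calc 4 * (A * B) = 4 * ((Real.exp t * Real.exp (-t)) * (A * B)) := by rw [he, one_mul]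
          _ = _ := by ring
      rw [this]
      nlinarith [sq_nonneg (Real.exp t * A - Real.exp (-t) * B)]
    calc (2 * (p * u)) ^ 2 = 4 * (p ^ 2 * u ^ 2) := by ring
      _ ≤ 4 * (A * B * q * q) := by linarith
      _ = q ^ 2 * (4 * (A * B)) := by ring
      _ ≤ q ^ 2 * (Real.exp t * A + Real.exp (-t) * B) ^ 2 := by gcongr
      _ = _ := by ring
  have hr : 0 ≤ q * (Real.exp t * A + Real.exp (-t) * B) := by positivity
  exact abs_le_of_sq_le_sq' hsq hr |>.2

theorem cs_phi_nonneg (hS : S.Ok) (X : S.L →+ ℝ) : 0 ≤ S.phi X := by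
  have h := (norm_nonneg _).trans (lsys_phi_affine S hS 0 X)
  exact nonneg_of_mul_nonneg_right h (cs_w_pos hS 0)

theorem cs_summable_cos (hS : S.Ok) (y : S.Amb) (X : S.L →+ ℝ) (t : ℝ) :
    Summable fun z : S.L => Real.cos (t + X z) * S.W ((z : S.Amb) + y) := by
  refine Summable.of_norm_bounded (cs_summable_W hS y) fun z => ?_
  rw [norm_mul, Real.norm_eq_abs, Real.norm_eq_abs, abs_of_pos (cs_W_pos S hS.1 _)]
  exact mul_le_of_le_one_left (cs_W_pos S hS.1 _).le (Real.abs_cos_le_one _)

/-- a character sum on a translate, with an arbitrary phase, is at most `w(y) φ(X)`. -/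
theorem cs_cos_shift_le (hS : S.Ok) (y : S.Amb) (X : S.L →+ ℝ) (t : ℝ) :
    ∑' z : S.L, Real.cos (t + X z) * S.W ((z : S.Amb) + y) ≤ S.w y * S.phi X := by
  have hsum : Summable fun z : S.L =>
      Complex.exp ((((0 : S.L →+ ℝ) z : ℝ) : ℂ) + Complex.I * (X z : ℂ)) * (S.W ((z : S.Amb) + y) : ℂ) := by
    refine Summable.of_norm_bounded (cs_summable_W hS y) fun z => ?_
    rw [norm_mul, Complex.norm_real, Real.norm_eq_abs, abs_of_pos (cs_W_pos S hS.1 _), Complex.norm_exp]
    simp
  have e : ∑' z : S.L, Real.cos (t + X z) * S.W ((z : S.Amb) + y)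
      = (Complex.exp (Complex.I * (t : ℂ)) * S.wC y 0 X).re := by
    unfold LSys.wC
    rw [← tsum_mul_left, Complex.re_tsum (hsum.mul_left _)]
    refine tsum_congr fun z => ?_
    rw [← mul_assoc, ← Complex.exp_add]
    have : Complex.I * (t : ℂ) + ((((0 : S.L →+ ℝ) z : ℝ) : ℂ) + Complex.I * (X z : ℂ))
        = ((t + X z : ℝ) : ℂ) * Complex.I := by
      push_cast
      simp
      ring
    rw [this, Complex.re_mul_ofReal, Complex.exp_ofReal_mul_I_re]
  rw [e]
  calc (Complex.exp (Complex.I * (t : ℂ)) * S.wC y 0 X).re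
      ≤ ‖Complex.exp (Complex.I * (t : ℂ)) * S.wC y 0 X‖ := Complex.re_le_norm _
    _ = ‖S.wC y 0 X‖ := by
        rw [norm_mul, Complex.norm_exp]
        simp
    _ ≤ _ := lsys_phi_affine S hS y X

end

end Claimed.Agent.R285.Rsd
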