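import Claimed.Agent.R285.Rsd.CosetBasic
import Claimed.Agent.R285.Rsd.CosetUnfold

/-!
# ROW 285, package BP-RSD-C, file 3: the unfolding space of a refinement `r : Ref S S'` (owner helper170)

`Om r = (S.L × ℤ^{new E}) × ℝ^{new O}`, `ext : Om r → S'.Amb` (the group `res⁻¹(L)`), `iota : S'.L →+ Om r`,
the factorisation `W'(y) = W(res y) · Wnew(y|new)`, the constant `Gam r = ∑_j ∫ Wnew ∈ (0,∞)`, and
`unf (g(ℓ) W'(ext x + y)) = (∑_ℓ g(ℓ) W(ℓ + res y)) · Gam r`.
-/

set_option autoImplicit false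
set_option linter.unusedSectionVars false

namespace Claimed.Agent.R285.Rsd

open MeasureTheory ENNReal

noncomputable section

/-- splitting a finite product along a bijection from a disjoint sum -/
theorem cs_prod_split_sum {α β γ M : Type*} [Fintype α] [Fintype β] [Fintype γ] [CommMonoid M] (i : α → β)
    (k : γ → β) (hb : Function.Bijective (Sum.elim i k)) (f : β → M) :
    ∏ b, f b = (∏ a, f (i a)) * ∏ c, f (k c) := by
  rw [← Fintype.prod_equiv (Equiv.ofBijective _ hb) (fun x => f (Sum.elim i k x)) f fun x => rfl,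
    Fintype.prod_sum_type]
  rfl

theorem cs_sum_split_sum {α β γ M : Type*} [Fintype α] [Fintype β] [Fintype γ] [AddCommMonoid M] (i : α → β)
    (k : γ → β) (hb : Function.Bijective (Sum.elim i k)) (f : β → M) :
    ∑ b, f b = (∑ a, f (i a)) + ∑ c, f (k c) := by
  rw [← Fintype.sum_equiv (Equiv.ofBijective _ hb) (fun x => f (Sum.elim i k x)) f fun x => rfl,
    Fintype.sum_sum_type]
  rfl

theorem cs_bijective_elim_compl {α β : Type*} (i : α ↪ β) :
    Function.Bijective (Sum.elim i fun c : {b : β // b ∉ Set.range i} => c.1) := by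
  constructor
  · rintro (a | c) (a' | c') h
    · exact congrArg _ (i.injective h)
    · exact absurd ⟨a, h⟩ c'.2
    · exact absurd ⟨a', h.symm⟩ c.2
    · exact congrArg _ (Subtype.ext h)
  · intro b
    by_cases h : b ∈ Set.range i
    · obtain ⟨a, rfl⟩ := h
      exact ⟨Sum.inl a, rfl⟩
    · exact ⟨Sum.inr ⟨b, h⟩, rfl⟩

variable {S S' : LSys} (r : LSys.Ref S S')

/-- the new Bessel coordinates -/
abbrev nE : Type := {e' : S'.E // e' ∉ Set.range r.iE}
/-- the new Gaussian coordinates -/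
abbrev nO : Type := {o' : S'.O // o' ∉ Set.range r.iO}

instance instFintypeNE : Fintype (nE r) := Fintype.ofFinite _
instance instFintypeNO : Fintype (nO r) := Fintype.ofFinite _

/-- the unfolding space -/
abbrev Om : Type := (S.L × (nE r → ℤ)) × (nO r → ℝ)

/-- new integer coordinates of a datum -/
def resE : S'.Amb →+ (nE r → ℤ) where
  toFun y := fun e => y.1 e.1
  map_zero' := rfl
  map_add' _ _ := rfl

/-- new real coordinates of a datum -/
def resO : S'.Amb →+ (nO r → ℝ) where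
  toFun y := fun o => y.2 o.1
  map_zero' := rfl
  map_add' _ _ := rfl

/-- a datum is determined by its old and new coordinates -/
theorem amb_ext {y y' : S'.Amb} (h1 : r.res y = r.res y') (h2 : resE r y = resE r y')
    (h3 : resO r y = resO r y') : y = y' := by
  refine Prod.ext (funext fun e' => ?_) (funext fun o' => ?_)
  · by_cases h : e' ∈ Set.range r.iE
    · obtain ⟨e, rfl⟩ := h
      exact congrFun (congrArg Prod.fst h1) e
    · exact congrFun h2 ⟨e', h⟩
  · by_cases h : o' ∈ Set.range r.iO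
    · obtain ⟨o, rfl⟩ := h
      exact congrFun (congrArg Prod.snd h1) o
    · exact congrFun h3 ⟨o', h⟩

open Classical in
/-- the datum with given old and new coordinates -/
def ext (x : Om r) : S'.Amb :=
  (fun e' => if h : e' ∈ Set.range r.iE then (x.1.1 : S.Amb).1 h.choose else x.1.2 ⟨e', h⟩,
   fun o' => if h : o' ∈ Set.range r.iO then (x.1.1 : S.Amb).2 h.choose else x.2 ⟨o', h⟩)

@[simp] theorem res_ext (x : Om r) : r.res (ext r x) = (x.1.1 : S.Amb) := by
  refine Prod.ext (funext fun e => ?_) (funext fun o => ?_)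
  · have h : r.iE e ∈ Set.range r.iE := ⟨e, rfl⟩
    simp [LSys.Ref.res, ext]
  · have h : r.iO o ∈ Set.range r.iO := ⟨o, rfl⟩
    simp [LSys.Ref.res, ext]

@[simp] theorem resE_ext (x : Om r) : resE r (ext r x) = x.1.2 := by
  funext e
  have h : e.1 ∉ Set.range r.iE := e.2
  simp only [resE, ext, AddMonoidHom.coe_mk, ZeroHom.coe_mk, dif_neg h]

@[simp] theorem resO_ext (x : Om r) : resO r (ext r x) = x.2 := by
  funext o
  have h : o.1 ∉ Set.range r.iO := o.2
  simp only [resO, ext, AddMonoidHom.coe_mk, ZeroHom.coe_mk, dif_neg h]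

theorem ext_add (x x' : Om r) : ext r (x + x') = ext r x + ext r x' := by
  apply amb_ext r <;> simp

theorem ext_neg (x : Om r) : ext r (-x) = -ext r x := by
  apply amb_ext r <;> simp

/-- the lattice of `S'` inside the unfolding space -/
def iota : S'.L →+ Om r where
  toFun z := ((r.psi z, resE r z), resO r z)
  map_zero' := by simp
  map_add' z z' := by simp

@[simp] theorem iota_fst_fst (z : S'.L) : (iota r z).1.1 = r.psi z := rfl

theorem ext_iota (z : S'.L) : ext r (iota r z) = (z : S'.Amb) := by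
  apply amb_ext r
  · simp; rfl
  · simp; rfl
  · simp; rfl

/-- the weight of the new coordinates -/
def Wnew (j : nE r → ℤ) (c : nO r → ℝ) : ℝ :=
  (∏ e : nE r, bes (S'.b e.1) (j e)) * Real.exp (-(∑ o : nO r, c o ^ 2) / 2)

theorem cs_W_factor (y : S'.Amb) : S'.W y = S.W (r.res y) * Wnew r (resE r y) (resO r y) := by
  unfold LSys.W Wnew
  have h1 := cs_prod_split_sum r.iE (fun e : nE r => e.1) (cs_bijective_elim_compl r.iE)
    fun e' => bes (S'.b e') (y.1 e')
  have h2 := cs_sum_split_sum r.iO (fun o : nO r => o.1) (cs_bijective_elim_compl r.iO) fun o' => y.2 o' ^ 2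
  rw [h1, h2]
  have e1 : ∏ e, bes (S'.b (r.iE e)) (y.1 (r.iE e)) = ∏ e, bes (S.b e) ((r.res y).1 e) :=
    Finset.prod_congr rfl fun e _ => by rw [r.hb]; rfl
  have e2 : ∑ o, y.2 (r.iO o) ^ 2 = ∑ o, (r.res y).2 o ^ 2 := rfl
  rw [e1, e2, neg_add, add_div, Real.exp_add]
  have e3 : (∏ e : nE r, bes (S'.b e.1) (y.1 e.1)) = ∏ e : nE r, bes (S'.b e.1) (resE r y e) := rfl
  have e4 : (∑ o : nO r, y.2 o.1 ^ 2) = ∑ o : nO r, resO r y o ^ 2 := rfl
  rw [e3, e4]
  ring

theorem W_ext_add (x : Om r) (y : S'.Amb) :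
    S'.W (ext r x + y) = S.W ((x.1.1 : S.Amb) + r.res y) * Wnew r (x.1.2 + resE r y) (x.2 + resO r y) := by
  rw [cs_W_factor r]; simp

theorem Wnew_pos (hb : ∀ e, 0 < S'.b e) (j : nE r → ℤ) (c : nO r → ℝ) : 0 < Wnew r j c :=
  mul_pos (Finset.prod_pos fun _ _ => bes_pos _ (hb _) _) (Real.exp_pos _)

theorem Wnew_measurable (j : nE r → ℤ) : Measurable fun c : nO r → ℝ => Wnew r j c := by
  unfold Wnew
  fun_prop

/-- the total mass of the new coordinates -/
def Gam : ℝ≥0∞ := ∑' j : nE r → ℤ, ∫⁻ c : nO r → ℝ, ENNReal.ofReal (Wnew r j c)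

theorem Gam_shift (j₀ : nE r → ℤ) (c₀ : nO r → ℝ) :
    ∑' j : nE r → ℤ, ∫⁻ c : nO r → ℝ, ENNReal.ofReal (Wnew r (j + j₀) (c + c₀)) = Gam r := by
  unfold Gam
  rw [← (Equiv.addRight j₀).tsum_eq fun j => ∫⁻ c : nO r → ℝ, ENNReal.ofReal (Wnew r j c)]
  refine tsum_congr fun j => ?_
  exact lintegral_add_right_eq_self (fun c => ENNReal.ofReal (Wnew r (j + j₀) c)) c₀

theorem cs_gauss_pi_integrable {ι : Type*} [Fintype ι] :
    Integrable fun c : ι → ℝ => Real.exp (-(∑ o, c o ^ 2) / 2) := by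
  have h := Integrable.fintype_prod (ι := ι) (f := fun _ (t : ℝ) => Real.exp (-(1 / 2) * t ^ 2))
    (μ := fun _ => (volume : Measure ℝ)) fun _ => integrable_exp_neg_mul_sq (by norm_num)
  have e : (fun c : ι → ℝ => Real.exp (-(∑ o, c o ^ 2) / 2))
      = fun c : ι → ℝ => ∏ o, Real.exp (-(1 / 2) * c o ^ 2) := by
    funext c
    rw [← Real.exp_sum, ← Finset.mul_sum]
    congr 1
    ring
  rw [e]
  exact h

theorem cs_bes_tsum_ne_top (b : ℝ) (hb : 0 < b) : ∑' k : ℤ, ENNReal.ofReal (bes b k) ≠ ∞ := by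
  have hs : Summable fun k : ℤ => bes b k := by simpa using bes_summable_exp b hb.le 0
  rw [← ENNReal.ofReal_tsum_of_nonneg (fun k => (bes_pos b hb k).le) hs]
  exact ENNReal.ofReal_ne_top

theorem Gam_ne_top (hb : ∀ e, 0 < S'.b e) : Gam r ≠ ∞ := by
  have e1 : Gam r = (∑' j : nE r → ℤ, ∏ e : nE r, ENNReal.ofReal (bes (S'.b e.1) (j e)))
      * ∫⁻ c : nO r → ℝ, ENNReal.ofReal (Real.exp (-(∑ o : nO r, c o ^ 2) / 2)) := by
    unfold Gam
    rw [← ENNReal.tsum_mul_right]
    refine tsum_congr fun j => ?_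
    unfold Wnew
    rw [← ENNReal.ofReal_prod_of_nonneg fun e _ => (bes_pos _ (hb _) _).le,
      ← lintegral_const_mul' _ _ ENNReal.ofReal_ne_top]
    refine lintegral_congr fun c => ?_
    rw [ENNReal.ofReal_mul (Finset.prod_nonneg fun e _ => (bes_pos _ (hb _) _).le)]
  rw [e1, cs_ennreal_tsum_pi fun (e : nE r) (k : ℤ) => ENNReal.ofReal (bes (S'.b e.1) k)]
  refine ENNReal.mul_ne_top (ENNReal.prod_ne_top fun e _ => cs_bes_tsum_ne_top _ (hb _)) ?_
  exact (cs_gauss_pi_integrable (ι := nO r)).lintegral_lt_top.ne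

theorem Gam_ne_zero (hb : ∀ e, 0 < S'.b e) : Gam r ≠ 0 := by
  have h1 : ∫⁻ c : nO r → ℝ, ENNReal.ofReal (Wnew r 0 c) ≤ Gam r :=
    ENNReal.le_tsum (f := fun j : nE r → ℤ => ∫⁻ c : nO r → ℝ, ENNReal.ofReal (Wnew r j c)) 0
  have h2 : 0 < ∫⁻ c : nO r → ℝ, ENNReal.ofReal (Wnew r 0 c) := by
    rw [lintegral_pos_iff_support (Wnew_measurable r 0).ennreal_ofReal]
    have : Function.support (fun c : nO r → ℝ => ENNReal.ofReal (Wnew r 0 c)) = Set.univ := by
      ext c
      simp [Wnew_pos r hb]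
    rw [this]
    exact isOpen_univ.measure_pos volume Set.univ_nonempty
  exact (h2.trans_le h1).ne'

/-- measurability of the weights on the unfolding space -/
theorem measC_weight (g : S.L → ℝ) (y : S'.Amb) :
    MeasC fun x : Om r => ENNReal.ofReal (g x.1.1 * S'.W (ext r x + y)) := by
  intro d
  simp only [W_ext_add]
  refine Measurable.ennreal_ofReal ?_
  refine Measurable.const_mul (Measurable.const_mul ?_ _) _
  exact (Wnew_measurable r _).comp (measurable_id.add_const _)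

/-- the unfolding functional of a weight -/
theorem unf_weight (hS : ∀ e, 0 < S.b e) (g : S.L → ℝ) (hg : ∀ ℓ, 0 ≤ g ℓ) (y : S'.Amb)
    (hs : Summable fun ℓ : S.L => g ℓ * S.W ((ℓ : S.Amb) + r.res y)) :
    unf (fun x : Om r => ENNReal.ofReal (g x.1.1 * S'.W (ext r x + y)))
      = ENNReal.ofReal (∑' ℓ : S.L, g ℓ * S.W ((ℓ : S.Amb) + r.res y)) * Gam r := by
  have hnn : ∀ ℓ : S.L, 0 ≤ g ℓ * S.W ((ℓ : S.Amb) + r.res y) := fun ℓ =>
    mul_nonneg (hg ℓ) (cs_W_pos S hS _).le
  rw [ENNReal.ofReal_tsum_of_nonneg hnn hs, ← ENNReal.tsum_mul_right]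
  unfold unf
  rw [ENNReal.tsum_prod']
  refine tsum_congr fun ℓ => ?_
  rw [← Gam_shift r (resE r y) (resO r y), ← ENNReal.tsum_mul_left]
  refine tsum_congr fun j => ?_
  rw [← lintegral_const_mul' _ _ ENNReal.ofReal_ne_top]
  refine lintegral_congr fun c => ?_
  show ENNReal.ofReal (g ℓ * S'.W (ext r ((ℓ, j), c) + y)) = _
  rw [W_ext_add, ← mul_assoc, ENNReal.ofReal_mul (hnn ℓ)]

/-- periodisation of a weight -/
theorem bar_weight (hS' : ∀ e, 0 < S'.b e) (G : S.L → ℝ) (hG : ∀ ℓ, 0 ≤ G ℓ) (y : S'.Amb) (x : Om r)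
    (hs : Summable fun z : S'.L => G (x.1.1 + r.psi z) * S'.W ((z : S'.Amb) + (ext r x + y))) :
    bar (iota r) (fun x : Om r => ENNReal.ofReal (G x.1.1 * S'.W (ext r x + y))) x
      = ENNReal.ofReal (∑' z : S'.L, G (x.1.1 + r.psi z) * S'.W ((z : S'.Amb) + (ext r x + y))) := by
  rw [ENNReal.ofReal_tsum_of_nonneg (fun z => mul_nonneg (hG _) (cs_W_pos S' hS' _).le) hs]
  unfold bar
  refine tsum_congr fun z => ?_
  show ENNReal.ofReal (G (x + iota r z).1.1 * S'.W (ext r (x + iota r z) + y)) = _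
  rw [ext_add, ext_iota]
  congr 3
  abel

end

end Claimed.Agent.R285.Rsd
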