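import Claimed.Agent.R285.Base.HeightDefs

/-!
# ROW 285, package BP-RSD-K (helper148), file 1: LATTICES.   Paper-free.

* `kit_subgroup_basis` : every subgroup of `ℤ^ι` (`ι` finite) has a `ℤ`-basis which is linearly independent over `ℝ` (Smith normal form).
* `kit_ok_of_map` : THE criterion for `LSys.Ok`: `S.L = Λ.map g`, `Λ ≤ ℤ^ι`, `S.real ∘ g = T ∘ cast` with `T` real linear and injective on the real span of `Λ`.
* `kit_ok_of_le` : a subgroup of a lattice is a lattice.  `lsys_ok_sub`, `hlaw_ok_of_isEmpty`, `hlaw_ok_of_real_injective` (statements of `Base/Height.lean` verbatim).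
-/

set_option autoImplicit false

namespace Claimed.Agent.R285.Rsd

noncomputable section

/-- cast of integer vectors -/
def kcast (ι : Type*) : (ι → ℤ) →+ (ι → ℝ) where
  toFun c := fun i => (c i : ℝ)
  map_zero' := by ext; simp
  map_add' _ _ := by ext; simp

@[simp] theorem kcast_apply {ι : Type*} (c : ι → ℤ) (i : ι) : kcast ι c i = (c i : ℝ) := rfl

theorem kcast_zsmul {ι : Type*} (k : ℤ) (c : ι → ℤ) : kcast ι (k • c) = (k : ℝ) • kcast ι c := by
  ext i; simp

theorem kit_basis_indep {ι : Type*} [Fintype ι] (bM : Module.Basis ι ℤ (ι → ℤ)) :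
    LinearIndependent ℝ (fun i => kcast ι (bM i)) := by
  classical
  apply linearIndependent_of_top_le_span_of_card_eq_finrank
  · rw [← (Pi.basisFun ℝ ι).span_eq]
    apply Submodule.span_le.2
    rintro _ ⟨k, rfl⟩
    have h := bM.sum_repr (Pi.single k 1)
    have h2 : (Pi.basisFun ℝ ι k) = ∑ i, ((bM.repr (Pi.single k 1) i : ℤ) : ℝ) • kcast ι (bM i) := by
      have h3 := congrArg (kcast ι) h
      rw [map_sum] at h3
      simp only [kcast_zsmul] at h3
      rw [h3]
      ext i
      simp [Pi.single_apply]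
    rw [h2]
    exact Submodule.sum_mem _ fun i _ => Submodule.smul_mem _ _ (Submodule.subset_span ⟨i, rfl⟩)
  · simp

/-- every subgroup of `ℤ^ι` has a `ℤ`-basis which is linearly independent over `ℝ`. -/
theorem kit_subgroup_basis {ι : Type*} [Fintype ι] (Λ : AddSubgroup (ι → ℤ)) :
    ∃ (m : ℕ) (u : Fin m → (ι → ℤ)), LinearIndependent ℝ (fun j => kcast ι (u j)) ∧
      Λ = AddSubgroup.closure (Set.range u) := by
  classical
  obtain ⟨m, snf⟩ := Submodule.smithNormalForm (Pi.basisFun ℤ ι) (AddSubgroup.toIntSubmodule Λ)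
  refine ⟨m, fun j => (snf.bN j : ι → ℤ), ?_, ?_⟩
  · have h1 := (kit_basis_indep snf.bM).comp snf.f snf.f.injective
    have ha : ∀ j, snf.a j ≠ 0 := by
      intro j h0
      have := snf.snf j
      rw [h0, zero_smul] at this
      exact snf.bN.ne_zero j (Subtype.ext this)
    have h2 := h1.units_smul (fun j => Units.mk0 ((snf.a j : ℤ) : ℝ) (by exact_mod_cast ha j))
    convert h2 using 1
    funext j
    show kcast ι (snf.bN j : ι → ℤ) = ((snf.a j : ℤ) : ℝ) • kcast ι (snf.bM (snf.f j))
    rw [snf.snf j, kcast_zsmul]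
  · have h := snf.bN.span_eq
    have h2 := congrArg (Submodule.map (AddSubgroup.toIntSubmodule Λ).subtype) h
    rw [Submodule.map_span, Submodule.map_subtype_top] at h2
    have h3 := congrArg Submodule.toAddSubgroup h2
    rw [Submodule.span_int_eq_addSubgroupClosure] at h3
    rw [← Set.range_comp] at h3
    exact h3.symm

/-- real coordinates as an additive map -/
def realHom (S : LSys) : S.Amb →+ (S.E → ℝ) × (S.O → ℝ) where
  toFun := S.real
  map_zero' := by
    unfold LSys.real
    ext <;> simp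
  map_add' x y := by
    unfold LSys.real
    ext <;> simp

@[simp] theorem realHom_apply (S : LSys) (z : S.Amb) : realHom S z = S.real z := rfl

theorem kit_real_add (S : LSys) (x y : S.Amb) : S.real (x + y) = S.real x + S.real y := (realHom S).map_add x y

theorem kit_real_zsmul (S : LSys) (k : ℤ) (z : S.Amb) : S.real (k • z) = (k : ℝ) • S.real z := by
  unfold LSys.real
  ext <;> simp

theorem kit_real_injective (S : LSys) : Function.Injective S.real := by
  intro x y h
  have h1 : (fun e => ((x.1 e : ℤ) : ℝ)) = fun e => ((y.1 e : ℤ) : ℝ) := congrArg Prod.fst h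
  have h2 : (S.real x).2 = (S.real y).2 := congrArg Prod.snd h
  refine Prod.ext (funext fun e => ?_) h2
  have := congrFun h1 e
  exact_mod_cast this

/-- **the criterion for properness.** -/
theorem kit_ok_of_map (S : LSys) (hb : ∀ e, 0 < S.b e) {ι : Type*} [Fintype ι] (Λ : AddSubgroup (ι → ℤ))
    (g : (ι → ℤ) →+ S.Amb) (T : (ι → ℝ) →ₗ[ℝ] (S.E → ℝ) × (S.O → ℝ))
    (hT : ∀ c, S.real (g c) = T (kcast ι c))
    (hinj : ∀ x ∈ Submodule.span ℝ (kcast ι '' (Λ : Set (ι → ℤ))), T x = 0 → x = 0)
    (hL : S.L = Λ.map g) : S.Ok := by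
  obtain ⟨m, u, hu, hΛ⟩ := kit_subgroup_basis Λ
  refine ⟨hb, m, fun j => g (u j), ?_, ?_⟩
  · have hd : Disjoint (Submodule.span ℝ (Set.range fun j => kcast ι (u j))) (LinearMap.ker T) := by
      rw [Submodule.disjoint_def]
      intro x hx hx2
      refine hinj x (Submodule.span_mono ?_ hx) hx2
      rintro _ ⟨j, rfl⟩
      exact ⟨u j, by rw [hΛ]; exact AddSubgroup.subset_closure ⟨j, rfl⟩, rfl⟩
    have h1 := hu.map hd
    have h2 : (fun j => S.real (g (u j))) = T ∘ fun j => kcast ι (u j) := funext fun j => hT (u j)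
    rw [h2]
    exact h1
  · rw [hL, hΛ, AddMonoidHom.map_closure, ← Set.range_comp]
    rfl

/-- a subgroup of a lattice is a lattice. -/
theorem kit_ok_of_le (S : LSys) (hb : ∀ e, 0 < S.b e) {ι : Type*} [Fintype ι] (v : ι → S.Amb)
    (hv : LinearIndependent ℝ fun i => S.real (v i)) (hL : S.L ≤ AddSubgroup.closure (Set.range v)) : S.Ok := by
  classical
  set g : (ι → ℤ) →+ S.Amb := (Fintype.linearCombination ℤ v).toAddMonoidHom with hg
  have hgc : ∀ c, g c = ∑ i, c i • v i := fun c => Fintype.linearCombination_apply ℤ v c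
  refine kit_ok_of_map S hb (S.L.comap g) g (Fintype.linearCombination ℝ fun i => S.real (v i)) ?_ ?_ ?_
  · intro c
    rw [hgc, Fintype.linearCombination_apply, ← realHom_apply, map_sum]
    refine Finset.sum_congr rfl fun i _ => ?_
    rw [realHom_apply, kit_real_zsmul]
    rfl
  · intro x _ hx
    rw [Fintype.linearCombination_apply] at hx
    exact funext (Fintype.linearIndependent_iff.1 hv x hx)
  · refine (AddSubgroup.map_comap_eq_self (hL.trans ?_)).symm
    rw [AddSubgroup.closure_le]
    rintro _ ⟨i, rfl⟩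
    refine ⟨Pi.single i 1, ?_⟩
    rw [hgc]
    simp [Pi.single_apply]

/-- a subsystem of a proper system is proper -/
theorem lsys_ok_sub (S : LSys) (hS : S.Ok) (M : AddSubgroup S.Amb) : (S.sub M).Ok := by
  obtain ⟨hb, n, v, hv, hL⟩ := hS
  refine kit_ok_of_le (S.sub M) hb v hv ?_
  have h1 : S.L ⊓ M ≤ AddSubgroup.closure (Set.range v) := hL ▸ inf_le_left
  exact h1

/-- without observations every law on a finite graph is proper -/
theorem hlaw_ok_of_isEmpty {G : HGraph} (H : HLaw G) [IsEmpty H.O] (b : ℝ) (hb : 0 < b) : (H.sys b).Ok := by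
  set g : (G.E → ℤ) →+ (H.sys b).Amb := AddMonoidHom.inl (G.E → ℤ) (H.O → ℝ) with hg
  refine kit_ok_of_map (H.sys b) (fun _ => hb) ((H.sys b).L.comap g) g
    (LinearMap.inl ℝ (G.E → ℝ) (H.O → ℝ)) ?_ ?_ ?_
  · intro c
    rfl
  · intro x _ hx
    exact congrArg Prod.fst hx
  · refine (AddSubgroup.map_comap_eq_self_of_surjective ?_ _).symm
    intro z
    exact ⟨z.1, Prod.ext rfl (funext fun o => (IsEmpty.false (α := H.O) o).elim)⟩

/-- the real-linear extension of `HLaw.coord` -/
def coordR {G : HGraph} (H : HLaw G) : (G.V → ℝ) →ₗ[ℝ] (G.E → ℝ) × (H.O → ℝ) where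
  toFun x := (fun e => x (G.tgt e) - x (G.src e), fun o => ∑ v, H.B o v * (2 * Real.pi * x v))
  map_add' x y := by
    ext
    · simp; ring
    · simp [mul_add, Finset.sum_add_distrib]
  map_smul' t x := by
    ext
    · simp; ring
    · simp only [Pi.smul_apply, smul_eq_mul, RingHom.id_apply, Prod.smul_snd, Finset.mul_sum]
      exact Finset.sum_congr rfl fun v _ => by ring

/-- with observations: proper when the real-linear extension of `coord` is injective on the REAL span of `Λ` -/
theorem hlaw_ok_of_real_injective {G : HGraph} (H : HLaw G) (b : ℝ) (hb : 0 < b)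
    (hinj : ∀ g : G.V → ℝ, g ∈ Submodule.span ℝ ((fun h : G.V → ℤ => fun v => (h v : ℝ)) '' (H.Λ : Set (G.V → ℤ))) →
      (∀ e, g (G.tgt e) = g (G.src e)) → (∀ o, ∑ v, H.B o v * g v = 0) → g = 0) : (H.sys b).Ok := by
  refine kit_ok_of_map (H.sys b) (fun _ => hb) H.Λ H.coord (coordR H) ?_ ?_ rfl
  · intro c
    refine Prod.ext (funext fun e => ?_) rfl
    show (((c (G.tgt e) - c (G.src e) : ℤ)) : ℝ) = (c (G.tgt e) : ℝ) - (c (G.src e) : ℝ)
    push_cast
    rfl
  · intro x hx h0
    refine hinj x hx (fun e => ?_) fun o => ?_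
    · have := congrFun (congrArg Prod.fst h0) e
      exact sub_eq_zero.1 this
    · have h1 : ∑ v, H.B o v * (2 * Real.pi * x v) = 0 := congrFun (congrArg Prod.snd h0) o
      have h2 : ∑ v, H.B o v * (2 * Real.pi * x v) = (2 * Real.pi) * ∑ v, H.B o v * x v := by
        rw [Finset.mul_sum]
        exact Finset.sum_congr rfl fun v _ => by ring
      rw [h2] at h1
      exact (mul_eq_zero.1 h1).resolve_left (by positivity)

/-- Stores the on-demand equation lemmas of the definitions above in THIS module (rule 6 hygiene). -/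
theorem kit_lat_forced : True := by
  have := @kcast.eq_1.{0}
  have := @realHom.eq_1
  have := @coordR.eq_1
  trivial

end

end Claimed.Agent.R285.Rsd
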