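import Claimed.Agent.R285.Rsd.KitLat
import Claimed.Agent.R285.Rsd.Bes
import Claimed.Agent.R285.Rsd.CosetUnfold

/-!
# ROW 285, package BP-RSD-K (helper148), file 2: SUMMABILITY.   Paper-free.

`n1 S x = ∑ |x_e| + ∑ |x_o|`.
* `kit_W_le` : `W x ≤ CW t · exp (-t · n1 x)` for every real `t` (superexponential decay of the weight);
* `kit_param` : `S.Ok` ⟹ an additive bijection `g : ℤ^n → L` with `∑ |c_i| ≤ K · n1 (g c)`;
* `kit_test_bound` : `|Y z| ≤ C · n1 z` for every test `Y : L →+ ℝ`;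
* `kit_summable_n1` : `∑_{z ∈ L} exp (-t · n1 z) < ∞` for `t ≥ K`;
* `kit_summable_of_exp_bound` : `|F z| ≤ A exp (c · n1 z)` ⟹ `F · W(· + α)` summable, with a bound LOCALLY UNIFORM in `α`: `kit_dom`;
* `lsys_summable`, `lsys_pos`, `lsys_neg`, `lsys_gauge` (statements of `Base/Height.lean` verbatim).
-/

set_option autoImplicit false

namespace Claimed.Agent.R285.Rsd

open ENNReal

noncomputable section

/-- the `ℓ¹` size of a datum -/
def n1 (S : LSys) (x : S.Amb) : ℝ := ∑ e, |(x.1 e : ℝ)| + ∑ o, |x.2 o|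

theorem n1_nonneg (S : LSys) (x : S.Amb) : 0 ≤ n1 S x :=
  add_nonneg (Finset.sum_nonneg fun _ _ => abs_nonneg _) (Finset.sum_nonneg fun _ _ => abs_nonneg _)

theorem n1_add_le (S : LSys) (x y : S.Amb) : n1 S (x + y) ≤ n1 S x + n1 S y := by
  unfold n1
  have h1 : ∑ e, |((x + y).1 e : ℝ)| ≤ ∑ e, |(x.1 e : ℝ)| + ∑ e, |(y.1 e : ℝ)| := by
    rw [← Finset.sum_add_distrib]
    refine Finset.sum_le_sum fun e _ => ?_
    have : (((x + y).1 e : ℤ) : ℝ) = (x.1 e : ℝ) + (y.1 e : ℝ) := by simp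
    rw [this]
    exact abs_add_le _ _
  have h2 : ∑ o, |(x + y).2 o| ≤ ∑ o, |x.2 o| + ∑ o, |y.2 o| := by
    rw [← Finset.sum_add_distrib]
    exact Finset.sum_le_sum fun o _ => abs_add_le _ _
  linarith

theorem n1_neg (S : LSys) (x : S.Amb) : n1 S (-x) = n1 S x := by
  unfold n1
  simp

theorem n1_zero (S : LSys) : n1 S 0 = 0 := by
  unfold n1
  simp

theorem n1_sub_le (S : LSys) (x α : S.Amb) : n1 S x - n1 S α ≤ n1 S (x + α) := by
  have h := n1_add_le S (x + α) (-α)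
  rw [add_neg_cancel_right, n1_neg] at h
  linarith

theorem norm_real_le_n1 (S : LSys) (x : S.Amb) : ‖S.real x‖ ≤ n1 S x := by
  have hE : 0 ≤ ∑ e, |(x.1 e : ℝ)| := Finset.sum_nonneg fun _ _ => abs_nonneg _
  have hO : 0 ≤ ∑ o, |x.2 o| := Finset.sum_nonneg fun _ _ => abs_nonneg _
  rw [Prod.norm_def]
  refine max_le ?_ ?_
  · rw [pi_norm_le_iff_of_nonneg (n1_nonneg S x)]
    intro e
    have : |(x.1 e : ℝ)| ≤ ∑ e, |(x.1 e : ℝ)| :=
      Finset.single_le_sum (f := fun e => |(x.1 e : ℝ)|) (fun _ _ => abs_nonneg _) (Finset.mem_univ e)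
    show ‖((x.1 e : ℤ) : ℝ)‖ ≤ _
    rw [Real.norm_eq_abs]
    unfold n1
    linarith
  · rw [pi_norm_le_iff_of_nonneg (n1_nonneg S x)]
    intro o
    have : |x.2 o| ≤ ∑ o, |x.2 o| :=
      Finset.single_le_sum (f := fun o => |x.2 o|) (fun _ _ => abs_nonneg _) (Finset.mem_univ o)
    show ‖x.2 o‖ ≤ _
    rw [Real.norm_eq_abs]
    unfold n1
    linarith

/-! ### decay of the weight -/

theorem kit_bes_le (b : ℝ) (hb : 0 ≤ b) (t : ℝ) (k : ℤ) :
    bes b k ≤ Real.exp (b * (Real.cosh t - 1)) * Real.exp (-(t * |(k : ℝ)|)) := by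
  have key : ∀ s : ℝ, Real.cosh s = Real.cosh t → bes b k * Real.exp (s * k) ≤ Real.exp (b * (Real.cosh t - 1)) := by
    intro s hs
    rw [← hs]
    exact le_hasSum (bes_hasSum_exp b s) k fun j _ => mul_nonneg (bes_nonneg b hb j) (Real.exp_pos _).le
  have h2 : bes b k * Real.exp (t * |(k : ℝ)|) ≤ Real.exp (b * (Real.cosh t - 1)) := by
    rcases abs_cases (k : ℝ) with ⟨h, _⟩ | ⟨h, _⟩
    · rw [h]; exact key t rfl
    · rw [h]
      have := key (-t) (Real.cosh_neg t)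
      rwa [neg_mul, ← mul_neg] at this
  rw [Real.exp_neg, ← div_eq_mul_inv, le_div_iff₀ (Real.exp_pos _)]
  exact h2

theorem kit_gauss_le (t x : ℝ) : Real.exp (-(x ^ 2) / 2) ≤ Real.exp (t ^ 2 / 2) * Real.exp (-(t * |x|)) := by
  rw [← Real.exp_add]
  apply Real.exp_le_exp.2
  nlinarith [sq_nonneg (|x| - t), sq_abs x]

/-- the constant in the decay of the weight -/
def CW (S : LSys) (t : ℝ) : ℝ :=
  (∏ e, Real.exp (S.b e * (Real.cosh t - 1))) * ∏ _o : S.O, Real.exp (t ^ 2 / 2)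

theorem CW_pos (S : LSys) (t : ℝ) : 0 < CW S t :=
  mul_pos (Finset.prod_pos fun _ _ => Real.exp_pos _) (Finset.prod_pos fun _ _ => Real.exp_pos _)

theorem kit_W_nonneg (S : LSys) (hb : ∀ e, 0 ≤ S.b e) (x : S.Amb) : 0 ≤ S.W x :=
  mul_nonneg (Finset.prod_nonneg fun e _ => bes_nonneg _ (hb e) _) (Real.exp_pos _).le

theorem kit_W_pos (S : LSys) (hb : ∀ e, 0 < S.b e) (x : S.Amb) : 0 < S.W x :=
  mul_pos (Finset.prod_pos fun e _ => bes_pos _ (hb e) _) (Real.exp_pos _)

theorem kit_W_neg (S : LSys) (x : S.Amb) : S.W (-x) = S.W x := by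
  unfold LSys.W
  simp [bes_neg]

/-- **superexponential decay of the weight.** -/
theorem kit_W_le (S : LSys) (hb : ∀ e, 0 ≤ S.b e) (t : ℝ) (x : S.Amb) :
    S.W x ≤ CW S t * Real.exp (-(t * n1 S x)) := by
  have h1 : ∏ e, bes (S.b e) (x.1 e) ≤
      ∏ e, (Real.exp (S.b e * (Real.cosh t - 1)) * Real.exp (-(t * |(x.1 e : ℝ)|))) :=
    Finset.prod_le_prod (fun e _ => bes_nonneg _ (hb e) _) fun e _ => kit_bes_le _ (hb e) t _
  have h2 : Real.exp (-(∑ o, x.2 o ^ 2) / 2) ≤ ∏ o, (Real.exp (t ^ 2 / 2) * Real.exp (-(t * |x.2 o|))) := by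
    have e : Real.exp (-(∑ o, x.2 o ^ 2) / 2) = ∏ o, Real.exp (-(x.2 o ^ 2) / 2) := by
      rw [← Real.exp_sum, ← Finset.sum_div, Finset.sum_neg_distrib]
    rw [e]
    exact Finset.prod_le_prod (fun o _ => (Real.exp_pos _).le) fun o _ => kit_gauss_le t _
  have h3 : S.W x ≤ (∏ e, (Real.exp (S.b e * (Real.cosh t - 1)) * Real.exp (-(t * |(x.1 e : ℝ)|)))) *
      ∏ o, (Real.exp (t ^ 2 / 2) * Real.exp (-(t * |x.2 o|))) :=
    mul_le_mul h1 h2 (Real.exp_pos _).le (Finset.prod_nonneg fun _ _ => by positivity)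
  refine h3.trans (le_of_eq ?_)
  rw [Finset.prod_mul_distrib, Finset.prod_mul_distrib]
  unfold CW n1
  rw [mul_add, neg_add, Real.exp_add, Finset.mul_sum, Finset.mul_sum, ← Finset.sum_neg_distrib,
    ← Finset.sum_neg_distrib, Real.exp_sum, Real.exp_sum]
  ring

/-! ### parametrisation of the lattice -/

theorem kit_summable_int : Summable fun k : ℤ => Real.exp (-|(k : ℝ)|) := by
  apply Summable.of_nat_of_neg
  · simpa using Real.summable_exp_neg_nat
  · simpa using Real.summable_exp_neg_nat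

theorem kit_summable_pi (ι : Type*) [Fintype ι] : Summable fun c : ι → ℤ => Real.exp (-∑ i, |(c i : ℝ)|) := by
  have h : ∑' c : ι → ℤ, ∏ i, ENNReal.ofReal (Real.exp (-|(c i : ℝ)|)) ≠ ∞ := by
    rw [cs_ennreal_tsum_pi fun (_ : ι) (k : ℤ) => ENNReal.ofReal (Real.exp (-|(k : ℝ)|))]
    refine ENNReal.prod_ne_top fun i _ => ?_
    rw [← ENNReal.ofReal_tsum_of_nonneg (fun k => (Real.exp_pos _).le) kit_summable_int]
    exact ENNReal.ofReal_ne_top
  have h2 := ENNReal.summable_toReal h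
  refine h2.congr fun c => ?_
  rw [ENNReal.toReal_prod, ← Finset.sum_neg_distrib, Real.exp_sum]
  exact Finset.prod_congr rfl fun i _ => ENNReal.toReal_ofReal (Real.exp_pos _).le

/-- **coordinates on a proper lattice.** -/
theorem kit_param (S : LSys) (hS : S.Ok) : ∃ (n : ℕ) (g : (Fin n → ℤ) →+ S.L) (K : ℝ),
    Function.Bijective g ∧ 0 ≤ K ∧ ∀ c, ∑ i, |(c i : ℝ)| ≤ K * n1 S (g c : S.Amb) := by
  obtain ⟨hb, n, v, hv, hL⟩ := hS
  have hvL : ∀ i, v i ∈ S.L := fun i => by rw [hL]; exact AddSubgroup.subset_closure ⟨i, rfl⟩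
  let vL : Fin n → S.L := fun i => ⟨v i, hvL i⟩
  let g : (Fin n → ℤ) →+ S.L := (Fintype.linearCombination ℤ vL).toAddMonoidHom
  have hgc : ∀ c, g c = ∑ i, c i • vL i := fun c => Fintype.linearCombination_apply ℤ vL c
  have hgc' : ∀ c, (g c : S.Amb) = ∑ i, c i • v i := by
    intro c
    rw [hgc, AddSubgroup.val_finsetSum]
    rfl
  let T := Fintype.linearCombination ℝ fun i => S.real (v i)
  have hT : ∀ c, S.real (g c : S.Amb) = T (kcast _ c) := by
    intro c
    rw [hgc', Fintype.linearCombination_apply, ← realHom_apply, map_sum]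
    refine Finset.sum_congr rfl fun i _ => ?_
    rw [realHom_apply, kit_real_zsmul]
    rfl
  have hker : LinearMap.ker T = ⊥ := by
    rw [LinearMap.ker_eq_bot']
    intro x hx
    rw [Fintype.linearCombination_apply] at hx
    exact funext (Fintype.linearIndependent_iff.1 hv x hx)
  obtain ⟨K, hK0, hK⟩ := T.exists_antilipschitzWith hker
  have hbound : ∀ c, ∑ i, |(c i : ℝ)| ≤ (n * K) * n1 S (g c : S.Amb) := by
    intro c
    have h1 := Pi.sum_norm_apply_le_norm (kcast (Fin n) c)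
    have h2 : ‖kcast (Fin n) c‖ ≤ K * ‖T (kcast _ c)‖ := ZeroHomClass.bound_of_antilipschitz T hK _
    rw [← hT] at h2
    have h3 := norm_real_le_n1 S (g c : S.Amb)
    simp only [kcast_apply, Real.norm_eq_abs, Fintype.card_fin, nsmul_eq_mul] at h1
    calc ∑ i, |(c i : ℝ)| ≤ n * ‖kcast (Fin n) c‖ := h1
      _ ≤ n * (K * n1 S (g c : S.Amb)) := by gcongr; exact h2.trans (by gcongr)
      _ = _ := by ring
  refine ⟨n, g, n * K, ⟨?_, ?_⟩, by positivity, hbound⟩
  · rw [injective_iff_map_eq_zero]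
    intro c hc
    have h := hbound c
    rw [hc, AddSubgroup.coe_zero, n1_zero, mul_zero] at h
    funext i
    have h1 : |(c i : ℝ)| ≤ ∑ i, |(c i : ℝ)| :=
      Finset.single_le_sum (f := fun i => |(c i : ℝ)|) (fun _ _ => abs_nonneg _) (Finset.mem_univ i)
    have h2 : |(c i : ℝ)| = 0 := le_antisymm (h1.trans h) (abs_nonneg _)
    exact_mod_cast abs_eq_zero.1 h2
  · intro z
    have hz : (z : S.Amb) ∈ AddSubgroup.closure (Set.range v) := hL ▸ z.2
    rw [← Submodule.span_int_eq_addSubgroupClosure, Submodule.mem_toAddSubgroup,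
      Submodule.mem_span_range_iff_exists_fun] at hz
    obtain ⟨c, hc⟩ := hz
    exact ⟨c, Subtype.ext ((hgc' c).trans hc)⟩

theorem kit_countable (S : LSys) (hS : S.Ok) : Countable S.L := by
  obtain ⟨n, g, K, hg, -, -⟩ := kit_param S hS
  exact hg.2.countable

theorem kit_hom_bound {n : ℕ} (φ : (Fin n → ℤ) →+ ℝ) : ∃ C : ℝ, 0 ≤ C ∧ ∀ c, |φ c| ≤ C * ∑ i, |(c i : ℝ)| := by
  classical
  refine ⟨∑ j, |φ (Pi.single j 1)|, Finset.sum_nonneg fun _ _ => abs_nonneg _, fun c => ?_⟩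
  have h1 : c = ∑ i, c i • (Pi.single i 1 : Fin n → ℤ) := by
    funext j
    simp [Finset.sum_apply, Pi.single_apply]
  have h2 : φ c = ∑ i, (c i : ℝ) * φ (Pi.single i 1) := by
    conv_lhs => rw [h1]
    rw [map_sum]
    exact Finset.sum_congr rfl fun i _ => by rw [map_zsmul, zsmul_eq_mul]
  rw [h2, Finset.mul_sum]
  refine (Finset.abs_sum_le_sum_abs _ _).trans (Finset.sum_le_sum fun i _ => ?_)
  rw [abs_mul, mul_comm]
  refine mul_le_mul_of_nonneg_right ?_ (abs_nonneg _)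
  exact Finset.single_le_sum (f := fun j => |φ (Pi.single j 1)|) (fun _ _ => abs_nonneg _) (Finset.mem_univ i)

/-- **tests are bounded by the size**: `|Y z| ≤ C · n1 z`. -/
theorem kit_test_bound (S : LSys) (hS : S.Ok) (Y : S.L →+ ℝ) :
    ∃ C : ℝ, 0 ≤ C ∧ ∀ z : S.L, |Y z| ≤ C * n1 S (z : S.Amb) := by
  obtain ⟨n, g, K, hg, hK, hb⟩ := kit_param S hS
  obtain ⟨C, hC, hφ⟩ := kit_hom_bound (Y.comp g)
  refine ⟨C * K, by positivity, fun z => ?_⟩
  obtain ⟨c, rfl⟩ := hg.2 z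
  calc |Y (g c)| ≤ C * ∑ i, |(c i : ℝ)| := hφ c
    _ ≤ C * (K * n1 S (g c : S.Amb)) := by gcongr; exact hb c
    _ = _ := by ring

/-- exponential sums over a proper lattice converge. -/
theorem kit_summable_n1 (S : LSys) (hS : S.Ok) :
    ∃ K : ℝ, 0 ≤ K ∧ ∀ t : ℝ, K ≤ t → Summable fun z : S.L => Real.exp (-(t * n1 S (z : S.Amb))) := by
  obtain ⟨n, g, K, hg, hK, hb⟩ := kit_param S hS
  refine ⟨K, hK, fun t ht => ?_⟩
  rw [← (Equiv.ofBijective g hg).summable_iff]
  refine Summable.of_nonneg_of_le (fun c => (Real.exp_pos _).le) (fun c => ?_) (kit_summable_pi (Fin n))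
  apply Real.exp_le_exp.2
  have h1 : K * n1 S (g c : S.Amb) ≤ t * n1 S (g c : S.Amb) := by
    gcongr
    exact n1_nonneg S _
  have h2 := hb c
  show -(t * n1 S (g c : S.Amb)) ≤ _
  linarith

/-! ### domination and summability -/

/-- **domination**, explicit in the datum `α` (hence locally uniform in `α`). -/
theorem kit_dom (S : LSys) (hb : ∀ e, 0 ≤ S.b e) (c K : ℝ) (hcK : 0 ≤ c + K) (z α : S.Amb) :
    Real.exp (c * n1 S z) * S.W (z + α) ≤
      CW S (c + K) * Real.exp ((c + K) * n1 S α) * Real.exp (-(K * n1 S z)) := by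
  have h1 := kit_W_le S hb (c + K) (z + α)
  have h2 : Real.exp (-((c + K) * n1 S (z + α))) ≤ Real.exp (-((c + K) * (n1 S z - n1 S α))) := by
    apply Real.exp_le_exp.2
    have := mul_le_mul_of_nonneg_left (n1_sub_le S z α) hcK
    linarith
  calc Real.exp (c * n1 S z) * S.W (z + α)
      ≤ Real.exp (c * n1 S z) * (CW S (c + K) * Real.exp (-((c + K) * (n1 S z - n1 S α)))) := by
        gcongr
        exact h1.trans (mul_le_mul_of_nonneg_left h2 (CW_pos S _).le)
    _ = CW S (c + K) * (Real.exp (c * n1 S z) * Real.exp (-((c + K) * (n1 S z - n1 S α)))) := by ring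
    _ = CW S (c + K) * (Real.exp ((c + K) * n1 S α) * Real.exp (-(K * n1 S z))) := by
        rw [← Real.exp_add, ← Real.exp_add]
        congr 2
        ring
    _ = _ := by ring

/-- functions of exponential growth are summable against every affine weight. -/
theorem kit_summable_of_exp_bound (S : LSys) (hS : S.Ok) (F : S.L → ℝ) (A c : ℝ) (hc : 0 ≤ c)
    (hF : ∀ z : S.L, |F z| ≤ A * Real.exp (c * n1 S (z : S.Amb))) (α : S.Amb) :
    Summable fun z : S.L => F z * S.W ((z : S.Amb) + α) := by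
  obtain ⟨K, hK, hsum⟩ := kit_summable_n1 S hS
  have hb : ∀ e, 0 ≤ S.b e := fun e => (hS.1 e).le
  refine Summable.of_norm_bounded
    (g := fun z : S.L => A * (CW S (c + K) * Real.exp ((c + K) * n1 S α)) * Real.exp (-(K * n1 S (z : S.Amb))))
    ((hsum K le_rfl).mul_left _) fun z => ?_
  have hA : 0 ≤ A := by
    have := (abs_nonneg _).trans (hF 0)
    exact nonneg_of_mul_nonneg_left this (Real.exp_pos _)
  rw [Real.norm_eq_abs, abs_mul, abs_of_nonneg (kit_W_nonneg S hb _)]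
  calc |F z| * S.W ((z : S.Amb) + α) ≤ A * Real.exp (c * n1 S (z : S.Amb)) * S.W ((z : S.Amb) + α) :=
        mul_le_mul_of_nonneg_right (hF z) (kit_W_nonneg S hb _)
    _ = A * (Real.exp (c * n1 S (z : S.Amb)) * S.W ((z : S.Amb) + α)) := by ring
    _ ≤ A * (CW S (c + K) * Real.exp ((c + K) * n1 S α) * Real.exp (-(K * n1 S (z : S.Amb)))) :=
        mul_le_mul_of_nonneg_left (kit_dom S hb c K (by positivity) _ _) hA
    _ = _ := by ring

/-- all exponential moments of all affine laws are finite -/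
theorem lsys_summable (S : LSys) (hS : S.Ok) (α : S.Amb) (Y : S.L →+ ℝ) :
    Summable fun z : S.L => Real.exp (Y z) * S.W ((z : S.Amb) + α) := by
  obtain ⟨C, hC, hY⟩ := kit_test_bound S hS Y
  refine kit_summable_of_exp_bound S hS (fun z => Real.exp (Y z)) 1 C hC (fun z => ?_) α
  rw [abs_of_pos (Real.exp_pos _), one_mul]
  exact Real.exp_le_exp.2 ((le_abs_self _).trans (hY z))

/-- positivity of all partition sums -/
theorem lsys_pos (S : LSys) (hS : S.Ok) (α : S.Amb) (Y : S.L →+ ℝ) : 0 < S.wT α Y :=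
  (lsys_summable S hS α Y).tsum_pos (fun _ => (mul_pos (Real.exp_pos _) (kit_W_pos S hS.1 _)).le) 0
    (mul_pos (Real.exp_pos _) (kit_W_pos S hS.1 _))

/-- inversion symmetry -/
theorem lsys_neg (S : LSys) (α : S.Amb) : S.w (-α) = S.w α := by
  unfold LSys.w LSys.Zf
  rw [← (Equiv.neg S.L).tsum_eq]
  refine tsum_congr fun z => ?_
  have : (((Equiv.neg S.L) z : S.L) : S.Amb) + -α = -((z : S.Amb) + α) := by
    simp [add_comm]
  rw [this, kit_W_neg]

/-- exact reindexing (integral gauge change): a datum in `L` can be removed -/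
theorem lsys_gauge (S : LSys) (α : S.Amb) (g : S.L) : S.w (α + g) = S.w α := by
  unfold LSys.w LSys.Zf
  rw [← (Equiv.addRight g).tsum_eq fun z : S.L => 1 * S.W ((z : S.Amb) + α)]
  refine tsum_congr fun z => ?_
  have : (z : S.Amb) + (α + g) = (((Equiv.addRight g) z : S.L) : S.Amb) + α := by
    simp only [Equiv.coe_addRight, AddSubgroup.coe_add]
    abel
  rw [this]

/-- Stores the on-demand equation lemmas of the definitions above in THIS module (rule 6 hygiene). -/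
theorem kit_sum_forced : True := by
  have := @n1.eq_1
  have := @CW.eq_1
  trivial

end

end Claimed.Agent.R285.Rsd
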