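import Claimed.Agent.R285.Rsd.Bes

/-!
# ROW 285, package BP-RSD-M, file 1: the DOUBLING IDENTITY of the Bessel weight (owner helper170)

`srw n s` = law at time `n` of the simple random walk on `ℤ` (defined by its recursion).

* `ms_bes_srw`   : `HasSum (fun n => b^n / n! * srw n k) (exp b * bes b k)`          (compound Poisson form of the Skellam law)
* `ms_srw_conv`  : `∑_{n₁+n₂=n} C(n,n₁) srw n₁ j · srw n₂ k = 2^n srw n (j+k) · srw n (j-k)`   (rotation by 45°; induction, no Vandermonde)
* `ms_bes_double`: `HasSum (fun n => exp(-2b) (2b)^n / n! * (srw n (j+k) * srw n (j-k))) (bes b j * bes b k)`.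
-/

set_option autoImplicit false

namespace Claimed.Agent.R285.Rsd

open Finset

noncomputable section

/-- the simple random walk kernel on `ℤ` -/
def srw : ℕ → ℤ → ℝ
  | 0, s => if s = 0 then 1 else 0
  | n + 1, s => (srw n (s - 1) + srw n (s + 1)) / 2

theorem srw_zero (s : ℤ) : srw 0 s = if s = 0 then 1 else 0 := rfl

theorem srw_succ (n : ℕ) (s : ℤ) : srw (n + 1) s = (srw n (s - 1) + srw n (s + 1)) / 2 := rfl

theorem srw_nonneg : ∀ (n : ℕ) (s : ℤ), 0 ≤ srw n s
  | 0, s => by rw [srw_zero]; split_ifs <;> norm_num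
  | n + 1, s => by rw [srw_succ]; linarith [srw_nonneg n (s - 1), srw_nonneg n (s + 1)]

theorem srw_le_one : ∀ (n : ℕ) (s : ℤ), srw n s ≤ 1
  | 0, s => by rw [srw_zero]; split_ifs <;> norm_num
  | n + 1, s => by rw [srw_succ]; linarith [srw_le_one n (s - 1), srw_le_one n (s + 1)]

theorem srw_neg : ∀ (n : ℕ) (s : ℤ), srw n (-s) = srw n s
  | 0, s => by simp [srw_zero]
  | n + 1, s => by
    rw [srw_succ, srw_succ, ← srw_neg n (s - 1), ← srw_neg n (s + 1)]
    have e1 : -(s - 1) = -s + 1 := by ring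
    have e2 : -(s + 1) = -s - 1 := by ring
    rw [e1, e2, add_comm]

theorem ms_hasSum_congr {ι α : Type*} [AddCommMonoid α] [TopologicalSpace α] {f g : ι → α} {a : α}
    (h : HasSum f a) (e : ∀ i, f i = g i) : HasSum g a := by
  rwa [show g = f from (funext e).symm]

/-- a sum over `ℕ × ℕ` grouped along the antidiagonals -/
theorem ms_hasSum_antidiagonal {f : ℕ × ℕ → ℝ} {a : ℝ} (h : HasSum f a) :
    HasSum (fun n => ∑ kl ∈ antidiagonal n, f kl) a := by
  have h1 := (Finset.HasAntidiagonal.sigmaAntidiagonalEquivProd (A := ℕ)).hasSum_iff.2 h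
  refine h1.sigma fun n => ?_
  have h2 := hasSum_fintype (fun c : antidiagonal n => f c)
  rw [Finset.sum_coe_sort (antidiagonal n) f] at h2
  exact h2

/-- the binomial form of the walk kernel -/
theorem ms_srw_eq : ∀ (n : ℕ) (k : ℤ),
    srw n k * 2 ^ n = ∑ ij ∈ antidiagonal n, (n.choose ij.1 : ℝ) * (if (ij.2 : ℤ) - ij.1 = k then 1 else 0)
  | 0, k => by
    rw [Finset.Nat.antidiagonal_zero, sum_singleton, srw_zero]
    by_cases h : k = 0
    · simp [h]
    · have h' : ¬ ((0 : ℤ) = k) := fun h' => h h'.symm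
      simp [h, h']
  | n + 1, k => by
    rw [Finset.sum_antidiagonal_choose_succ_mul
      (fun i j => (if (j : ℤ) - i = k then (1 : ℝ) else 0)) n, srw_succ]
    have h1 := ms_srw_eq n (k - 1)
    have h2 := ms_srw_eq n (k + 1)
    have e1 : ∑ ij ∈ antidiagonal n, (n.choose ij.1 : ℝ) * (if ((ij.2 + 1 : ℕ) : ℤ) - ij.1 = k then 1 else 0)
        = srw n (k - 1) * 2 ^ n := by
      rw [h1]
      refine sum_congr rfl fun ij _ => ?_
      congr 1
      refine if_congr ?_ rfl rfl
      push_cast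
      constructor <;> intro h <;> linarith
    have e2 : ∑ ij ∈ antidiagonal n, (n.choose ij.2 : ℝ) * (if (ij.2 : ℤ) - ((ij.1 + 1 : ℕ) : ℤ) = k then 1 else 0)
        = srw n (k + 1) * 2 ^ n := by
      rw [h2]
      refine sum_congr rfl fun ij hij => ?_
      rw [Nat.choose_symm_of_eq_add (mem_antidiagonal.1 hij).symm]
      congr 1
      refine if_congr ?_ rfl rfl
      push_cast
      constructor <;> intro h <;> linarith
    rw [e1, e2]
    ring

/-- the Skellam double series -/
def skel (b : ℝ) (y : ℕ × ℕ) : ℝ := (b / 2) ^ y.1 / (y.1.factorial : ℝ) * ((b / 2) ^ y.2 / (y.2.factorial : ℝ))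

theorem ms_skel_eqv (b : ℝ) (k : ℤ) (m : ℕ) :
    skel b (besEqv (k, m)) = (b / 2) ^ (2 * m + k.natAbs) / ((m.factorial : ℝ) * ((m + k.natAbs).factorial : ℝ)) := by
  have h := bes_D_eqv ((b / 2 : ℝ) : ℂ) 0 k m
  simp only [mul_zero, Complex.exp_zero, mul_one] at h
  have e : ((skel b (besEqv (k, m)) : ℝ) : ℂ) = besD ((b / 2 : ℝ) : ℂ) 0 (besEqv (k, m)) := by
    simp only [skel, besD, neg_zero, Complex.exp_zero, mul_one]
    push_cast
    rfl
  have := e.trans h
  exact_mod_cast this

theorem ms_besEqv_charge (x : ℤ × ℕ) : ((besEqv x).2 : ℤ) - (besEqv x).1 = x.1 := by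
  obtain ⟨k, m⟩ := x
  simp only [besEqv, Equiv.coe_fn_mk]
  push_cast
  omega

/-- the Skellam form of the Bessel weight -/
theorem ms_bes_skel (b : ℝ) (k : ℤ) :
    HasSum (fun y : ℕ × ℕ => if (y.2 : ℤ) - y.1 = k then skel b y else 0) (Real.exp b * bes b k) := by
  rw [← besEqv.hasSum_iff]
  have hinj : Function.Injective fun m : ℕ => ((k, m) : ℤ × ℕ) := fun m m' h => (Prod.mk.inj h).2
  rw [← hinj.hasSum_iff]
  · have h := (bes_inner_summable b k).hasSum
    have e : Real.exp b * bes b k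
        = ∑' m : ℕ, (b / 2) ^ (2 * m + k.natAbs) / ((m.factorial : ℝ) * ((m + k.natAbs).factorial : ℝ)) := by
      unfold bes
      rw [← mul_assoc, ← Real.exp_add]
      simp
    rw [e]
    refine ms_hasSum_congr h fun m => ?_
    simp only [Function.comp, ms_besEqv_charge, if_true, ms_skel_eqv]
  · intro x hx
    simp only [Function.comp, ms_besEqv_charge]
    rw [if_neg]
    intro h
    exact hx ⟨x.2, by rw [← h]⟩

/-- compound Poisson form -/
theorem ms_bes_srw (b : ℝ) (k : ℤ) :
    HasSum (fun n : ℕ => b ^ n / (n.factorial : ℝ) * srw n k) (Real.exp b * bes b k) := by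
  have h := ms_hasSum_antidiagonal (ms_bes_skel b k)
  refine ms_hasSum_congr h fun n => ?_
  symm
  have h2 : srw n k = (∑ ij ∈ antidiagonal n, (n.choose ij.1 : ℝ) * (if (ij.2 : ℤ) - ij.1 = k then 1 else 0)) / 2 ^ n := by
    rw [← ms_srw_eq, mul_div_cancel_right₀ _ (by positivity)]
  rw [h2, mul_div_assoc', Finset.mul_sum, Finset.sum_div]
  refine sum_congr rfl fun ij hij => ?_
  have hn : ij.1 + ij.2 = n := mem_antidiagonal.1 hij
  split_ifs
  · subst hn
    rw [Nat.cast_add_choose ℝ, skel, pow_add, div_pow, div_pow, pow_add]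
    have h1 : (ij.1.factorial : ℝ) ≠ 0 := by positivity
    have h2 : (ij.2.factorial : ℝ) ≠ 0 := by positivity
    have h3 : ((ij.1 + ij.2).factorial : ℝ) ≠ 0 := by positivity
    field_simp
  · simp

/-- rotation by 45 degrees -/
theorem ms_srw_conv : ∀ (n : ℕ) (j k : ℤ),
    ∑ ij ∈ antidiagonal n, (n.choose ij.1 : ℝ) * (srw ij.1 j * srw ij.2 k)
      = 2 ^ n * (srw n (j + k) * srw n (j - k))
  | 0, j, k => by
    rw [Finset.Nat.antidiagonal_zero, sum_singleton]
    simp only [srw_zero, Nat.choose_self, Nat.cast_one, one_mul, pow_zero]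
    by_cases hj : j = 0
    · subst hj
      by_cases hk : k = 0
      · simp [hk]
      · simp [hk]
    · by_cases h1 : j + k = 0
      · have h2 : ¬ (j - k = 0) := by omega
        simp [hj, h2]
      · simp [hj, h1]
  | n + 1, j, k => by
    rw [Finset.sum_antidiagonal_choose_succ_mul (fun a c => srw a j * srw c k) n]
    have e1 : ∑ ij ∈ antidiagonal n, (n.choose ij.1 : ℝ) * (srw ij.1 j * srw (ij.2 + 1) k)
        = (2 ^ n * (srw n (j + (k - 1)) * srw n (j - (k - 1)))
          + 2 ^ n * (srw n (j + (k + 1)) * srw n (j - (k + 1)))) / 2 := by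
      rw [← ms_srw_conv n j (k - 1), ← ms_srw_conv n j (k + 1), ← sum_add_distrib, sum_div]
      refine sum_congr rfl fun ij _ => ?_
      rw [srw_succ]
      ring
    have e2 : ∑ ij ∈ antidiagonal n, (n.choose ij.2 : ℝ) * (srw (ij.1 + 1) j * srw ij.2 k)
        = (2 ^ n * (srw n (j - 1 + k) * srw n (j - 1 - k))
          + 2 ^ n * (srw n (j + 1 + k) * srw n (j + 1 - k))) / 2 := by
      rw [← ms_srw_conv n (j - 1) k, ← ms_srw_conv n (j + 1) k, ← sum_add_distrib, sum_div]
      refine sum_congr rfl fun ij hij => ?_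
      rw [srw_succ, Nat.choose_symm_of_eq_add (mem_antidiagonal.1 hij).symm]
      ring
    rw [e1, e2, srw_succ, srw_succ]
    have a1 : j + (k - 1) = j + k - 1 := by ring
    have a2 : j - (k - 1) = j - k + 1 := by ring
    have a3 : j + (k + 1) = j + k + 1 := by ring
    have a4 : j - (k + 1) = j - k - 1 := by ring
    have a5 : j - 1 + k = j + k - 1 := by ring
    have a6 : j - 1 - k = j - k - 1 := by ring
    have a7 : j + 1 + k = j + k + 1 := by ring
    have a8 : j + 1 - k = j - k + 1 := by ring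
    rw [a1, a2, a3, a4, a5, a6, a7, a8]
    ring

theorem ms_srw_summable_norm (b : ℝ) (k : ℤ) :
    Summable fun n : ℕ => ‖b ^ n / (n.factorial : ℝ) * srw n k‖ := by
  refine Summable.of_nonneg_of_le (fun _ => norm_nonneg _) (fun n => ?_)
    (Real.summable_pow_div_factorial |b|)
  rw [norm_mul, norm_div, norm_pow, Real.norm_eq_abs, Real.norm_eq_abs, Real.norm_eq_abs,
    abs_of_nonneg (srw_nonneg n k), abs_of_pos (by positivity : (0 : ℝ) < n.factorial)]
  exact mul_le_of_le_one_right (by positivity) (srw_le_one n k)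

/-- **the doubling identity of the Bessel weight** (all real `b`) -/
theorem ms_bes_double (b : ℝ) (j k : ℤ) :
    HasSum (fun n : ℕ => Real.exp (-(2 * b)) * (2 * b) ^ n / (n.factorial : ℝ) * (srw n (j + k) * srw n (j - k)))
      (bes b j * bes b k) := by
  have h1 := (ms_bes_srw b j).mul (ms_bes_srw b k)
    (summable_mul_of_summable_norm (ms_srw_summable_norm b j) (ms_srw_summable_norm b k))
  have h2 := (ms_hasSum_antidiagonal h1).mul_left (Real.exp (-(2 * b)))
  have e : Real.exp (-(2 * b)) * (Real.exp b * bes b j * (Real.exp b * bes b k)) = bes b j * bes b k := by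
    have : Real.exp (-(2 * b)) * (Real.exp b * Real.exp b) = 1 := by
      rw [← Real.exp_add, ← Real.exp_add]
      simp
      ring
    calc _ = Real.exp (-(2 * b)) * (Real.exp b * Real.exp b) * (bes b j * bes b k) := by ring
      _ = _ := by rw [this, one_mul]
  rw [e] at h2
  refine ms_hasSum_congr h2 fun n => ?_
  have h3 : ∑ kl ∈ antidiagonal n, b ^ kl.1 / (kl.1.factorial : ℝ) * srw kl.1 j
      * (b ^ kl.2 / (kl.2.factorial : ℝ) * srw kl.2 k)
      = b ^ n / (n.factorial : ℝ) * ∑ ij ∈ antidiagonal n, (n.choose ij.1 : ℝ) * (srw ij.1 j * srw ij.2 k) := by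
    rw [Finset.mul_sum]
    refine sum_congr rfl fun ij hij => ?_
    have hn : ij.1 + ij.2 = n := mem_antidiagonal.1 hij
    subst hn
    rw [Nat.cast_add_choose ℝ, pow_add]
    have h1 : (ij.1.factorial : ℝ) ≠ 0 := by positivity
    have h2 : (ij.2.factorial : ℝ) ≠ 0 := by positivity
    have h3 : ((ij.1 + ij.2).factorial : ℝ) ≠ 0 := by positivity
    field_simp
  rw [h3, ms_srw_conv, mul_pow]
  ring

end

end Claimed.Agent.R285.Rsd
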