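import Claimed.Agent.R285.Base.HeightDefs
import Claimed.Agent.R285.Rsd.MasterBes
import Claimed.Agent.R285.Rsd.MasterSum

/-!
# ROW 285, package BP-RSD-M, file 3: THE DOUBLING REPRESENTATION (owner helper170)

* `ms_W_double` : `W(u) W(v) = ∑_{ν : E → ℕ} lam ν · Gn ν (u+v) · Gn ν (u-v)`   (`HasSum`);
* `Par S = L / 2L`, `par`, `amp S (ν,d) s F = ∑_{p ∈ d} Gn ν (p + s) F p`;
* `ms_DR` : for ARBITRARY `F1 F2 : L → ℂ` such that `W(u+a) W(v+b) ‖F1(u+v)‖ ‖F2(u-v)‖` is summable over `L × L`: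
  `∑_{(u,v)} W(u+a) W(v+b) F1(u+v) F2(u-v) = ∑_{(ν,d)} lam ν · amp (ν,d) (a+b) F1 · amp (ν,d) (a-b) F2`   (`HasSum` over `(ν,d)`).
No input from the other packages (only `bes_*` through `ms_bes_double`).
-/

set_option autoImplicit false

namespace Claimed.Agent.R285.Rsd

noncomputable section

variable (S : LSys)

/-- weights of the doubling representation -/
def lam (ν : S.E → ℕ) : ℝ :=
  ∏ e, (Real.exp (-(2 * S.b e)) * (2 * S.b e) ^ ν e / ((ν e).factorial : ℝ))

/-- the half weights -/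
def Gn (ν : S.E → ℕ) (s : S.Amb) : ℝ := (∏ e, srw (ν e) (s.1 e)) * Real.exp (-(∑ o, s.2 o ^ 2) / 4)

theorem lam_pos (hb : ∀ e, 0 < S.b e) (ν : S.E → ℕ) : 0 < lam S ν :=
  Finset.prod_pos fun e _ => by have := hb e; positivity

theorem Gn_nonneg (ν : S.E → ℕ) (s : S.Amb) : 0 ≤ Gn S ν s :=
  mul_nonneg (Finset.prod_nonneg fun _ _ => srw_nonneg _ _) (Real.exp_pos _).le

theorem Gn_neg (ν : S.E → ℕ) (s : S.Amb) : Gn S ν (-s) = Gn S ν s := by
  unfold Gn
  simp [srw_neg]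

/-- **doubling of the weight** -/
theorem ms_W_double (hb : ∀ e, 0 < S.b e) (u v : S.Amb) :
    HasSum (fun ν : S.E → ℕ => lam S ν * (Gn S ν (u + v) * Gn S ν (u - v))) (S.W u * S.W v) := by
  have h1 := ms_hasSum_pi_prod
    (fun (e : S.E) (n : ℕ) => Real.exp (-(2 * S.b e)) * (2 * S.b e) ^ n / (n.factorial : ℝ)
      * (srw n (u.1 e + v.1 e) * srw n (u.1 e - v.1 e)))
    (fun e => bes (S.b e) (u.1 e) * bes (S.b e) (v.1 e))
    (fun e n => by
      have := hb e
      have h1 := srw_nonneg n (u.1 e + v.1 e)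
      have h2 := srw_nonneg n (u.1 e - v.1 e)
      positivity)
    (fun e => ms_bes_double (S.b e) (u.1 e) (v.1 e))
  have h2 := h1.mul_right (Real.exp (-(∑ o, (u + v).2 o ^ 2) / 4) * Real.exp (-(∑ o, (u - v).2 o ^ 2) / 4))
  have e1 : Real.exp (-(∑ o, (u + v).2 o ^ 2) / 4) * Real.exp (-(∑ o, (u - v).2 o ^ 2) / 4)
      = Real.exp (-(∑ o, u.2 o ^ 2) / 2) * Real.exp (-(∑ o, v.2 o ^ 2) / 2) := by
    rw [← Real.exp_add, ← Real.exp_add]
    congr 1
    have : ∑ o, (u + v).2 o ^ 2 + ∑ o, (u - v).2 o ^ 2 = 2 * ∑ o, u.2 o ^ 2 + 2 * ∑ o, v.2 o ^ 2 := by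
      rw [← Finset.sum_add_distrib, Finset.mul_sum, Finset.mul_sum, ← Finset.sum_add_distrib]
      refine Finset.sum_congr rfl fun o _ => ?_
      simp only [Prod.snd_add, Prod.snd_sub, Pi.add_apply, Pi.sub_apply]
      ring
    linarith
  have e2 : (∏ e, bes (S.b e) (u.1 e) * bes (S.b e) (v.1 e))
      * (Real.exp (-(∑ o, (u + v).2 o ^ 2) / 4) * Real.exp (-(∑ o, (u - v).2 o ^ 2) / 4)) = S.W u * S.W v := by
    rw [e1, Finset.prod_mul_distrib]
    unfold LSys.W
    ring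
  rw [e2] at h2
  refine ms_hasSum_congr h2 fun ν => ?_
  unfold lam Gn
  rw [Finset.prod_mul_distrib, Finset.prod_mul_distrib]
  simp only [Prod.fst_add, Prod.fst_sub, Pi.add_apply, Pi.sub_apply]
  ring

/-! ### parity classes -/

/-- the subgroup `2L` -/
def dbl : AddSubgroup S.L := (zsmulAddGroupHom (2 : ℤ) : S.L →+ S.L).range

/-- `L / 2L` -/
abbrev Par : Type := S.L ⧸ dbl S

/-- the parity class -/
def par (p : S.L) : Par S := QuotientAddGroup.mk p

variable {S}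

theorem par_eq_iff (p q : S.L) : par S p = par S q ↔ ∃ v : S.L, p - q = v + v := by
  unfold par
  rw [QuotientAddGroup.eq]
  constructor
  · rintro ⟨w, hw⟩
    refine ⟨-w, ?_⟩
    have : (2 : ℤ) • w = -p + q := hw
    rw [two_zsmul] at this
    have e : p - q = -(-p + q) := by abel
    rw [e, ← this]
    abel
  · rintro ⟨v, hv⟩
    refine ⟨-v, ?_⟩
    show (2 : ℤ) • (-v) = -p + q
    rw [two_zsmul]
    have e : -p + q = -(p - q) := by abel
    rw [e, hv]
    abel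

theorem ms_double_inj {x y : S.L} (h : x + x = y + y) : x = y := by
  have h' : (x : S.Amb) + x = y + y := congrArg Subtype.val h
  apply Subtype.ext
  refine Prod.ext (funext fun e => ?_) (funext fun o => ?_)
  · have := congrFun (congrArg Prod.fst h') e
    simp only [Prod.fst_add, Pi.add_apply] at this
    omega
  · have := congrFun (congrArg Prod.snd h') o
    simp only [Prod.snd_add, Pi.add_apply] at this
    linarith

variable (S)

open Classical in
/-- one factor of the representation: the summand of `amp` -/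
def ampT (i : (S.E → ℕ) × Par S) (s : S.Amb) (F : S.L → ℂ) (p : S.L) : ℂ :=
  if par S p = i.2 then ((Gn S i.1 ((p : S.Amb) + s) : ℝ) : ℂ) * F p else 0

/-- the coset amplitudes `∑_{p ∈ d} Gn ν (p + s) F p` -/
def amp (i : (S.E → ℕ) × Par S) (s : S.Amb) (F : S.L → ℂ) : ℂ := ∑' p : S.L, ampT S i s F p

theorem amp_conj (i : (S.E → ℕ) × Par S) (s : S.Amb) (F : S.L → ℂ) :
    (starRingEnd ℂ) (amp S i s F) = amp S i s fun p => (starRingEnd ℂ) (F p) := by
  unfold amp
  rw [Complex.conj_tsum]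
  refine tsum_congr fun p => ?_
  unfold ampT
  split_ifs
  · rw [map_mul, Complex.conj_ofReal]
  · simp

/-- the change of variables `(u,v) ↦ (u+v, u-v)` with the index `ν` and the parity class -/
def drMap (x : (S.L × S.L) × (S.E → ℕ)) : ((S.E → ℕ) × Par S) × (S.L × S.L) :=
  ((x.2, par S (x.1.1 + x.1.2)), (x.1.1 + x.1.2, x.1.1 - x.1.2))

theorem drMap_injective : Function.Injective (drMap S) := by
  rintro ⟨⟨u, v⟩, ν⟩ ⟨⟨u', v'⟩, ν'⟩ h
  simp only [drMap, Prod.mk.injEq] at h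
  obtain ⟨⟨hν, -⟩, h1, h2⟩ := h
  have hu : u = u' := ms_double_inj (by
    have : u + u = (u + v) + (u - v) := by abel
    rw [this, h1, h2]
    abel)
  have hv : v = v' := by
    subst hu
    exact add_left_cancel h1
  rw [hu, hv, hν]

/-- **THE DOUBLING REPRESENTATION** -/
theorem ms_DR (hb : ∀ e, 0 < S.b e) (a b : S.Amb) (F1 F2 : S.L → ℂ)
    (hs : Summable fun x : S.L × S.L =>
      S.W ((x.1 : S.Amb) + a) * S.W ((x.2 : S.Amb) + b) * (‖F1 (x.1 + x.2)‖ * ‖F2 (x.1 - x.2)‖)) :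
    HasSum (fun i : (S.E → ℕ) × Par S => (lam S i.1 : ℂ) * amp S i (a + b) F1 * amp S i (a - b) F2)
      (∑' x : S.L × S.L, ((S.W ((x.1 : S.Amb) + a) * S.W ((x.2 : S.Amb) + b) : ℝ) : ℂ)
        * (F1 (x.1 + x.2) * F2 (x.1 - x.2))) := by
  classical
  -- the total family
  set Θ : ((S.E → ℕ) × Par S) × (S.L × S.L) → ℂ := fun y =>
    (lam S y.1.1 : ℂ) * (ampT S y.1 (a + b) F1 y.2.1 * ampT S y.1 (a - b) F2 y.2.2) with hΘ
  -- its pull back
  have hW : ∀ x : S.L × S.L, HasSum (fun ν : S.E → ℕ =>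
      lam S ν * (Gn S ν (((x.1 + x.2 : S.L) : S.Amb) + (a + b)) * Gn S ν (((x.1 - x.2 : S.L) : S.Amb) + (a - b))))
      (S.W ((x.1 : S.Amb) + a) * S.W ((x.2 : S.Amb) + b)) := by
    intro x
    have h := ms_W_double S hb ((x.1 : S.Amb) + a) ((x.2 : S.Amb) + b)
    have e1 : (x.1 : S.Amb) + a + ((x.2 : S.Amb) + b) = ((x.1 + x.2 : S.L) : S.Amb) + (a + b) := by
      push_cast; abel
    have e2 : (x.1 : S.Amb) + a - ((x.2 : S.Amb) + b) = ((x.1 - x.2 : S.L) : S.Amb) + (a - b) := by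
      push_cast; abel
    rwa [e1, e2] at h
  have hpull : ∀ x : (S.L × S.L) × (S.E → ℕ), Θ (drMap S x) =
      ((lam S x.2 * (Gn S x.2 (((x.1.1 + x.1.2 : S.L) : S.Amb) + (a + b))
        * Gn S x.2 (((x.1.1 - x.1.2 : S.L) : S.Amb) + (a - b))) : ℝ) : ℂ)
        * (F1 (x.1.1 + x.1.2) * F2 (x.1.1 - x.1.2)) := by
    intro x
    have hp : par S (x.1.1 - x.1.2) = par S (x.1.1 + x.1.2) :=
      (par_eq_iff _ _).2 ⟨-x.1.2, by abel⟩
    simp only [hΘ, drMap, ampT, if_true, hp]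
    push_cast
    ring
  have hzero : ∀ y ∉ Set.range (drMap S), Θ y = 0 := by
    rintro ⟨⟨ν, d⟩, ⟨p, q⟩⟩ hy
    simp only [hΘ, ampT]
    by_cases h1 : par S p = d
    · by_cases h2 : par S q = d
      · exfalso
        obtain ⟨v, hv⟩ := (par_eq_iff p q).1 (h1.trans h2.symm)
        apply hy
        refine ⟨((q + v, v), ν), ?_⟩
        have e1 : q + v + v = p := by
          rw [add_assoc, ← hv]; abel
        simp only [drMap, e1, h1, add_sub_cancel_right]
      · rw [if_neg h2]; simp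
    · rw [if_neg h1]; simp
  -- summability of the pull back
  have hnorm : ∀ x : (S.L × S.L) × (S.E → ℕ), ‖Θ (drMap S x)‖ =
      lam S x.2 * (Gn S x.2 (((x.1.1 + x.1.2 : S.L) : S.Amb) + (a + b))
        * Gn S x.2 (((x.1.1 - x.1.2 : S.L) : S.Amb) + (a - b)))
        * (‖F1 (x.1.1 + x.1.2)‖ * ‖F2 (x.1.1 - x.1.2)‖) := by
    intro x
    rw [hpull, norm_mul, norm_mul, Complex.norm_real, Real.norm_eq_abs, abs_of_nonneg]
    exact mul_nonneg (lam_pos S hb _).le (mul_nonneg (Gn_nonneg S _ _) (Gn_nonneg S _ _))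
  have hsumN : Summable fun x : (S.L × S.L) × (S.E → ℕ) => ‖Θ (drMap S x)‖ := by
    rw [summable_prod_of_nonneg fun x => norm_nonneg _]
    constructor
    · intro x
      simp only [hnorm]
      exact ((hW x).mul_right _).summable
    · refine hs.congr fun x => ?_
      simp only [hnorm]
      exact (((hW x).mul_right _).tsum_eq).symm
  have hT : HasSum (fun x : (S.L × S.L) × (S.E → ℕ) => Θ (drMap S x))
      (∑' x : S.L × S.L, ((S.W ((x.1 : S.Amb) + a) * S.W ((x.2 : S.Amb) + b) : ℝ) : ℂ)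
        * (F1 (x.1 + x.2) * F2 (x.1 - x.2))) := by
    have h1 := hsumN.of_norm
    have h2 := h1.tsum_prod
    rw [← (tsum_congr fun x : S.L × S.L => ?_ : (∑' x : S.L × S.L, ∑' ν : S.E → ℕ, Θ (drMap S (x, ν))) = _), ← h2]
    · exact h1.hasSum
    · simp only [hpull]
      exact ((Complex.hasSum_ofReal.2 (hW x)).mul_right _).tsum_eq
  have hΘsum : HasSum Θ (∑' x : S.L × S.L, ((S.W ((x.1 : S.Amb) + a) * S.W ((x.2 : S.Amb) + b) : ℝ) : ℂ)
        * (F1 (x.1 + x.2) * F2 (x.1 - x.2))) :=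
    ((drMap_injective S).hasSum_iff hzero).1 hT
  have hΘnorm : Summable fun y => ‖Θ y‖ :=
    ((drMap_injective S).summable_iff (f := fun y => ‖Θ y‖) fun y hy => by rw [hzero y hy, norm_zero]).1 hsumN
  -- fibrewise
  refine hΘsum.prod_fiberwise fun i => ?_
  have hfib : Summable fun x : S.L × S.L => ‖ampT S i (a + b) F1 x.1‖ * ‖ampT S i (a - b) F2 x.2‖ := by
    have h1 := hΘnorm.prod_factor i
    have h2 : ∀ x : S.L × S.L, ‖Θ (i, x)‖
        = lam S i.1 * (‖ampT S i (a + b) F1 x.1‖ * ‖ampT S i (a - b) F2 x.2‖) := by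
      intro x
      simp only [hΘ]
      rw [norm_mul, norm_mul, Complex.norm_real, Real.norm_eq_abs, abs_of_pos (lam_pos S hb _)]
    simp only [h2] at h1
    exact (summable_mul_left_iff (lam_pos S hb _).ne').1 h1
  have h3 := (ms_hasSum_prod_family _ _ hfib).mul_left (lam S i.1 : ℂ)
  rw [← mul_assoc] at h3
  exact h3

end

end Claimed.Agent.R285.Rsd
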